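import Vale.Agent.P359.Defs

/-!
Shared working definitions: spin coupling, the exchange operator and its channels.
-/

namespace Vale.Agent.P359

open Finset

/-- Lowering coefficient of spin `A/2` from level `a` to level `a + 1`. -/
noncomputable def lad (A a : ℕ) : ℝ := Real.sqrt ((a + 1 : ℝ) * ((A : ℝ) - a))

/-- `Jm` on functions of two levels (spins `A/2`, `B/2`). -/
noncomputable def lower2 (A B : ℕ) (f : ℕ → ℕ → ℝ) (i b : ℕ) : ℝ :=
  (if 1 ≤ i ∧ i ≤ A then lad A (i - 1) * f (i - 1) b else 0) +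
    (if 1 ≤ b ∧ b ≤ B then lad B (b - 1) * f i (b - 1) else 0)

/-- `Jp` on functions of two levels. -/
noncomputable def raise2 (A B : ℕ) (f : ℕ → ℕ → ℝ) (i b : ℕ) : ℝ :=
  (if i < A then lad A i * f (i + 1) b else 0) + (if b < B then lad B b * f i (b + 1) else 0)

/-- Unnormalised coupled vector: channel `k`, total level `T`. -/
noncomputable def coupRaw (A B k T i b : ℕ) : ℝ :=
  if i + b = T ∧ i ≤ A ∧ b ≤ B then
    (∑ r ∈ range (k + 1), if k ≤ i + r ∧ r ≤ b then
      (-1 : ℝ) ^ r * (k.choose r) * ((A - k).choose (i + r - k)) * ((B - k).choose (b - r)) else 0) /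
      Real.sqrt ((A.choose i : ℝ) * (B.choose b))
  else 0

/-- Coupled orthonormal vector: channel `k` (spin `(A+B)/2 - k`), total level `T`. -/
noncomputable def coup (A B k T i b : ℕ) : ℝ :=
  coupRaw A B k T i b /
    Real.sqrt (∑ i' ∈ range (A + 1), ∑ b' ∈ range (B + 1), coupRaw A B k T i' b' ^ 2)

/-- The pair state of relative momentum one with centre-of-mass level `M`. -/
noncomputable def phi (Q M a b : ℕ) : ℝ :=
  if a + b = M + 1 ∧ a ≤ Q ∧ b ≤ Q then
    ((b : ℝ) - a) * Real.sqrt ((Q.choose a : ℝ) * (Q.choose b) / (2 * Q * ((2 * Q - 2).choose M)))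
  else 0

/-- The exchange operator between a pair (spin `Q - 1`) and one fermion. -/
noncomputable def exch (Q : ℕ) (p q : Fin (2 * Q - 1) × Fin (Q + 1)) : ℝ :=
  2 * ∑ a : Fin (Q + 1), phi Q p.1 a q.2 * phi Q q.1 a p.2

/-- Eigenvalue of `exch` in channel `k`. -/
noncomputable def chanW (Q k : ℕ) : ℝ :=
  ∑ b ∈ range (k + 1), (-1 : ℝ) ^ b * (k.choose b) * ((k : ℝ) + 1 - 2 * b) *
    ((Q - 1).choose (k - b)) / ((2 * Q - 2).choose (k - b))

/-- Marginal form of an `n`-fermion state with an impurity: configurations. -/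
abbrev Conf (Q n : ℕ) : Type := Fin (2 * Q - 1) × (Fin n → Fin (Q + 1))

/-- The pair projection on real amplitudes. -/
noncomputable def proj1 (Q : ℕ) (p q : Fin (Q + 1) × Fin (Q + 1)) : ℝ :=
  ∑ M : Fin (2 * Q - 1), phi Q M p.1 p.2 * phi Q M q.1 q.2

/-- The energy of the `n` fermions of an impurity state. -/
noncomputable def fermEnergy {Q n : ℕ} (X : Conf Q n → ℝ) : ℝ :=
  ∑ i, ∑ x : Fin n → Fin (Q + 1), X (i, x) * ∑ p, ∑ q, if p < q then
      ∑ a, ∑ b, proj1 Q (x p, x q) (a, b) * X (i, Function.update (Function.update x p a) q b)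
    else 0

/-- The exchange energy of the impurity with all fermions. -/
noncomputable def exchEnergy {Q n : ℕ} (X : Conf Q n → ℝ) : ℝ :=
  ∑ i, ∑ x : Fin n → Fin (Q + 1), X (i, x) * ∑ p, ∑ i', ∑ a,
    exch Q (i, x p) (i', a) * X (i', Function.update x p a)

/-- Squared norm of an impurity state. -/
def confNormSq {Q n : ℕ} (X : Conf Q n → ℝ) : ℝ := ∑ z, X z ^ 2

/-- No component in the three forbidden channels `0`, `1`, `3`, antisymmetric in the fermions. -/
def Allowed {Q n : ℕ} (X : Conf Q n → ℝ) : Prop :=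
  (∀ i, Antisym fun x => X (i, x)) ∧
    ∀ k ∈ ({0, 1, 3} : Finset ℕ), ∀ T, k ≤ T → T + k ≤ 3 * Q - 2 → ∀ (p : Fin n) (x : Fin n → Fin (Q + 1)),
      ∑ i : Fin (2 * Q - 1), ∑ a : Fin (Q + 1),
        coup (2 * Q - 2) Q k T i a * X (i, Function.update x p a) = 0

/-- Impurity marginal. -/
def marg0 {Q n : ℕ} (X : Conf Q n → ℝ) (i i' : Fin (2 * Q - 1)) : ℝ :=
  ∑ x : Fin n → Fin (Q + 1), X (i, x) * X (i', x)

/-- Impurity and one fermion: `⟨|i⟩⟨i'| c†_a c_a'⟩`. -/
def marg1 {Q n : ℕ} (X : Conf Q n → ℝ) (i : Fin (2 * Q - 1)) (a : Fin (Q + 1))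
    (i' : Fin (2 * Q - 1)) (a' : Fin (Q + 1)) : ℝ :=
  ∑ p, ∑ x : Fin n → Fin (Q + 1), if x p = a then X (i, x) * X (i', Function.update x p a') else 0

/-- Impurity and an ordered pair of distinct fermions. -/
def marg2 {Q n : ℕ} (X : Conf Q n → ℝ) (i : Fin (2 * Q - 1)) (a b : Fin (Q + 1))
    (i' : Fin (2 * Q - 1)) (a' b' : Fin (Q + 1)) : ℝ :=
  ∑ p, ∑ q, ∑ x : Fin n → Fin (Q + 1), if p ≠ q ∧ x p = a ∧ x q = b then
    X (i, x) * X (i', Function.update (Function.update x p a') q b') else 0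

/-- Fermion sign of removing level `a` from the occupied set `s`. -/
def fsign (s : Finset ℕ) (a : ℕ) : ℝ := (-1) ^ (s.filter (· < a)).card

/-- Quadratic form of a window operator on occupation states `(i, s)`, `i ≤ S`, `s ⊆ range J`. -/
def winForm (S J : ℕ) (C : ℕ → ℝ) (w : ℕ → ℕ → ℕ → ℕ → ℝ) (G : ℕ → ℕ → ℕ → ℕ → ℕ → ℕ → ℝ)
    (u : ℕ → Finset ℕ → ℝ) : ℝ :=
  (∑ i ∈ range (S + 1), ∑ s ∈ (range J).powerset, C i * u i s ^ 2)
  - (∑ i ∈ range (S + 1), ∑ i' ∈ range (S + 1), ∑ s ∈ (range J).powerset, ∑ a ∈ s, ∑ a' ∈ range J,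
      if a' ∈ s.erase a then 0 else
        w i a i' a' * (fsign s a * fsign (insert a' (s.erase a)) a') * u i s * u i' (insert a' (s.erase a)))
  + ∑ i ∈ range (S + 1), ∑ i' ∈ range (S + 1), ∑ s ∈ (range J).powerset,
      ∑ a ∈ s, ∑ b ∈ s, ∑ a' ∈ range J, ∑ b' ∈ range J,
        if a < b ∧ a' < b' ∧ a' ∉ (s.erase a).erase b ∧ b' ∉ (s.erase a).erase b then
          G i a b i' a' b' *
            (fsign s a * fsign (s.erase a) b * (fsign (insert a' (insert b' ((s.erase a).erase b))) a' *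
              fsign (insert b' ((s.erase a).erase b)) b')) *
            u i s * u i' (insert a' (insert b' ((s.erase a).erase b)))
        else 0

end Vale.Agent.P359
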