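import Mathlib

/-!
Lowering chains of a matrix, and the forms that commute with it.
-/

namespace Vale.Agent.P359

open Finset Matrix

variable {ι : Type*} [Fintype ι]

/-- A chain `v k → v (k+1) → … → v top` of the lowering matrix `L`, graded by `lev`. -/
structure Chain (L : Matrix ι ι ℝ) (lev : ι → ℕ) (k top : ℕ) (c : ℕ → ℝ) (v : ℕ → ι → ℝ) :
    Prop where
  low : ∀ T, k ≤ T → T < top → L *ᵥ v T = c T • v (T + 1)
  high : ∀ T, k ≤ T → T < top → Lᵀ *ᵥ v (T + 1) = c T • v T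
  first : Lᵀ *ᵥ v k = 0
  grade : ∀ T, k ≤ T → T ≤ top → ∀ u, v T u ≠ 0 → lev u = T
  ne : ∀ T, k ≤ T → T < top → c T ≠ 0

/-- A symmetric matrix commuting with the lowering and the grading. -/
structure Invar (L : Matrix ι ι ℝ) (lev : ι → ℕ) (M : Matrix ι ι ℝ) : Prop where
  symm : Mᵀ = M
  comm : L * M = M * L
  graded : ∀ u u', lev u ≠ lev u' → M u u' = 0

variable {L M : Matrix ι ι ℝ} {lev : ι → ℕ} {k k' top top' : ℕ} {c c' : ℕ → ℝ}
  {v v' : ℕ → ι → ℝ}

theorem Chain.pair_level (hv : Chain L lev k top c v) (hv' : Chain L lev k' top' c' v')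
    (hM : Invar L lev M) {T T' : ℕ} (h1 : k ≤ T) (h2 : T ≤ top) (h1' : k' ≤ T') (h2' : T' ≤ top')
    (hne : T ≠ T') : v T ⬝ᵥ (M *ᵥ v' T') = 0 := by
  simp only [dotProduct, mulVec, Finset.mul_sum]
  refine Finset.sum_eq_zero fun u _ => Finset.sum_eq_zero fun u' _ => ?_
  by_cases hu : v T u = 0
  · simp [hu]
  by_cases hu' : v' T' u' = 0
  · simp [hu']
  rw [hM.graded u u' (by rw [hv.grade T h1 h2 u hu, hv'.grade T' h1' h2' u' hu']; exact hne)]
  simp

/-- One step along two chains. -/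
theorem Chain.pair_step (hv : Chain L lev k top c v) (hv' : Chain L lev k' top' c' v')
    (hM : Invar L lev M) {T T' : ℕ} (h1 : k ≤ T) (h2 : T < top) (h1' : k' ≤ T') (h2' : T' < top') :
    c' T' * (v (T + 1) ⬝ᵥ (M *ᵥ v' (T' + 1))) = c T * (v T ⬝ᵥ (M *ᵥ v' T')) := by
  have e1 : v (T + 1) ⬝ᵥ (M *ᵥ (L *ᵥ v' T')) = c' T' * (v (T + 1) ⬝ᵥ (M *ᵥ v' (T' + 1))) := by
    rw [hv'.low T' h1' h2', mulVec_smul, dotProduct_smul, smul_eq_mul]
  rw [← e1, mulVec_mulVec, ← hM.comm, ← mulVec_mulVec, dotProduct_mulVec, ← mulVec_transpose,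
    hv.high T h1 h2, smul_dotProduct, smul_eq_mul]

/-- Chains of equal length and coefficients pair constantly. -/
theorem Chain.pair_same (hv : Chain L lev k top c v) (hv' : Chain L lev k top c v')
    (hM : Invar L lev M) {T : ℕ} (h1 : k ≤ T) (h2 : T ≤ top) :
    v T ⬝ᵥ (M *ᵥ v' T) = v k ⬝ᵥ (M *ᵥ v' k) := by
  induction T, h1 using Nat.le_induction with
  | base => rfl
  | succ T hT ih =>
    have h := hv.pair_step hv' hM hT h2 hT h2
    rw [← ih (by omega)]
    exact mul_left_cancel₀ (hv.ne T hT h2) h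

/-- Chains with different tops do not pair. -/
theorem Chain.pair_diff (hv : Chain L lev k top c v) (hv' : Chain L lev k' top' c' v')
    (hM : Invar L lev M) (hlt : k < k') {T : ℕ} (h1 : k' ≤ T) (h2 : T ≤ top) (h2' : T ≤ top') :
    v T ⬝ᵥ (M *ᵥ v' T) = 0 := by
  induction T, h1 using Nat.le_induction with
  | base =>
    obtain ⟨s, rfl⟩ : ∃ s, k' = s + 1 := ⟨k' - 1, by omega⟩
    have h : (L *ᵥ v s) ⬝ᵥ (M *ᵥ v' (s + 1)) = 0 := by
      have e : Lᵀ * M = M * Lᵀ := by
        have := congrArg Matrix.transpose hM.comm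
        rw [transpose_mul, transpose_mul, hM.symm] at this
        exact this.symm
      rw [← vecMul_transpose, ← dotProduct_mulVec, mulVec_mulVec, e, ← mulVec_mulVec, hv'.first,
        mulVec_zero, dotProduct_zero]
    rw [hv.low s (by omega) (by omega), smul_dotProduct, smul_eq_mul] at h
    exact (mul_eq_zero.1 h).resolve_left (hv.ne s (by omega) (by omega))
  | succ T hT ih =>
    have h := hv.pair_step hv' hM (T := T) (T' := T) (by omega) (by omega) hT (by omega)
    rw [ih (by omega) (by omega), mul_zero] at h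
    exact (mul_eq_zero.1 h).resolve_left (hv'.ne T hT (by omega))

/-- Pairing of two chains out of a family, in one case split. -/
theorem pair_family {top : ℕ → ℕ} {c : ℕ → ℕ → ℝ} {v v' : ℕ → ℕ → ι → ℝ} {a a' T T' : ℕ}
    (hv : Chain L lev a (top a) (c a) (v a)) (hv' : Chain L lev a' (top a') (c a') (v' a'))
    (hM : Invar L lev M) (h1 : a ≤ T) (h2 : T ≤ top a) (h1' : a' ≤ T') (h2' : T' ≤ top a') :
    v a T ⬝ᵥ (M *ᵥ v' a' T') =
      if a = a' ∧ T = T' then v a a ⬝ᵥ (M *ᵥ v' a a) else 0 := by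
  by_cases hT : T = T'
  · subst hT
    rcases lt_trichotomy a a' with h | h | h
    · rw [if_neg (fun e => (ne_of_lt h) e.1)]
      exact hv.pair_diff hv' hM h h1' h2 h2'
    · subst h
      rw [if_pos ⟨rfl, rfl⟩]
      exact hv.pair_same hv' hM h1 h2
    · rw [if_neg (fun e => (ne_of_gt h) e.1), dotProduct_mulVec, ← mulVec_transpose, hM.symm,
        dotProduct_comm]
      exact hv'.pair_diff hv hM h h1 h2' h2
  · rw [if_neg (fun e => hT e.2)]
    exact hv.pair_level hv' hM h1 h2 h1' h2' hT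

/-- The projection on one chain commutes with the lowering. -/
theorem Chain.proj_comm (hv : Chain L lev k top c v) (hlast : L *ᵥ v top = 0) (hk : k ≤ top) :
    L * (∑ T ∈ Icc k top, vecMulVec (v T) (v T)) = (∑ T ∈ Icc k top, vecMulVec (v T) (v T)) * L := by
  rw [Matrix.mul_sum, Matrix.sum_mul]
  simp only [Matrix.mul_vecMulVec, Matrix.vecMulVec_mul, ← mulVec_transpose]
  rw [← Finset.sum_Ico_add_eq_sum_Icc hk, hlast, ← Finset.add_sum_Ioc_eq_sum_Icc hk, hv.first]
  simp only [zero_vecMulVec, vecMulVec_zero, add_zero, zero_add]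
  rw [show Ioc k top = Ico (k + 1) (top + 1) by ext; simp, ← Finset.sum_Ico_add']
  refine Finset.sum_congr rfl fun T hT => ?_
  rw [mem_Ico] at hT
  rw [hv.low T hT.1 hT.2, hv.high T hT.1 hT.2, smul_vecMulVec, vecMulVec_smul]

/-- Expansion of a form in a family of vectors resolving the identity at `u` and `u'`. -/
theorem form_expand [DecidableEq ι] {α : Type*} (s s' : Finset α) (e : α → ι → ℝ)
    (M : Matrix ι ι ℝ) (u u' : ι) (h : ∀ x, ∑ a ∈ s, e a u * e a x = if u = x then 1 else 0)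
    (h' : ∀ x, ∑ a ∈ s', e a u' * e a x = if u' = x then 1 else 0) :
    M u u' = ∑ a ∈ s, ∑ a' ∈ s', e a u * e a' u' * (e a ⬝ᵥ (M *ᵥ e a')) := by
  have h1 : (Pi.single u 1 : ι → ℝ) = ∑ a ∈ s, e a u • e a := by
    ext x
    rw [Finset.sum_apply]
    simp only [Pi.smul_apply, smul_eq_mul, h x, Pi.single_apply, eq_comm]
  have h2 : (Pi.single u' 1 : ι → ℝ) = ∑ a ∈ s', e a u' • e a := by
    ext x
    rw [Finset.sum_apply]
    simp only [Pi.smul_apply, smul_eq_mul, h' x, Pi.single_apply, eq_comm]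
  have e0 : M u u' = (Pi.single u 1 : ι → ℝ) ⬝ᵥ (M *ᵥ Pi.single u' 1) := by simp
  rw [e0, h1, h2, sum_dotProduct]
  refine Finset.sum_congr rfl fun a _ => ?_
  rw [mulVec_sum, dotProduct_sum]
  refine Finset.sum_congr rfl fun a' _ => ?_
  rw [mulVec_smul, dotProduct_smul, smul_dotProduct, smul_eq_mul, smul_eq_mul]
  ring

end Vale.Agent.P359
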