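import Vale.Agent.P359.Lens

/-!
The lenses of the impurity and the fermions, spin matrices, total operators.
-/

namespace Vale.Agent.P359

open Finset Matrix
open scoped Kronecker

/-- Impurity levels. -/
abbrev Imp (Q : ℕ) : Type := Fin (2 * Q - 1)

/-- Orbitals. -/
abbrev Orb (Q : ℕ) : Type := Fin (Q + 1)

variable {Q n : ℕ}

/-- The impurity coordinate. -/
def lI (Q n : ℕ) : Lens (Conf Q n) (Imp Q) where
  get z := z.1
  put z u := (u, z.2)
  get_put _ _ := rfl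
  put_get _ := rfl
  put_put _ _ _ := rfl

/-- The coordinate of fermion `p`. -/
def lF (Q : ℕ) {n : ℕ} (p : Fin n) : Lens (Conf Q n) (Orb Q) where
  get z := z.2 p
  put z u := (z.1, Function.update z.2 p u)
  get_put _ _ := by simp
  put_get _ := by simp
  put_put _ _ _ := by simp

theorem disj_IF (p : Fin n) : Lens.Disj (lI Q n) (lF Q p) := ⟨fun _ _ => rfl, fun _ _ => rfl, fun _ _ _ => rfl⟩

theorem disj_FF {p q : Fin n} (h : p ≠ q) : Lens.Disj (lF Q p) (lF Q q) :=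
  ⟨fun z u => by simp [lF, h], fun z u => by simp [lF, Ne.symm h],
    fun z u v => by simp [lF, Function.update_comm h]⟩

/-- Impurity and fermion `p`. -/
def l01 (Q : ℕ) {n : ℕ} (p : Fin n) : Lens (Conf Q n) (Imp Q × Orb Q) :=
  (lI Q n).prod (lF Q p) (disj_IF p)

/-- Fermions `p` and `q`. -/
def l11 (Q : ℕ) {n : ℕ} {p q : Fin n} (h : p ≠ q) : Lens (Conf Q n) (Orb Q × Orb Q) :=
  (lF Q p).prod (lF Q q) (disj_FF h)

theorem disj_I11 {p q : Fin n} (h : p ≠ q) : Lens.Disj (lI Q n) (l11 Q h) :=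
  Lens.Disj.prod_right (disj_FF h) (disj_IF p) (disj_IF q)

/-- Impurity and two fermions. -/
def l011 (Q : ℕ) {n : ℕ} {p q : Fin n} (h : p ≠ q) : Lens (Conf Q n) (Imp Q × (Orb Q × Orb Q)) :=
  (lI Q n).prod (l11 Q h) (disj_I11 h)

/-- The total of a pair of one-site matrices. -/
def Jop (K0 : Matrix (Imp Q) (Imp Q) ℝ) (K : Matrix (Orb Q) (Orb Q) ℝ) :
    (Conf Q n → ℝ) →ₗ[ℝ] (Conf Q n → ℝ) :=
  (lI Q n).op K0 + ∑ p : Fin n, (lF Q p).op K

theorem Jop_adj (K0 : Matrix (Imp Q) (Imp Q) ℝ) (K : Matrix (Orb Q) (Orb Q) ℝ)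
    (X Y : Conf Q n → ℝ) : X ⬝ᵥ Jop K0 K Y = Jop K0ᵀ Kᵀ X ⬝ᵥ Y := by
  simp only [Jop, LinearMap.add_apply, LinearMap.sum_apply, dotProduct_add, add_dotProduct,
    dotProduct_sum, sum_dotProduct, Lens.op_adj]

/-- The sum on impurity and one fermion. -/
def sum2 (K0 : Matrix (Imp Q) (Imp Q) ℝ) (K : Matrix (Orb Q) (Orb Q) ℝ) :
    Matrix (Imp Q × Orb Q) (Imp Q × Orb Q) ℝ :=
  K0 ⊗ₖ (1 : Matrix (Orb Q) (Orb Q) ℝ) + (1 : Matrix (Imp Q) (Imp Q) ℝ) ⊗ₖ K

/-- The sum on two fermions. -/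
def sumP (K : Matrix (Orb Q) (Orb Q) ℝ) : Matrix (Orb Q × Orb Q) (Orb Q × Orb Q) ℝ :=
  K ⊗ₖ (1 : Matrix (Orb Q) (Orb Q) ℝ) + (1 : Matrix (Orb Q) (Orb Q) ℝ) ⊗ₖ K

/-- The sum on impurity and two fermions. -/
def sum3 (K0 : Matrix (Imp Q) (Imp Q) ℝ) (K : Matrix (Orb Q) (Orb Q) ℝ) :
    Matrix (Imp Q × (Orb Q × Orb Q)) (Imp Q × (Orb Q × Orb Q)) ℝ :=
  K0 ⊗ₖ (1 : Matrix (Orb Q × Orb Q) (Orb Q × Orb Q) ℝ) +
    (1 : Matrix (Imp Q) (Imp Q) ℝ) ⊗ₖ sumP K

/-- `J` acts on the coordinate `l` as `L`, plus an operator commuting with that coordinate. -/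
def LocalAt {Z κ : Type*} [Fintype κ] (l : Lens Z κ) (L : Matrix κ κ ℝ)
    (J : (Z → ℝ) →ₗ[ℝ] (Z → ℝ)) : Prop :=
  ∀ K X, l.op K (J X) - J (l.op K X) = l.op (K * L - L * K) X

theorem localAt_of_split {Z κ : Type*} [Fintype κ] {l : Lens Z κ} {L : Matrix κ κ ℝ}
    {J R : (Z → ℝ) →ₗ[ℝ] (Z → ℝ)} (h : J = l.op L + R)
    (hR : ∀ K X, l.op K (R X) = R (l.op K X)) : LocalAt l L J := by
  intro K X
  subst h
  simp only [LinearMap.add_apply, map_add, hR, Lens.op_sub, LinearMap.sub_apply, Lens.op_mul]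
  abel

theorem local_I (K0 : Matrix (Imp Q) (Imp Q) ℝ) (K : Matrix (Orb Q) (Orb Q) ℝ) :
    LocalAt (lI Q n) K0 (Jop K0 K) := by
  refine localAt_of_split rfl fun M X => ?_
  simp only [LinearMap.sum_apply, map_sum]
  exact Finset.sum_congr rfl fun p _ => Lens.op_comm (disj_IF p) _ _ _

theorem local_01 (K0 : Matrix (Imp Q) (Imp Q) ℝ) (K : Matrix (Orb Q) (Orb Q) ℝ) (p : Fin n) :
    LocalAt (l01 Q p) (sum2 K0 K) (Jop K0 K) := by
  refine localAt_of_split (R := ∑ q ∈ univ.erase p, (lF Q q).op K) ?_ fun M X => ?_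
  · rw [l01, sum2, Lens.op_sum_kron, Jop,
      ← Finset.add_sum_erase univ _ (mem_univ p)]
    abel
  · simp only [LinearMap.sum_apply, map_sum]
    refine Finset.sum_congr rfl fun q hq => Lens.op_comm ?_ _ _ _
    exact (Lens.Disj.prod_right (disj_IF p) (disj_IF q).symm
      (disj_FF (ne_of_mem_erase hq))).symm

theorem local_11 (K0 : Matrix (Imp Q) (Imp Q) ℝ) (K : Matrix (Orb Q) (Orb Q) ℝ) {p q : Fin n}
    (h : p ≠ q) : LocalAt (l11 Q h) (sumP K) (Jop K0 K) := by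
  refine localAt_of_split
    (R := (lI Q n).op K0 + ∑ r ∈ (univ.erase p).erase q, (lF Q r).op K) ?_ fun M X => ?_
  · rw [l11, sumP, Lens.op_sum_kron, Jop, ← Finset.add_sum_erase univ _ (mem_univ p),
      ← Finset.add_sum_erase (univ.erase p) _ (mem_erase.2 ⟨h.symm, mem_univ q⟩)]
    abel
  · simp only [LinearMap.add_apply, LinearMap.sum_apply, map_add, map_sum]
    congr 1
    · exact Lens.op_comm (disj_I11 h).symm _ _ _
    · refine Finset.sum_congr rfl fun r hr => Lens.op_comm ?_ _ _ _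
      simp only [mem_erase, ne_eq] at hr
      exact (Lens.Disj.prod_right (disj_FF h) (disj_FF hr.2.1) (disj_FF hr.1)).symm

theorem local_011 (K0 : Matrix (Imp Q) (Imp Q) ℝ) (K : Matrix (Orb Q) (Orb Q) ℝ) {p q : Fin n}
    (h : p ≠ q) : LocalAt (l011 Q h) (sum3 K0 K) (Jop K0 K) := by
  refine localAt_of_split (R := ∑ r ∈ (univ.erase p).erase q, (lF Q r).op K) ?_ fun M X => ?_
  · rw [l011, sum3, Lens.op_sum_kron, l11, sumP, Lens.op_sum_kron, Jop,
      ← Finset.add_sum_erase univ _ (mem_univ p),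
      ← Finset.add_sum_erase (univ.erase p) _ (mem_erase.2 ⟨h.symm, mem_univ q⟩)]
    abel
  · simp only [LinearMap.sum_apply, map_sum]
    refine Finset.sum_congr rfl fun r hr => Lens.op_comm ?_ _ _ _
    simp only [mem_erase, ne_eq] at hr
    exact (Lens.Disj.prod_right (disj_I11 h) (disj_IF r).symm
      (Lens.Disj.prod_right (disj_FF h) (disj_FF hr.2.1) (disj_FF hr.1))).symm

/-- Lowering matrix of spin `A / 2`. -/
noncomputable def lowM (A D : ℕ) : Matrix (Fin D) (Fin D) ℝ :=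
  fun i j => if (i : ℕ) = (j : ℕ) + 1 then lad A j else 0

/-- Level matrix. -/
def levM (D : ℕ) : Matrix (Fin D) (Fin D) ℝ := diagonal fun i => ((i : ℕ) : ℝ)

/-- Total lowering. -/
noncomputable def Jlow (Q n : ℕ) : (Conf Q n → ℝ) →ₗ[ℝ] (Conf Q n → ℝ) :=
  Jop (lowM (2 * Q - 2) (2 * Q - 1)) (lowM Q (Q + 1))

/-- Total raising. -/
noncomputable def Jhigh (Q n : ℕ) : (Conf Q n → ℝ) →ₗ[ℝ] (Conf Q n → ℝ) :=
  Jop (lowM (2 * Q - 2) (2 * Q - 1))ᵀ (lowM Q (Q + 1))ᵀ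

/-- Total level. -/
noncomputable def Jlev (Q n : ℕ) : (Conf Q n → ℝ) →ₗ[ℝ] (Conf Q n → ℝ) :=
  Jop (levM (2 * Q - 1)) (levM (Q + 1))

/-- Relabelling of the fermions. -/
def permX (σ : Equiv.Perm (Fin n)) : (Conf Q n → ℝ) →ₗ[ℝ] (Conf Q n → ℝ) where
  toFun X z := X (z.1, z.2 ∘ σ)
  map_add' _ _ := rfl
  map_smul' _ _ := rfl

theorem Jop_perm (K0 : Matrix (Imp Q) (Imp Q) ℝ) (K : Matrix (Orb Q) (Orb Q) ℝ)
    (σ : Equiv.Perm (Fin n)) (X : Conf Q n → ℝ) :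
    Jop K0 K (permX σ X) = permX σ (Jop K0 K X) := by
  have hI : (lI Q n).op K0 (permX σ X) = permX σ ((lI Q n).op K0 X) := rfl
  have hF : ∀ p, (lF Q (σ p)).op K (permX σ X) = permX σ ((lF Q p).op K X) := by
    intro p
    ext z
    simp only [Lens.op_apply, permX, lF, LinearMap.coe_mk, AddHom.coe_mk, Function.comp_apply]
    refine Finset.sum_congr rfl fun u _ => ?_
    congr 3
    rw [Function.update_comp_eq_of_injective _ σ.injective]
  simp only [Jop, LinearMap.add_apply, LinearMap.sum_apply, map_add, map_sum, hI]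
  congr 1
  rw [← Equiv.sum_comp σ]
  exact Finset.sum_congr rfl fun p _ => hF p

/-- Antisymmetry in the fermion labels is relabelling by signs. -/
theorem antisym_iff (X : Conf Q n → ℝ) :
    (∀ i, Antisym fun x => X (i, x)) ↔
      ∀ σ : Equiv.Perm (Fin n), permX σ X = ((Equiv.Perm.sign σ : ℤ) : ℝ) • X := by
  constructor
  · exact fun h σ => funext fun z => h z.1 σ z.2
  · exact fun h i σ x => congrFun (h σ) (i, x)

theorem antisym_Jop {X : Conf Q n → ℝ} (h : ∀ i, Antisym fun x => X (i, x))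
    (K0 : Matrix (Imp Q) (Imp Q) ℝ) (K : Matrix (Orb Q) (Orb Q) ℝ) :
    ∀ i, Antisym fun x => Jop K0 K X (i, x) := by
  rw [antisym_iff] at h ⊢
  intro σ
  rw [← Jop_perm, h σ, map_smul]

end Vale.Agent.P359
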