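import Vale.Agent.P359.Coupling
import Vale.Agent.P359.Sites
import Vale.Agent.P359.Chain

/-!
The coupled chains of impurity and one fermion, of two fermions, and of impurity and pair.
-/

namespace Vale.Agent.P359

open Finset Matrix
open scoped Kronecker
open Cpl

/-- A function of two levels as a vector. -/
def vec2 {D E : ℕ} (f : ℕ → ℕ → ℝ) (u : Fin D × Fin E) : ℝ := f u.1 u.2

/-- Lowering of a pair of spins. -/
noncomputable def low2M (A B D E : ℕ) : Matrix (Fin D × Fin E) (Fin D × Fin E) ℝ :=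
  lowM A D ⊗ₖ (1 : Matrix (Fin E) (Fin E) ℝ) + (1 : Matrix (Fin D) (Fin D) ℝ) ⊗ₖ lowM B E

theorem sum_lowM {A D : ℕ} (hD : D = A + 1) (i : Fin D) (g : ℕ → ℝ) :
    ∑ j : Fin D, lowM A D i j * g j =
      if 1 ≤ (i : ℕ) ∧ (i : ℕ) ≤ A then lad A ((i : ℕ) - 1) * g ((i : ℕ) - 1) else 0 := by
  have hi : (i : ℕ) < D := i.isLt
  rcases Nat.eq_zero_or_pos (i : ℕ) with h | h
  · rw [if_neg (by omega)]
    refine Finset.sum_eq_zero fun j _ => ?_
    simp [lowM, show ¬ (i : ℕ) = (j : ℕ) + 1 by omega]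
  · rw [if_pos (by omega), Finset.sum_eq_single ⟨(i : ℕ) - 1, by omega⟩]
    · have e : (i : ℕ) = (i : ℕ) - 1 + 1 := by omega
      unfold lowM
      rw [if_pos e]
    · intro j _ hj
      have : ¬ (i : ℕ) = (j : ℕ) + 1 := fun e => hj (Fin.ext (by simp only; omega))
      simp [lowM, this]
    · simp

theorem sum_lowMT {A D : ℕ} (hD : D = A + 1) (i : Fin D) (g : ℕ → ℝ) :
    ∑ j : Fin D, lowM A D j i * g j =
      if (i : ℕ) < A then lad A i * g ((i : ℕ) + 1) else 0 := by
  have hi : (i : ℕ) < D := i.isLt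
  by_cases h : (i : ℕ) < A
  · rw [if_pos h, Finset.sum_eq_single ⟨(i : ℕ) + 1, by omega⟩]
    · simp [lowM]
    · intro j _ hj
      have : ¬ (j : ℕ) = (i : ℕ) + 1 := fun e => hj (Fin.ext (by simp only; omega))
      simp [lowM, this]
    · simp
  · rw [if_neg h]
    refine Finset.sum_eq_zero fun j _ => ?_
    have : (j : ℕ) < D := j.isLt
    simp [lowM, show ¬ (j : ℕ) = (i : ℕ) + 1 by omega]

theorem kron_one_apply {D E : Type*} [Fintype D] [Fintype E] [DecidableEq E] (K : Matrix D D ℝ)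
    (f : D × E → ℝ) (u : D × E) :
    ((K ⊗ₖ (1 : Matrix E E ℝ)) *ᵥ f) u = ∑ j, K u.1 j * f (j, u.2) := by
  simp [mulVec, dotProduct, Fintype.sum_prod_type, Matrix.one_apply]

theorem one_kron_apply {D E : Type*} [Fintype D] [Fintype E] [DecidableEq D] (K : Matrix E E ℝ)
    (f : D × E → ℝ) (u : D × E) :
    (((1 : Matrix D D ℝ) ⊗ₖ K) *ᵥ f) u = ∑ j, K u.2 j * f (u.1, j) := by
  simp [mulVec, dotProduct, Fintype.sum_prod_type, Matrix.one_apply]

theorem low2M_vec {A B D E : ℕ} (hD : D = A + 1) (hE : E = B + 1) (f : ℕ → ℕ → ℝ)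
    (u : Fin D × Fin E) : (low2M A B D E *ᵥ vec2 f) u = lower2 A B f u.1 u.2 := by
  rw [low2M, add_mulVec, Pi.add_apply, kron_one_apply, one_kron_apply, lower2]
  simp only [vec2, sum_lowM hD u.1 (fun j => f j u.2), sum_lowM hE u.2 (fun j => f u.1 j)]

theorem low2M_vecT {A B D E : ℕ} (hD : D = A + 1) (hE : E = B + 1) (f : ℕ → ℕ → ℝ)
    (u : Fin D × Fin E) : ((low2M A B D E)ᵀ *ᵥ vec2 f) u = raise2 A B f u.1 u.2 := by
  rw [low2M, transpose_add, ← kroneckerMap_transpose, ← kroneckerMap_transpose, transpose_one,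
    transpose_one, add_mulVec, Pi.add_apply, kron_one_apply, one_kron_apply, raise2]
  simp only [vec2, transpose_apply, sum_lowMT hD u.1 (fun j => f j u.2),
    sum_lowMT hE u.2 (fun j => f u.1 j)]

/-- The level of a pair. -/
def lev2 {D E : ℕ} (u : Fin D × Fin E) : ℕ := (u.1 : ℕ) + (u.2 : ℕ)

theorem lad_ne {N a : ℕ} (h : a < N) : lad N a ≠ 0 := by
  have : (a : ℝ) < N := by exact_mod_cast h
  rw [lad]
  exact Real.sqrt_ne_zero'.2 (mul_pos (by positivity) (by linarith))

theorem chain2 {A B D E k : ℕ} (hD : D = A + 1) (hE : E = B + 1) (hA : k ≤ A) (hB : k ≤ B) :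
    Chain (low2M A B D E) lev2 k (A + B - k) (fun T => lad (A + B - 2 * k) (T - k))
      (fun T => vec2 (coup A B k T)) where
  low T h1 h2 := funext fun u => by
    rw [low2M_vec hD hE, coup_lower hA hB h1 (by omega)]; rfl
  high T h1 h2 := funext fun u => by
    rw [low2M_vecT hD hE, coup_raise hA hB h1 (by omega)]; rfl
  first := funext fun u => by rw [low2M_vecT hD hE, coup_top hA hB]; rfl
  grade T _ _ u hu := by
    by_contra hne
    exact hu (coup_support fun h => hne h.1)
  ne T h1 h2 := lad_ne (by omega)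

theorem chain2_last {A B D E k : ℕ} (hD : D = A + 1) (hE : E = B + 1) (hA : k ≤ A) (hB : k ≤ B) :
    low2M A B D E *ᵥ vec2 (coup A B k (A + B - k)) = 0 :=
  funext fun u => by rw [low2M_vec hD hE, coup_bot hA hB]; rfl

theorem coup_out {A B k T : ℕ} (h : A + B < T + k) (hA : k ≤ A) (hB : k ≤ B) (i b : ℕ) :
    coup A B k T i b = 0 := by
  rw [coup_eq, rawZ_out (Or.inr (by omega)), mul_zero]

theorem coup_lt {A B k T : ℕ} (h : T < k) (i b : ℕ) : coup A B k T i b = 0 := by
  rw [coup_eq, rawZ_out (Or.inl (by omega)), mul_zero]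

/-- The vector of impurity and pair: total channel `L`, pair channel `m`, level `U`. -/
noncomputable def pv (Q L m U i a b : ℕ) : ℝ :=
  if m ≤ a + b then
    coup (2 * Q - 2) (2 * Q - 2 * m) (L - m) (U - m) i (a + b - m) * coup Q Q m (a + b) a b
  else 0

theorem pair_lower {Q m a b : ℕ} (hm : m ≤ Q) (h : ℕ → ℝ) :
    lower2 Q Q (fun a b => if m ≤ a + b then h (a + b - m) * coup Q Q m (a + b) a b else 0) a b =
      if m ≤ a + b then
        (if 1 ≤ a + b - m ∧ a + b - m ≤ 2 * Q - 2 * m then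
          lad (2 * Q - 2 * m) (a + b - m - 1) * h (a + b - m - 1) else 0) * coup Q Q m (a + b) a b
      else 0 := by
  have key : lower2 Q Q (fun a b => if m ≤ a + b then h (a + b - m) * coup Q Q m (a + b) a b else 0)
      a b = if m + 1 ≤ a + b then
        h (a + b - 1 - m) * lower2 Q Q (coup Q Q m (a + b - 1)) a b else 0 := by
    unfold lower2
    simp only [mul_ite, mul_zero]
    by_cases h0 : m + 1 ≤ a + b
    · rw [if_pos h0, mul_add, mul_ite, mul_ite, mul_zero]
      congr 1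
      · split_ifs with g1 g2
        · rw [show a - 1 + b = a + b - 1 by omega]; ring
        · omega
        · rfl
      · split_ifs with g1 g2
        · rw [show a + (b - 1) = a + b - 1 by omega]; ring
        · omega
        · rfl
    · rw [if_neg h0]
      split_ifs <;> first | omega | simp
  rw [key]
  by_cases h1 : m + 1 ≤ a + b
  · rw [if_pos h1, if_pos (by omega : m ≤ a + b)]
    rcases lt_trichotomy (a + b - 1 + m) (Q + Q) with h2 | h2 | h2
    · rw [coup_lower hm hm (by omega) h2, if_pos (by omega), show a + b - 1 + 1 = a + b by omega,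
        show a + b - m - 1 = a + b - 1 - m by omega, show Q + Q - 2 * m = 2 * Q - 2 * m by omega]
      ring
    · rw [show a + b - 1 = Q + Q - m by omega, coup_bot hm hm, if_neg (by omega)]
      ring
    · rw [if_neg (by omega), coup_out (by omega) hm hm]
      simp [lower2, coup_out h2 hm hm]
  · rw [if_neg h1]
    split_ifs <;> first | ring1 | omega

theorem pair_raise {Q m a b : ℕ} (hm : m ≤ Q) (h : ℕ → ℝ) :
    raise2 Q Q (fun a b => if m ≤ a + b then h (a + b - m) * coup Q Q m (a + b) a b else 0) a b =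
      if m ≤ a + b then
        (if a + b - m < 2 * Q - 2 * m then
          lad (2 * Q - 2 * m) (a + b - m) * h (a + b - m + 1) else 0) * coup Q Q m (a + b) a b
      else 0 := by
  have key : raise2 Q Q (fun a b => if m ≤ a + b then h (a + b - m) * coup Q Q m (a + b) a b else 0)
      a b = if m ≤ a + b + 1 then
        h (a + b + 1 - m) * raise2 Q Q (coup Q Q m (a + b + 1)) a b else 0 := by
    unfold raise2
    simp only [show a + 1 + b = a + b + 1 by omega, show a + (b + 1) = a + b + 1 by omega]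
    split_ifs <;> ring
  rw [key]
  by_cases h1 : m ≤ a + b
  · rw [if_pos (by omega : m ≤ a + b + 1), if_pos h1]
    rcases lt_or_ge (a + b + m) (Q + Q) with h2 | h2
    · rw [coup_raise hm hm h1 h2, if_pos (by omega), show a + b - m + 1 = a + b + 1 - m by omega,
        show Q + Q - 2 * m = 2 * Q - 2 * m by omega]
      ring
    · rw [if_neg (by omega)]
      simp [raise2, coup_out (show Q + Q < a + b + 1 + m by omega) hm hm]
  · rw [if_neg h1]
    split_ifs with h2
    · rw [show a + b + 1 = m by omega, coup_top hm hm]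
      ring
    · rfl

/-- Lowering on impurity and two fermions. -/
noncomputable def low3M (Q : ℕ) :
    Matrix (Imp Q × (Orb Q × Orb Q)) (Imp Q × (Orb Q × Orb Q)) ℝ :=
  sum3 (lowM (2 * Q - 2) (2 * Q - 1)) (lowM Q (Q + 1))

/-- The level of impurity and pair. -/
def lev3 {Q : ℕ} (u : Imp Q × (Orb Q × Orb Q)) : ℕ := (u.1 : ℕ) + (u.2.1 : ℕ) + (u.2.2 : ℕ)

/-- `pv` as a vector. -/
noncomputable def vec3 (Q L m U : ℕ) (u : Imp Q × (Orb Q × Orb Q)) : ℝ :=
  pv Q L m U u.1 u.2.1 u.2.2

theorem low3M_vec {Q L m U : ℕ} (hQ : 1 ≤ Q) (hm : m ≤ Q) (u : Imp Q × (Orb Q × Orb Q)) :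
    (low3M Q *ᵥ vec3 Q L m U) u =
      if m ≤ (u.2.1 : ℕ) + u.2.2 then
        lower2 (2 * Q - 2) (2 * Q - 2 * m) (coup (2 * Q - 2) (2 * Q - 2 * m) (L - m) (U - m))
          u.1 ((u.2.1 : ℕ) + u.2.2 - m) * coup Q Q m ((u.2.1 : ℕ) + u.2.2) u.2.1 u.2.2
      else 0 := by
  obtain ⟨i, a, b⟩ := u
  have hp := pair_lower (a := (a : ℕ)) (b := (b : ℕ)) hm
    (fun M => coup (2 * Q - 2) (2 * Q - 2 * m) (L - m) (U - m) i M)
  have h2 : (∑ j : Orb Q × Orb Q, sumP (lowM Q (Q + 1)) (a, b) j * vec3 Q L m U (i, j)) =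
      lower2 Q Q (fun a b => if m ≤ a + b then
        coup (2 * Q - 2) (2 * Q - 2 * m) (L - m) (U - m) i (a + b - m) * coup Q Q m (a + b) a b
        else 0) a b :=
    low2M_vec (A := Q) (B := Q) rfl rfl
      (fun a b => if m ≤ a + b then coup (2 * Q - 2) (2 * Q - 2 * m) (L - m) (U - m) i (a + b - m) * coup Q Q m (a + b) a b else 0) (a, b)
  rw [low3M, sum3, add_mulVec, Pi.add_apply, kron_one_apply, one_kron_apply, h2, hp]
  simp only [vec3, pv]
  rw [sum_lowM (by omega) i (fun j => if m ≤ (a : ℕ) + b then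
      coup (2 * Q - 2) (2 * Q - 2 * m) (L - m) (U - m) j ((a : ℕ) + b - m) *
        coup Q Q m ((a : ℕ) + b) a b else 0)]
  simp only [lower2]
  split_ifs <;> ring

theorem low3M_vecT {Q L m U : ℕ} (hQ : 1 ≤ Q) (hm : m ≤ Q) (u : Imp Q × (Orb Q × Orb Q)) :
    ((low3M Q)ᵀ *ᵥ vec3 Q L m U) u =
      if m ≤ (u.2.1 : ℕ) + u.2.2 then
        raise2 (2 * Q - 2) (2 * Q - 2 * m) (coup (2 * Q - 2) (2 * Q - 2 * m) (L - m) (U - m))
          u.1 ((u.2.1 : ℕ) + u.2.2 - m) * coup Q Q m ((u.2.1 : ℕ) + u.2.2) u.2.1 u.2.2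
      else 0 := by
  obtain ⟨i, a, b⟩ := u
  have hp := pair_raise (a := (a : ℕ)) (b := (b : ℕ)) hm
    (fun M => coup (2 * Q - 2) (2 * Q - 2 * m) (L - m) (U - m) i M)
  have h2 : (∑ j : Orb Q × Orb Q, (sumP (lowM Q (Q + 1)))ᵀ (a, b) j * vec3 Q L m U (i, j)) =
      raise2 Q Q (fun a b => if m ≤ a + b then
        coup (2 * Q - 2) (2 * Q - 2 * m) (L - m) (U - m) i (a + b - m) * coup Q Q m (a + b) a b
        else 0) a b :=
    low2M_vecT (A := Q) (B := Q) rfl rfl
      (fun a b => if m ≤ a + b then coup (2 * Q - 2) (2 * Q - 2 * m) (L - m) (U - m) i (a + b - m) * coup Q Q m (a + b) a b else 0) (a, b)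
  rw [low3M, sum3, transpose_add, ← kroneckerMap_transpose, ← kroneckerMap_transpose, transpose_one,
    transpose_one, add_mulVec, Pi.add_apply, kron_one_apply, one_kron_apply, h2, hp]
  simp only [transpose_apply, vec3, pv]
  rw [sum_lowMT (by omega) i (fun j => if m ≤ (a : ℕ) + b then
      coup (2 * Q - 2) (2 * Q - 2 * m) (L - m) (U - m) j ((a : ℕ) + b - m) *
        coup Q Q m ((a : ℕ) + b) a b else 0)]
  simp only [raise2]
  split_ifs <;> ring

theorem chain3 {Q L m : ℕ} (hQ : 1 ≤ Q) (hm : m ≤ Q) (hmL : m ≤ L) (hL : L + m ≤ 2 * Q)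
    (hLA : L ≤ 2 * Q - 2 + m) :
    Chain (low3M Q) lev3 L (4 * Q - 2 - L) (fun U => lad (4 * Q - 2 - 2 * L) (U - L))
      (fun U => vec3 Q L m U) where
  low U h1 h2 := funext fun u => by
    rw [low3M_vec hQ hm, coup_lower (by omega) (by omega) (by omega) (by omega),
      show (2 * Q - 2) + (2 * Q - 2 * m) - 2 * (L - m) = 4 * Q - 2 - 2 * L by omega,
      show U - m - (L - m) = U - L by omega, show U - m + 1 = U + 1 - m by omega]
    simp only [Pi.smul_apply, smul_eq_mul, vec3, pv]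
    split_ifs <;> ring
  high U h1 h2 := funext fun u => by
    rw [low3M_vecT hQ hm, show U + 1 - m = U - m + 1 by omega,
      coup_raise (by omega) (by omega) (by omega) (by omega),
      show (2 * Q - 2) + (2 * Q - 2 * m) - 2 * (L - m) = 4 * Q - 2 - 2 * L by omega,
      show U - m - (L - m) = U - L by omega]
    simp only [Pi.smul_apply, smul_eq_mul, vec3, pv]
    split_ifs <;> ring
  first := funext fun u => by
    rw [low3M_vecT hQ hm, coup_top (by omega) (by omega), zero_mul, ite_self]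
    rfl
  grade U h1 h2 u hu := by
    simp only [vec3, pv] at hu
    split_ifs at hu with hmu
    · by_contra hne
      refine hu ?_
      rw [coup_support, zero_mul]
      simp only [lev3] at hne
      omega
    · exact absurd rfl hu
  ne U h1 h2 := lad_ne (by omega)

end Vale.Agent.P359
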