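import Vale.Agent.P359.CouplingLimDef

/-!
The planar limit of the coupling coefficients and the conditions on a finite window certificate.
-/

namespace Vale.Agent.P359

open Finset

/-- Limit of the channel eigenvalue `chanW`, for `1 ≤ k`. -/
noncomputable def wLim (k : ℕ) : ℝ := (-1 / 2 : ℝ) ^ (k - 1) * (3 * (k : ℝ) - 1) / 2

/-- Weight of channel `k` in the one-fermion part of a window operator. -/
noncomputable def cov1Lim (S J : ℕ) (w : ℕ → ℕ → ℕ → ℕ → ℝ) (k : ℕ) : ℝ :=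
  ∑ i ∈ range (S + 1), ∑ a ∈ range J, ∑ i' ∈ range (S + 1), ∑ a' ∈ range J,
    if i + a = i' + a' ∧ k ≤ i + a then
      w i a i' a' * (coupLim 2 1 k (i + a) i a * coupLim 2 1 k (i + a) i' a') else 0

/-- Limit of the impurity-pair ladder vector: total channel `L`, pair channel `m`. -/
noncomputable def pairLim (L m i a b : ℕ) : ℝ :=
  if m ≤ L ∧ m ≤ a + b ∧ L ≤ i + a + b then
    coupLim 2 2 (L - m) (i + a + b - m) i (a + b - m) * coupLim 1 1 m (a + b) a b else 0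

/-- Weight of the block `(L; m, m')` in the two-fermion part of a window operator. -/
noncomputable def cov2Lim (S J : ℕ) (G : ℕ → ℕ → ℕ → ℕ → ℕ → ℕ → ℝ) (L m m' : ℕ) : ℝ :=
  ∑ i ∈ range (S + 1), ∑ a ∈ range J, ∑ b ∈ range J,
  ∑ i' ∈ range (S + 1), ∑ a' ∈ range J, ∑ b' ∈ range J,
    if a < b ∧ a' < b' ∧ i + a + b = i' + a' + b' then
      G i a b i' a' b' * (pairLim L m i a b * pairLim L m' i' a' b') else 0

/-- A window operator certifying the key inequality in the limit. -/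
structure WinCert (S J : ℕ) (C : ℕ → ℝ) (w : ℕ → ℕ → ℕ → ℕ → ℝ)
    (G : ℕ → ℕ → ℕ → ℕ → ℕ → ℕ → ℝ) : Prop where
  pos : ∀ u, 0 ≤ winForm S J C w G u
  cov1 : (∑ i ∈ range (S + 1), C i) +
    (∑ k ∈ range 30 \ {0, 1, 3}, ((k : ℝ) + 1) * max 0 (3 / 2 * wLim k - cov1Lim S J w k)) ≤
      999 / 1000
  cov2 : ∀ L, L ≤ S + 2 * J → ∀ v : ℕ → ℝ,
    ∑ m ∈ (range (L + 1)).filter Odd, ∑ m' ∈ (range (L + 1)).filter Odd,
      cov2Lim S J G L m m' * v m * v m' ≤ v 1 ^ 2

end Vale.Agent.P359
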