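import Vale.Agent.P359.ChanExch
import Vale.Agent.P359.LimDefs

/-!
The channels of the exchange operator: eigen-decomposition and the eigenvalues `chanW`.
-/

namespace Vale.Agent.P359

open Finset Filter Topology

namespace Chn

theorem sum_fin_pair (m l : ℕ) (g : ℕ → ℕ → ℝ) :
    ∑ q : Fin m × Fin l, g q.1 q.2 = ∑ j ∈ range m, ∑ c ∈ range l, g j c := by
  rw [Fintype.sum_prod_type, ← Fin.sum_univ_eq_sum_range (fun j => ∑ c ∈ range l, g j c)]
  exact Finset.sum_congr rfl fun j _ => Fin.sum_univ_eq_sum_range (g j) l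

theorem lad_pos {B b : ℕ} (h : b < B) : 0 < lad B b := by
  refine Real.sqrt_pos.2 (mul_pos (by positivity) ?_)
  rw [sub_pos]
  exact_mod_cast h

theorem raise2_top {A B k : ℕ} (hA : k ≤ A) (hB : k ≤ B) (i b : ℕ) :
    raise2 A B (Cpl.rawZ A B k 0) i b = 0 := by
  rw [show (0 : ℤ) = -1 + 1 by norm_num, Cpl.raise2_rawZ hA hB, Cpl.rawZ_out (Or.inl (by norm_num)),
    mul_zero]

theorem act_zero (n i b : ℕ) : act n (fun _ _ => 0) i b = 0 := by
  simp [act, Cpl.ip]

theorem act_top {n k : ℕ} (hk : k ≤ n + 1) (hk' : k ≤ 2 * n) (i b : ℕ) :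
    act n (Cpl.rawZ (2 * n) (n + 1) k 0) i b =
      chanW (n + 1) k * Cpl.rawZ (2 * n) (n + 1) k 0 i b := by
  set v := Cpl.rawZ (2 * n) (n + 1) k 0 with hv
  set f : ℕ → ℕ → ℝ := fun i b => act n v i b - chanW (n + 1) k * v i b with hf
  suffices h : ∀ b ≤ k, f (k - b) b = 0 by
    by_cases hib : i + b = k
    · have := h b (by omega)
      rw [show k - b = i by omega] at this
      exact sub_eq_zero.1 this
    · rw [hv, act_top_support hib]
      symm
      by_contra hne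
      have := Cpl.rawZ_support (right_ne_zero_of_mul hne)
      omega
  intro b
  induction b with
  | zero => intro _; exact sub_eq_zero.2 (act_top_low hk hk')
  | succ b ih =>
    intro hb
    have hr : raise2 (2 * n) (n + 1) f (k - (b + 1)) b = 0 := by
      have e : raise2 (2 * n) (n + 1) f (k - (b + 1)) b =
          raise2 (2 * n) (n + 1) (act n v) (k - (b + 1)) b -
            chanW (n + 1) k * raise2 (2 * n) (n + 1) v (k - (b + 1)) b := by
        simp only [raise2, hf]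
        split_ifs <;> ring
      rw [e, raise2_act v (by omega),
        show raise2 (2 * n) (n + 1) v = fun _ _ => 0 from
          funext fun i => funext fun b => raise2_top hk' hk i b, act_zero]
      ring
    rw [raise2, if_pos (show k - (b + 1) < 2 * n by omega),
      show k - (b + 1) + 1 = k - b by omega, ih (by omega), if_pos (show b < n + 1 by omega),
      mul_zero, zero_add] at hr
    exact (mul_eq_zero.1 hr).resolve_left (lad_pos (show b < n + 1 by omega)).ne'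

theorem act_coup {n k : ℕ} (hk : k ≤ n + 1) (hk' : k ≤ 2 * n) :
    ∀ T, k ≤ T → T + k ≤ 3 * n + 1 → ∀ i b, i ≤ 2 * n → b ≤ n + 1 →
      act n (coup (2 * n) (n + 1) k T) i b = chanW (n + 1) k * coup (2 * n) (n + 1) k T i b := by
  intro T hT
  induction T, hT using Nat.le_induction with
  | base =>
    intro _ i b _ _
    have e : coup (2 * n) (n + 1) k k = fun i b =>
        (Real.sqrt (Cpl.nsq (2 * n) (n + 1) k 0))⁻¹ * Cpl.rawZ (2 * n) (n + 1) k 0 i b := by
      funext i b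
      rw [Cpl.coup_eq, sub_self]
    rw [e, act_smul, act_top hk hk']
    ring
  | succ T hkT ih =>
    intro hT' i b hi hb
    have hne : lad (2 * n + (n + 1) - 2 * k) (T - k) ≠ 0 := (lad_pos (by omega)).ne'
    refine mul_left_cancel₀ hne ?_
    have e : lower2 (2 * n) (n + 1) (coup (2 * n) (n + 1) k T) = fun i b =>
        lad (2 * n + (n + 1) - 2 * k) (T - k) * coup (2 * n) (n + 1) k (T + 1) i b :=
      funext fun i => funext fun b => coup_lower hk' hk hkT (by omega) i b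
    rw [← act_smul, ← e, ← lower2_act _ hi, mul_left_comm,
      ← coup_lower hk' hk hkT (by omega) i b]
    have ih' := ih (by omega)
    simp only [lower2, mul_add]
    congr 1
    · split_ifs with h
      · rw [ih' _ _ (by omega) hb]; ring
      · simp
    · split_ifs with h
      · rw [ih' _ _ hi (by omega)]; ring
      · simp

theorem closed {n j : ℕ} (hk : j ≤ n) (hk' : j + 1 ≤ 2 * n) :
    chanW (n + 1) (j + 1) = (-1 : ℝ) ^ j *
      (((j : ℝ) + 1) * (n.choose j : ℝ) / ((2 * n).choose j : ℝ) +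
        (j : ℝ) * ((n + 1).choose (j + 1) : ℝ) / ((2 * n).choose (j + 1) : ℝ)) := by
  have h := act_top (n := n) (k := j + 1) (by omega) hk' 0 (j + 1)
  rw [rawZ_top hk' (by omega) (Nat.zero_add _), act, Cpl.ip] at h
  have hs : ∀ a c, ker (n + 1) 0 (j + 1) a c * Cpl.rawZ (2 * n) (n + 1) (j + 1) 0 a c ≠ 0 →
      (a = j ∧ c = 1) ∨ (a = j + 1 ∧ c = 0) := by
    intro a c hne
    obtain ⟨h1, h2⟩ := mul_ne_zero_iff.1 hne
    have := Cpl.rawZ_support h2
    rw [ker] at h1
    obtain ⟨x, -, hx⟩ := Finset.exists_ne_zero_of_sum_ne_zero (right_ne_zero_of_mul h1)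
    obtain ⟨h3, -⟩ := mul_ne_zero_iff.1 hx
    simp only [phi, ne_eq, ite_eq_right_iff, Classical.not_imp] at h3
    omega
  rw [← Finset.sum_product', ← Finset.sum_subset (s₁ := {(j, 1), (j + 1, 0)}) (by
      intro p hp
      simp only [Finset.mem_insert, Finset.mem_singleton] at hp
      rcases hp with rfl | rfl <;> simp only [Finset.mem_product, Finset.mem_range] <;> omega)
    (fun p _ hp => by
      by_contra hne
      rcases hs p.1 p.2 hne with ⟨h1, h2⟩ | ⟨h1, h2⟩ <;> simp [Prod.ext_iff, h1, h2] at hp),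
    Finset.sum_pair (by simp)] at h
  have k1 : ker (n + 1) 0 (j + 1) j 1 = 2 * (phi (n + 1) 0 0 1 * phi (n + 1) j 0 (j + 1)) := by
    rw [ker, Finset.sum_eq_single 0 (fun a _ ha => by
      rw [show phi (n + 1) 0 a 1 = 0 by rw [phi, if_neg (by omega)], zero_mul]) (by simp)]
  have k2 : ker (n + 1) 0 (j + 1) (j + 1) 0 =
      2 * (phi (n + 1) 0 1 0 * phi (n + 1) (j + 1) 1 (j + 1)) := by
    rw [ker, Finset.sum_eq_single 1 (fun a _ ha => by
      rw [show phi (n + 1) 0 a 0 = 0 by rw [phi, if_neg (by omega)], zero_mul]) (by simp)]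
  rw [k1, k2, rawZ_top hk' (by omega) rfl, rawZ_top hk' (by omega) (Nat.add_zero _),
    phi, if_pos ⟨by omega, by omega, by omega⟩, phi, if_pos ⟨by omega, by omega, by omega⟩,
    phi, if_pos ⟨by omega, by omega, by omega⟩, phi, if_pos ⟨by omega, by omega, by omega⟩,
    show 2 * (n + 1) - 2 = 2 * n by omega] at h
  simp only [Nat.choose_zero_right, Nat.choose_one_right, Nat.cast_one, Nat.cast_zero, one_mul,
    mul_one, sub_zero, zero_sub, pow_zero, pow_one] at h
  have hB : (0 : ℝ) < ((n + 1).choose (j + 1) : ℝ) := by exact_mod_cast Nat.choose_pos (by omega)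
  have hDj : (0 : ℝ) < ((2 * n).choose j : ℝ) := by exact_mod_cast Nat.choose_pos (by omega)
  have hDk : (0 : ℝ) < ((2 * n).choose (j + 1) : ℝ) := by exact_mod_cast Nat.choose_pos hk'
  have hC : ((n : ℝ) + 1) * (n.choose j : ℝ) = ((n + 1).choose (j + 1) : ℝ) * ((j : ℝ) + 1) := by
    exact_mod_cast Nat.add_one_mul_choose_eq n j
  have hN : (0 : ℝ) < (n : ℝ) + 1 := by positivity
  push_cast at h
  rw [Real.sqrt_div' _ (by positivity), Real.sqrt_div' _ (by positivity),
    Real.sqrt_div' _ (by positivity)] at h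
  simp only [Real.sqrt_mul (show (0:ℝ) ≤ 2 * ((n : ℝ) + 1) by positivity),
    Real.sqrt_mul (show (0:ℝ) ≤ 2 by norm_num), Real.sqrt_mul hN.le,
    Real.sqrt_mul hDj.le] at h
  have e1 := Real.sq_sqrt hB.le
  have e2 := Real.sq_sqrt hDj.le
  have e3 := Real.sq_sqrt hDk.le
  have e4 := Real.sq_sqrt hN.le
  have e5 := Real.sq_sqrt (show (0:ℝ) ≤ 2 by norm_num)
  have p1 := Real.sqrt_pos.2 hB
  have p2 := Real.sqrt_pos.2 hDj
  have p3 := Real.sqrt_pos.2 hDk
  have p4 := Real.sqrt_pos.2 hN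
  have p5 := Real.sqrt_pos.2 (show (0:ℝ) < 2 by norm_num)
  simp only [Nat.choose_self, Nat.cast_one, mul_one] at h
  have hss : (-1 : ℝ) ^ j * (-1 : ℝ) ^ j = 1 := by rw [← mul_pow]; norm_num
  have hW : chanW (n + 1) (j + 1) = -((-1 : ℝ) ^ j * Real.sqrt ((n + 1).choose (j + 1) : ℝ)) *
      (chanW (n + 1) (j + 1) * ((-1 : ℝ) ^ (j + 1) / Real.sqrt ((n + 1).choose (j + 1) : ℝ))) := by
    rw [pow_succ]
    field_simp
    linear_combination -chanW (n + 1) (j + 1) * hss
  rw [hW, ← h]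
  field_simp
  rw [e1, e2, e3, e4, e5]
  linear_combination -2 * ((2 * n).choose j : ℝ) * ((2 * n).choose (j + 1) : ℝ) ^ 2 * ((j : ℝ) + 1) * hC

end Chn

open Chn

theorem exch_eq_ker (Q : ℕ) (p q : Fin (2 * Q - 1) × Fin (Q + 1)) :
    exch Q p q = Chn.ker Q p.1 p.2 q.1 q.2 := by
  rw [exch, Chn.ker, Fin.sum_univ_eq_sum_range (fun a => phi Q p.1 a q.2 * phi Q q.1 a p.2)]

/-- Every coupled vector is an eigenvector of the exchange operator. -/
theorem exch_coup {Q k T : ℕ} (hQ : 4 ≤ Q) (hk : k ≤ Q) (h1 : k ≤ T) (h2 : T + k ≤ 3 * Q - 2)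
    (p : Fin (2 * Q - 1) × Fin (Q + 1)) :
    ∑ q : Fin (2 * Q - 1) × Fin (Q + 1), exch Q p q * coup (2 * Q - 2) Q k T q.1 q.2 =
      chanW Q k * coup (2 * Q - 2) Q k T p.1 p.2 := by
  obtain ⟨n, rfl⟩ : ∃ n, Q = n + 1 := ⟨Q - 1, by omega⟩
  have hp1 := p.1.isLt
  have hp2 := p.2.isLt
  simp only [exch_eq_ker, show 2 * (n + 1) - 2 = 2 * n by omega]
  rw [← act_coup hk (by omega) T h1 (by omega) p.1 p.2 (by omega) (by omega), act, Cpl.ip]
  rw [Chn.sum_fin_pair _ _ (fun j c => Chn.ker (n + 1) p.1 p.2 j c * coup (2 * n) (n + 1) k T j c),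
    show range (2 * (n + 1) - 1) = range (2 * n + 1) from congrArg range (by omega)]

/-- The exchange operator in the channel basis. -/
theorem exch_expand {Q : ℕ} (hQ : 4 ≤ Q) (p q : Fin (2 * Q - 1) × Fin (Q + 1)) :
    exch Q p q = ∑ k ∈ range (Q + 1), ∑ T ∈ Icc k (3 * Q - 2 - k),
      chanW Q k * coup (2 * Q - 2) Q k T p.1 p.2 * coup (2 * Q - 2) Q k T q.1 q.2 := by
  set A := 2 * Q - 2 with hA
  have hq1 := q.1.isLt
  have hq2 := q.2.isLt
  set L := (q.1 : ℕ) + q.2 with hL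
  have hdelta : ∀ r : Fin (2 * Q - 1) × Fin (Q + 1), (if r = q then (1 : ℝ) else 0) =
      ∑ k ∈ (range (min A Q + 1)).filter (fun k => k ≤ L ∧ L + k ≤ A + Q),
        coup A Q k L r.1 r.2 * coup A Q k L q.1 q.2 := by
    intro r
    have hr1 := r.1.isLt
    have hr2 := r.2.isLt
    by_cases hr : (r.1 : ℕ) + r.2 = L
    · rw [coup_complete (by omega) (by omega) (by omega) hr (by omega) (by omega) rfl]
      exact if_congr ⟨fun h => by rw [h], fun h => by
        ext <;> omega⟩ rfl rfl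
    · rw [if_neg fun h => hr (by rw [h]), Finset.sum_eq_zero fun k _ => by
        rw [coup_support (i := (r.1 : ℕ)) (fun h => hr h.1), zero_mul]]
  calc exch Q p q = ∑ r, exch Q p r * (if r = q then (1 : ℝ) else 0) := by simp
    _ = ∑ k ∈ (range (min A Q + 1)).filter (fun k => k ≤ L ∧ L + k ≤ A + Q),
        (∑ r, exch Q p r * coup A Q k L r.1 r.2) * coup A Q k L q.1 q.2 := by
      simp only [hdelta, Finset.mul_sum, Finset.sum_mul, ← mul_assoc]
      exact Finset.sum_comm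
    _ = ∑ k ∈ range (Q + 1), ∑ T ∈ Icc k (3 * Q - 2 - k),
        chanW Q k * coup A Q k T p.1 p.2 * coup A Q k T q.1 q.2 := by
      rw [Finset.sum_filter, show min A Q = Q by omega]
      refine Finset.sum_congr rfl fun k hk => ?_
      rw [Finset.mem_range] at hk
      split_ifs with h
      · rw [Finset.sum_eq_single L (fun T _ hT => by
          rw [coup_support (i := (q.1 : ℕ)) (fun h => hT h.1.symm), mul_zero])
          (fun hn => absurd (Finset.mem_Icc.2 ⟨h.1, by omega⟩) hn),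
          exch_coup hQ (by omega) h.1 (by omega)]
      · refine (Finset.sum_eq_zero fun T hT => ?_).symm
        rw [Finset.mem_Icc] at hT
        rw [coup_support (i := (q.1 : ℕ)) (fun h' => h (by omega)), mul_zero]

theorem chanW_zero (Q : ℕ) : chanW Q 0 = 1 := by
  simp [chanW]

theorem chanW_one {Q : ℕ} (hQ : 2 ≤ Q) : chanW Q 1 = 1 := by
  obtain ⟨n, rfl⟩ : ∃ n, Q = n + 1 := ⟨Q - 1, by omega⟩
  have hn : (n : ℝ) ≠ 0 := by exact_mod_cast (show n ≠ 0 by omega)
  simp [chanW, Finset.sum_range_succ, show 2 * (n + 1) - 2 = 2 * n by omega]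
  field_simp
  norm_num

/-- The three null channels. -/
theorem chanW_null {Q k : ℕ} (hQ : 4 ≤ Q) (hk : k = 0 ∨ k = 1 ∨ k = 3) : chanW Q k = 1 := by
  rcases hk with rfl | rfl | rfl
  · exact chanW_zero Q
  · exact chanW_one (by omega)
  · obtain ⟨n, rfl⟩ : ∃ n, Q = n + 1 := ⟨Q - 1, by omega⟩
    rw [show (3 : ℕ) = 2 + 1 from rfl, closed (by omega) (by omega)]
    have hn : (2 : ℝ) ≤ n := by exact_mod_cast (show 2 ≤ n by omega)
    have d2 : ((2 * n).choose 2 : ℝ) ≠ 0 := by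
      exact_mod_cast (Nat.choose_pos (by omega : 2 ≤ 2 * n)).ne'
    have d3 : ((2 * n).choose (2 + 1) : ℝ) ≠ 0 := by
      exact_mod_cast (Nat.choose_pos (by omega : 2 + 1 ≤ 2 * n)).ne'
    have r1 := Cpl.choose_rec n 1
    have r2 := Cpl.choose_rec (n + 1) 1
    have r3 := Cpl.choose_rec (n + 1) 2
    have r4 := Cpl.choose_rec (2 * n) 1
    have r5 := Cpl.choose_rec (2 * n) 2
    simp only [Nat.choose_one_right, Nat.reduceAdd] at r1 r2 r3 r4 r5 d3 ⊢
    push_cast at *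
    have q3 : ((n + 1).choose 3 : ℝ) = ((n : ℝ) - 1) * ((n + 1) * n / 2) / 3 := by
      linear_combination (1 / 3) * r3 + ((n : ℝ) - 1) / 6 * r2
    have q5 : ((2 * n).choose 3 : ℝ) = (2 * (n : ℝ) - 2) * (2 * n * (2 * n - 1) / 2) / 3 := by
      linear_combination (1 / 3) * r5 + (2 * (n : ℝ) - 2) / 6 * r4
    have q1 : (n.choose 2 : ℝ) = n * ((n : ℝ) - 1) / 2 := by linear_combination (1 / 2) * r1
    have q4 : ((2 * n).choose 2 : ℝ) = 2 * n * (2 * (n : ℝ) - 1) / 2 := by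
      linear_combination (1 / 2) * r4
    rw [q1, q3, q4, q5]
    have : (n : ℝ) ≠ 0 := by positivity
    have : 2 * (n : ℝ) - 1 ≠ 0 := by linarith
    have : 2 * (n : ℝ) - 2 ≠ 0 := by linarith
    have : (n : ℝ) - 1 ≠ 0 := by linarith
    field_simp
    ring

/-- Even channels have a nonpositive weight. -/
theorem chanW_even {Q k : ℕ} (hQ : 4 ≤ Q) (he : Even k) (h2 : 2 ≤ k) (hk : k ≤ Q) :
    chanW Q k ≤ 0 := by
  obtain ⟨n, rfl⟩ : ∃ n, Q = n + 1 := ⟨Q - 1, by omega⟩
  obtain ⟨j, rfl⟩ : ∃ j, k = j + 1 := ⟨k - 1, by omega⟩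
  rw [closed (by omega) (by omega)]
  have hj : Odd j := by
    rcases Nat.even_or_odd j with h | h
    · exact absurd he (Nat.not_even_iff_odd.2 h.add_one)
    · exact h
  rw [hj.neg_one_pow, neg_one_mul, neg_nonpos]
  positivity

theorem Chn.choose_two_pow (n j : ℕ) :
    (n.choose j : ℝ) * 2 ^ j ≤ ((2 * n).choose j : ℝ) := by
  induction j with
  | zero => simp
  | succ j ih =>
    rcases Nat.lt_or_ge j n with h | h
    · have r1 := Cpl.choose_rec n j
      have r2 := Cpl.choose_rec (2 * n) j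
      push_cast at r2
      have hj : (j : ℝ) < n := by exact_mod_cast h
      refine le_of_mul_le_mul_left ?_ (show (0:ℝ) < (j:ℝ) + 1 by positivity)
      rw [r2, ← mul_assoc, r1]
      calc ((n : ℝ) - j) * (n.choose j : ℝ) * 2 ^ (j + 1)
          = 2 * ((n : ℝ) - j) * ((n.choose j : ℝ) * 2 ^ j) := by ring
        _ ≤ 2 * ((n : ℝ) - j) * ((2 * n).choose j : ℝ) :=
          mul_le_mul_of_nonneg_left ih (by linarith)
        _ ≤ _ := mul_le_mul_of_nonneg_right (by linarith [Nat.cast_nonneg (α := ℝ) j])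
          (Nat.cast_nonneg _)
    · rw [Nat.choose_eq_zero_of_lt (by omega : n < j + 1)]
      simp

/-- The channel weights decay geometrically. -/
theorem chanW_bound {Q k : ℕ} (hQ : 4 ≤ Q) (h2 : 2 ≤ k) (hk : k ≤ Q) :
    |chanW Q k| ≤ 6 * (k : ℝ) / 2 ^ k := by
  obtain ⟨n, rfl⟩ : ∃ n, Q = n + 1 := ⟨Q - 1, by omega⟩
  obtain ⟨j, rfl⟩ : ∃ j, k = j + 1 := ⟨k - 1, by omega⟩
  rw [closed (by omega) (by omega), abs_mul, abs_pow, abs_neg, abs_one, one_pow, one_mul,
    abs_of_nonneg (by positivity)]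
  have hDj : (0 : ℝ) < ((2 * n).choose j : ℝ) := by exact_mod_cast Nat.choose_pos (by omega)
  have hDk : (0 : ℝ) < ((2 * n).choose (j + 1) : ℝ) := by exact_mod_cast Nat.choose_pos (by omega)
  have a1 := Chn.choose_two_pow n j
  have a2 := Chn.choose_two_pow n (j + 1)
  have r := Cpl.choose_rec (2 * n) j
  push_cast at r
  have hjn : (j : ℝ) ≤ n := by exact_mod_cast (show j ≤ n by omega)
  have hp : (0 : ℝ) < 2 ^ j := by positivity
  have hj0 : (0 : ℝ) ≤ j := Nat.cast_nonneg _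
  have hP : ((n + 1).choose (j + 1) : ℝ) = n.choose j + n.choose (j + 1) := by
    exact_mod_cast Nat.choose_succ_succ n j
  have b1 : (n.choose j : ℝ) / ((2 * n).choose j : ℝ) ≤ 1 / 2 ^ j := by
    rw [div_le_div_iff₀ hDj hp, one_mul]; exact a1
  have b2 : (n.choose (j + 1) : ℝ) / ((2 * n).choose (j + 1) : ℝ) ≤ 1 / 2 ^ (j + 1) := by
    rw [div_le_div_iff₀ hDk (by positivity), one_mul]; exact a2
  have b3 : (j : ℝ) * (n.choose j : ℝ) / ((2 * n).choose (j + 1) : ℝ) ≤ ((j : ℝ) + 1) / 2 ^ j := by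
    rw [div_le_div_iff₀ hDk hp]
    calc (j : ℝ) * (n.choose j : ℝ) * 2 ^ j = (j : ℝ) * ((n.choose j : ℝ) * 2 ^ j) := by ring
      _ ≤ (j : ℝ) * ((2 * n).choose j : ℝ) := mul_le_mul_of_nonneg_left a1 hj0
      _ ≤ (2 * (n : ℝ) - j) * ((2 * n).choose j : ℝ) :=
          mul_le_mul_of_nonneg_right (by linarith) hDj.le
      _ = _ := r.symm
  rw [hP, mul_add, add_div, mul_div_assoc, mul_div_assoc (j : ℝ) (n.choose (j + 1) : ℝ)]
  have c1 := mul_le_mul_of_nonneg_left b1 (show (0 : ℝ) ≤ (j : ℝ) + 1 by positivity)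
  have c2 := mul_le_mul_of_nonneg_left b2 hj0
  rw [pow_succ] at c2 ⊢
  push_cast
  have e : 6 * ((j : ℝ) + 1) / (2 ^ j * 2) = ((j : ℝ) + 1) * (1 / 2 ^ j) + (((j : ℝ) + 1) / 2 ^ j
      + (((j : ℝ)) * (1 / (2 ^ j * 2)) + (j + 2) / (2 ^ j * 2))) := by
    field_simp
    ring
  have : (0 : ℝ) ≤ ((j : ℝ) + 2) / (2 ^ j * 2) := by positivity
  linarith

/-- The large-spin limit of the channel weights. -/
theorem chanW_limit {k : ℕ} (hk : 1 ≤ k) :
    Tendsto (fun Q => chanW Q k) atTop (𝓝 (wLim k)) := by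
  obtain ⟨j, rfl⟩ : ∃ j, k = j + 1 := ⟨k - 1, by omega⟩
  have hQ : Tendsto (fun Q : ℕ => (Q : ℝ) / Q) atTop (𝓝 1) :=
    tendsto_const_nhds.congr' (by
      filter_upwards [eventually_gt_atTop 0] with Q hQ
      rw [div_self]; exact_mod_cast hQ.ne')
  have hn : Tendsto (fun Q : ℕ => ((Q - 1 : ℕ) : ℝ) / Q) atTop (𝓝 1) := by
    have := hQ.sub (tendsto_const_div_atTop_nhds_zero_nat (1 : ℝ))
    rw [sub_zero] at this
    refine this.congr' ?_
    filter_upwards [eventually_gt_atTop 0] with Q hQ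
    rw [Nat.cast_sub hQ, ← sub_div]; simp
  have hA : Tendsto (fun Q : ℕ => ((2 * Q - 2 : ℕ) : ℝ) / Q) atTop (𝓝 2) := by
    have := hn.const_mul (2 : ℝ)
    rw [mul_one] at this
    refine this.congr' ?_
    filter_upwards [eventually_gt_atTop 0] with Q hQ
    rw [show 2 * Q - 2 = 2 * (Q - 1) by omega]
    push_cast
    ring
  have lim : Tendsto (fun Q : ℕ => (-1 : ℝ) ^ j *
      (((j : ℝ) + 1) * (((Q - 1).choose j : ℝ) / (Q : ℝ) ^ j) /
          (((2 * Q - 2).choose j : ℝ) / (Q : ℝ) ^ j) +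
        (j : ℝ) * ((Q.choose (j + 1) : ℝ) / (Q : ℝ) ^ (j + 1)) /
          (((2 * Q - 2).choose (j + 1) : ℝ) / (Q : ℝ) ^ (j + 1)))) atTop
      (𝓝 ((-1 : ℝ) ^ j * (((j : ℝ) + 1) * ((1 : ℝ) ^ j / (j.factorial : ℝ)) /
          ((2 : ℝ) ^ j / (j.factorial : ℝ)) +
        (j : ℝ) * ((1 : ℝ) ^ (j + 1) / ((j + 1).factorial : ℝ)) /
          ((2 : ℝ) ^ (j + 1) / ((j + 1).factorial : ℝ))))) :=
    tendsto_const_nhds.mul
      (((tendsto_const_nhds.mul (Cpl.choose_tendsto hn j)).div (Cpl.choose_tendsto hA j)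
          (by positivity)).add
        ((tendsto_const_nhds.mul (Cpl.choose_tendsto hQ (j + 1))).div
          (Cpl.choose_tendsto hA (j + 1)) (by positivity)))
  have hval : wLim (j + 1) = (-1 : ℝ) ^ j * (((j : ℝ) + 1) * ((1 : ℝ) ^ j / (j.factorial : ℝ)) /
          ((2 : ℝ) ^ j / (j.factorial : ℝ)) +
        (j : ℝ) * ((1 : ℝ) ^ (j + 1) / ((j + 1).factorial : ℝ)) /
          ((2 : ℝ) ^ (j + 1) / ((j + 1).factorial : ℝ))) := by
    have : (j.factorial : ℝ) ≠ 0 := by positivity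
    have : ((j + 1).factorial : ℝ) ≠ 0 := by positivity
    rw [wLim, Nat.add_sub_cancel, div_pow, pow_succ]
    push_cast
    field_simp
    ring
  rw [hval]
  refine lim.congr' ?_
  filter_upwards [eventually_ge_atTop (j + 4)] with Q hQ
  obtain ⟨n, rfl⟩ : ∃ n, Q = n + 1 := ⟨Q - 1, by omega⟩
  rw [closed (by omega) (by omega), show 2 * (n + 1) - 2 = 2 * n by omega, Nat.add_sub_cancel]
  have : ((n + 1 : ℕ) : ℝ) ≠ 0 := by positivity
  field_simp

end Vale.Agent.P359
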