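import Vale.Agent.P359.Coupling

/-!
The exchange kernel on level indices commutes with raising and lowering; its eigenvalue on a channel
is read off the two extreme components at the top of the channel.
-/

namespace Vale.Agent.P359

open Finset

namespace Chn

/-- The exchange kernel on natural indices. -/
noncomputable def ker (Q i b j c : ℕ) : ℝ := 2 * ∑ a ∈ range (Q + 1), phi Q i a c * phi Q j a b

theorem ker_symm (Q i b j c : ℕ) : ker Q i b j c = ker Q j c i b := by
  simp [ker, mul_comm]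

theorem choose_pred {n a : ℕ} :
    ((n : ℝ) + 1) * Cpl.chooseZ n ((a : ℤ) - 1) = (a : ℝ) * ((n + 1).choose a : ℝ) := by
  rcases Nat.eq_zero_or_pos a with rfl | ha
  · rw [Cpl.chooseZ_neg _ (by norm_num)]; simp
  · obtain ⟨a, rfl⟩ : ∃ j, a = j + 1 := ⟨a - 1, by omega⟩
    rw [show ((a + 1 : ℕ) : ℤ) - 1 = (a : ℤ) by push_cast; ring, Cpl.chooseZ_natCast]
    have h := Nat.add_one_mul_choose_eq n a
    have h' : ((n + 1) * n.choose a : ℝ) = ((n + 1).choose (a + 1) * (a + 1) : ℝ) := by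
      exact_mod_cast h
    push_cast
    linarith

theorem choose_same {n a : ℕ} (ha : a ≤ n + 1) :
    ((n : ℝ) + 1) * (n.choose a : ℝ) = ((n : ℝ) + 1 - a) * ((n + 1).choose a : ℝ) := by
  have h := Nat.choose_mul_succ_eq n a
  have h' : ((n.choose a * (n + 1) : ℕ) : ℝ) = (((n + 1).choose a * (n + 1 - a) : ℕ) : ℝ) := by
    rw [h]
  push_cast [Nat.cast_sub ha] at h'
  linarith

theorem coef_pair {n : ℕ} (M a b : ℕ) (hab : a + b = M + 1) (ha : a ≤ n + 1) (hb : b ≤ n + 1) :
    ((n : ℝ) + 1) * Cpl.coef n n 1 M a b =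
      ((a : ℝ) - b) * ((n + 1).choose a : ℝ) * ((n + 1).choose b : ℝ) := by
  simp only [Cpl.coef]
  rw [if_pos (by omega), if_pos (by omega), Cpl.chooseZ_natCast, Cpl.chooseZ_natCast]
  have hn : ((n : ℝ) + 1) ≠ 0 := by positivity
  refine mul_left_cancel₀ hn ?_
  have h1 := choose_pred (n := n) (a := a)
  have h2 := choose_pred (n := n) (a := b)
  have h3 := choose_same ha
  have h4 := choose_same hb
  linear_combination ((n : ℝ) + 1) * (n.choose b : ℝ) * h1 + (a : ℝ) * ((n + 1).choose a : ℝ) * h4 -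
    ((n : ℝ) + 1) * (n.choose a : ℝ) * h2 - (b : ℝ) * ((n + 1).choose b : ℝ) * h3

theorem phi_eq_raw {n M : ℕ} (a b : ℕ) :
    phi (n + 1) M a b = -((n : ℝ) + 1) / Real.sqrt (2 * ((n : ℝ) + 1) * ((2 * n).choose M : ℝ)) *
      Cpl.rawZ (n + 1) (n + 1) 1 M a b := by
  by_cases h : a + b = M + 1 ∧ a ≤ n + 1 ∧ b ≤ n + 1
  · obtain ⟨hab, ha, hb⟩ := h
    rw [phi, if_pos ⟨hab, ha, hb⟩, Cpl.rawZ, if_pos ⟨ha, hb⟩]
    simp only [Nat.add_sub_cancel]
    have hpair := coef_pair M a b hab ha hb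
    have hCa : (0 : ℝ) < ((n + 1).choose a : ℝ) := by exact_mod_cast Nat.choose_pos ha
    have hCb : (0 : ℝ) < ((n + 1).choose b : ℝ) := by exact_mod_cast Nat.choose_pos hb
    rw [show 2 * (n + 1) - 2 = 2 * n by omega]
    push_cast
    rw [Real.sqrt_div' _ (by positivity)]
    have hs := Real.mul_self_sqrt (mul_pos hCa hCb).le
    set s := Real.sqrt (((n + 1).choose a : ℝ) * ((n + 1).choose b : ℝ))
    have hs0 : 0 < s := Real.sqrt_pos.2 (mul_pos hCa hCb)
    set D := Real.sqrt (2 * ((n : ℝ) + 1) * ((2 * n).choose M : ℝ))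
    field_simp
    linear_combination ((b : ℝ) - a) * D⁻¹ * hs + D⁻¹ * hpair
  · rw [phi, if_neg h]
    by_cases hz : Cpl.rawZ (n + 1) (n + 1) 1 (M : ℤ) a b = 0
    · rw [hz, mul_zero]
    · exact absurd (by have := Cpl.rawZ_support hz; omega) h

theorem phi_zero {n M : ℕ} (hM : 2 * n < M) (a b : ℕ) : phi (n + 1) M a b = 0 := by
  rw [phi_eq_raw, Cpl.rawZ_out (Or.inr (by omega)), mul_zero]

theorem sqrt_two_mul (n : ℕ) (x : ℝ) :
    Real.sqrt (2 * ((n : ℝ) + 1) * x) = Real.sqrt (2 * ((n : ℝ) + 1)) * Real.sqrt x :=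
  Real.sqrt_mul (by positivity) _

theorem lower2_phi {n : ℕ} (M a b : ℕ) :
    lower2 (n + 1) (n + 1) (phi (n + 1) M) a b = lad (2 * n) M * phi (n + 1) (M + 1) a b := by
  have hlin : lower2 (n + 1) (n + 1) (phi (n + 1) M) a b =
      -((n : ℝ) + 1) / Real.sqrt (2 * ((n : ℝ) + 1) * ((2 * n).choose M : ℝ)) *
        lower2 (n + 1) (n + 1) (Cpl.rawZ (n + 1) (n + 1) 1 M) a b := by
    simp only [lower2, phi_eq_raw]
    split_ifs <;> ring
  rw [hlin, Cpl.lower2_rawZ (by omega) (by omega), phi_eq_raw (M := M + 1),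
    show ((M + 1 : ℕ) : ℤ) = (M : ℤ) + 1 by push_cast; ring]
  rcases Nat.lt_or_ge M (2 * n) with h | h
  · have e := (Cpl.lad_div_choose h).2
    push_cast
    calc _ = -((n : ℝ) + 1) / Real.sqrt (2 * ((n : ℝ) + 1)) *
          (((M : ℝ) + 1) / Real.sqrt ((2 * n).choose M : ℝ)) *
          Cpl.rawZ (n + 1) (n + 1) 1 ((M : ℤ) + 1) a b := by rw [sqrt_two_mul]; ring
      _ = _ := by rw [← e, sqrt_two_mul]; ring
  · rw [Cpl.rawZ_out (m := (M : ℤ) + 1) (Or.inr (by omega))]
    simp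

theorem raise2_phi {n : ℕ} (M a b : ℕ) :
    raise2 (n + 1) (n + 1) (phi (n + 1) (M + 1)) a b = lad (2 * n) M * phi (n + 1) M a b := by
  have hlin : raise2 (n + 1) (n + 1) (phi (n + 1) (M + 1)) a b =
      -((n : ℝ) + 1) / Real.sqrt (2 * ((n : ℝ) + 1) * ((2 * n).choose (M + 1) : ℝ)) *
        raise2 (n + 1) (n + 1) (Cpl.rawZ (n + 1) (n + 1) 1 ((M : ℤ) + 1)) a b := by
    simp only [raise2, phi_eq_raw, show ((M + 1 : ℕ) : ℤ) = (M : ℤ) + 1 by push_cast; ring]
    split_ifs <;> ring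
  rw [hlin, Cpl.raise2_rawZ (by omega) (by omega), phi_eq_raw (M := M)]
  rcases Nat.lt_or_ge M (2 * n) with h | h
  · have e := (Cpl.lad_div_choose h).1
    push_cast at e ⊢
    calc _ = -((n : ℝ) + 1) / Real.sqrt (2 * ((n : ℝ) + 1)) *
          ((2 * (n : ℝ) - M) / Real.sqrt ((2 * n).choose (M + 1) : ℝ)) *
          Cpl.rawZ (n + 1) (n + 1) 1 (M : ℤ) a b := by rw [sqrt_two_mul]; ring
      _ = _ := by rw [← e, sqrt_two_mul]; ring
  · rcases eq_or_lt_of_le h with rfl | h'
    · simp [lad]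
    · rw [Cpl.rawZ_out (m := (M : ℤ)) (Or.inr (by omega))]
      simp

theorem raise2_phi_zero {n : ℕ} (a b : ℕ) :
    raise2 (n + 1) (n + 1) (phi (n + 1) 0) a b = 0 := by
  have hlin : raise2 (n + 1) (n + 1) (phi (n + 1) 0) a b =
      -((n : ℝ) + 1) / Real.sqrt (2 * ((n : ℝ) + 1) * ((2 * n).choose 0 : ℝ)) *
        raise2 (n + 1) (n + 1) (Cpl.rawZ (n + 1) (n + 1) 1 (-1 + 1)) a b := by
    simp only [raise2, phi_eq_raw, Nat.cast_zero, neg_add_cancel]
    split_ifs <;> ring
  rw [hlin, Cpl.raise2_rawZ (by omega) (by omega), Cpl.rawZ_out (Or.inl (by norm_num))]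
  ring

/-- The kernel commutes with lowering. -/
theorem ker_comm {n i b j c : ℕ} (hi : i ≤ 2 * n) (hj : j ≤ 2 * n) :
    lower2 (2 * n) (n + 1) (fun i' b' => ker (n + 1) i' b' j c) i b =
      raise2 (2 * n) (n + 1) (fun j' c' => ker (n + 1) i b j' c') j c := by
  set B := n + 1 with hB
  have h1 : ∀ a, (if 1 ≤ i ∧ i ≤ 2 * n then lad (2 * n) (i - 1) * phi B (i - 1) a c else 0) =
      raise2 B B (phi B i) a c := by
    intro a
    rcases Nat.eq_zero_or_pos i with rfl | h
    · rw [if_neg (by omega), raise2_phi_zero]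
    · obtain ⟨i, rfl⟩ : ∃ m, i = m + 1 := ⟨i - 1, by omega⟩
      rw [if_pos ⟨h, hi⟩, Nat.add_sub_cancel, raise2_phi]
  have h2 : ∀ a, lower2 B B (phi B j) a b =
      if j < 2 * n then lad (2 * n) j * phi B (j + 1) a b else 0 := by
    intro a
    rw [lower2_phi]
    split_ifs with h
    · rfl
    · rw [phi_zero (by omega), mul_zero]
  have h3 := Cpl.shift_sum B (lad B) (fun a => phi B j a b) (fun a => phi B i a c)
  have hL : lower2 (2 * n) B (fun i' b' => ker B i' b' j c) i b =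
      2 * ∑ a ∈ range (B + 1),
        ((if 1 ≤ i ∧ i ≤ 2 * n then lad (2 * n) (i - 1) * phi B (i - 1) a c else 0) * phi B j a b +
          phi B i a c * (if 1 ≤ b ∧ b ≤ B then lad B (b - 1) * phi B j a (b - 1) else 0)) := by
    simp only [lower2, ker]
    rw [Finset.sum_add_distrib, mul_add]
    congr 1 <;> split_ifs <;> simp [Finset.mul_sum] <;>
      exact Finset.sum_congr rfl fun a _ => by ring
  have hR : raise2 (2 * n) B (fun j' c' => ker B i b j' c') j c =
      2 * ∑ a ∈ range (B + 1),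
        (phi B i a c * (if j < 2 * n then lad (2 * n) j * phi B (j + 1) a b else 0) +
          (if c < B then lad B c * phi B i a (c + 1) else 0) * phi B j a b) := by
    simp only [raise2, ker]
    rw [Finset.sum_add_distrib, mul_add]
    congr 1 <;> split_ifs <;> simp [Finset.mul_sum] <;>
      exact Finset.sum_congr rfl fun a _ => by ring
  rw [hL, hR]
  congr 1
  simp only [← h2, h1, lower2, raise2, add_mul, mul_add, Finset.sum_add_distrib]
  have h4 : ∑ a ∈ range (B + 1), (if a < B then lad B a * phi B i (a + 1) c else 0) * phi B j a b =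
      ∑ a ∈ range (B + 1),
        phi B i a c * (if 1 ≤ a ∧ a ≤ B then lad B (a - 1) * phi B j (a - 1) b else 0) := by
    simp only [mul_comm _ (phi B j _ b)]
    rw [← h3]
    simp [mul_comm]
  linarith

/-- The exchange operator on two-level functions. -/
noncomputable def act (n : ℕ) (v : ℕ → ℕ → ℝ) (i b : ℕ) : ℝ :=
  Cpl.ip (2 * n) (n + 1) (fun j c => ker (n + 1) i b j c) v

theorem ip_comm (A B : ℕ) (f g : ℕ → ℕ → ℝ) : Cpl.ip A B f g = Cpl.ip A B g f := by
  simp [Cpl.ip, mul_comm]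

theorem ip_congr {A B : ℕ} {f f' g g' : ℕ → ℕ → ℝ}
    (h : ∀ i b, i ≤ A → b ≤ B → f i b = f' i b) (h' : ∀ i b, i ≤ A → b ≤ B → g i b = g' i b) :
    Cpl.ip A B f g = Cpl.ip A B f' g' := by
  refine Finset.sum_congr rfl fun i hi => Finset.sum_congr rfl fun b hb => ?_
  rw [Finset.mem_range] at hi hb
  rw [h i b (by omega) (by omega), h' i b (by omega) (by omega)]

theorem lower2_act {n i b : ℕ} (v : ℕ → ℕ → ℝ) (hi : i ≤ 2 * n) :
    lower2 (2 * n) (n + 1) (act n v) i b = act n (lower2 (2 * n) (n + 1) v) i b := by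
  have e : lower2 (2 * n) (n + 1) (act n v) i b =
      Cpl.ip (2 * n) (n + 1)
        (fun j c => lower2 (2 * n) (n + 1) (fun i' b' => ker (n + 1) i' b' j c) i b) v := by
    simp only [lower2, act, Cpl.ip]
    split_ifs <;> simp [Finset.mul_sum, add_mul, Finset.sum_add_distrib, mul_assoc]
  rw [e, ip_congr (fun j c hj _ => ker_comm hi hj) (fun _ _ _ _ => rfl), ip_comm, ← Cpl.ip_adjoint,
    ip_comm]
  rfl

theorem raise2_act {n i b : ℕ} (v : ℕ → ℕ → ℝ) (hi : i ≤ 2 * n) :
    raise2 (2 * n) (n + 1) (act n v) i b = act n (raise2 (2 * n) (n + 1) v) i b := by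
  have e : raise2 (2 * n) (n + 1) (act n v) i b =
      Cpl.ip (2 * n) (n + 1)
        (fun j c => raise2 (2 * n) (n + 1) (fun i' b' => ker (n + 1) j c i' b') i b) v := by
    simp only [raise2, act, Cpl.ip, fun i b j c => ker_symm (n + 1) i b j c]
    split_ifs <;> simp [Finset.mul_sum, add_mul, Finset.sum_add_distrib, mul_assoc]
  rw [e, ip_congr (fun j c hj _ => (ker_comm (b := c) (c := b) hj hi).symm) (fun _ _ _ _ => rfl),
    Cpl.ip_adjoint]
  exact ip_congr (fun j c _ _ => ker_symm (n + 1) j c i b) (fun _ _ _ _ => rfl)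

theorem act_smul (n : ℕ) (s : ℝ) (v : ℕ → ℕ → ℝ) (i b : ℕ) :
    act n (fun j c => s * v j c) i b = s * act n v i b :=
  Cpl.ip_smul_right _ _ _ _ _

theorem rawZ_top {A B k i b : ℕ} (hA : k ≤ A) (hB : k ≤ B) (h : i + b = k) :
    Cpl.rawZ A B k 0 i b =
      (-1 : ℝ) ^ b * (k.choose b : ℝ) / Real.sqrt ((A.choose i : ℝ) * (B.choose b : ℝ)) := by
  rw [Cpl.rawZ, if_pos ⟨by omega, by omega⟩, Cpl.coef_closed, if_pos (by omega),
    Finset.sum_eq_single b]
  · simp [Cpl.term, show (i : ℤ) + b - k = 0 by omega, Cpl.chooseZ]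
  · intro r hr hrb
    rw [Finset.mem_range] at hr
    rw [Cpl.term]
    rcases Nat.lt_or_ge r b with h' | h'
    · rw [Cpl.chooseZ_neg _ (show (i : ℤ) + r - k < 0 by omega)]; ring
    · rw [Cpl.chooseZ_neg _ (show (b : ℤ) - r < 0 by omega)]; ring
  · intro hb; exact absurd (Finset.mem_range.2 (by omega)) hb

theorem ker_support {n i b j c : ℕ} (h : ker (n + 1) i b j c ≠ 0) : i + b = j + c := by
  unfold ker at h
  obtain ⟨a, -, ha⟩ := Finset.exists_ne_zero_of_sum_ne_zero (right_ne_zero_of_mul h)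
  obtain ⟨h1, h2⟩ := mul_ne_zero_iff.1 ha
  simp only [phi, ne_eq, ite_eq_right_iff, Classical.not_imp] at h1 h2
  omega

theorem act_top_support {n k i b : ℕ} (h : i + b ≠ k) :
    act n (Cpl.rawZ (2 * n) (n + 1) k 0) i b = 0 := by
  rw [act, Cpl.ip]
  refine Finset.sum_eq_zero fun j _ => Finset.sum_eq_zero fun c _ => ?_
  by_cases hv : Cpl.rawZ (2 * n) (n + 1) k 0 j c = 0
  · rw [hv, mul_zero]
  · by_cases hk : ker (n + 1) i b j c = 0
    · rw [hk, zero_mul]
    · have := ker_support hk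
      have := Cpl.rawZ_support hv
      omega

theorem act_top_low {n k : ℕ} (hk : k ≤ n + 1) (hk' : k ≤ 2 * n) :
    act n (Cpl.rawZ (2 * n) (n + 1) k 0) k 0 =
      chanW (n + 1) k * Cpl.rawZ (2 * n) (n + 1) k 0 k 0 := by
  set v := Cpl.rawZ (2 * n) (n + 1) k 0 with hv
  have h1 : act n v k 0 = ∑ j ∈ range (k + 1), ker (n + 1) k 0 j (k - j) * v j (k - j) := by
    rw [act, Cpl.ip, ← Finset.sum_subset (s₁ := range (k + 1)) (s₂ := range (2 * n + 1))
      (Finset.range_subset_range.2 (by omega)) (fun j _ hj => by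
        refine Finset.sum_eq_zero fun c _ => ?_
        by_contra h
        have := Cpl.rawZ_support (right_ne_zero_of_mul h)
        simp only [Finset.mem_range] at hj
        omega)]
    refine Finset.sum_congr rfl fun j hj => Finset.sum_eq_single (k - j) (fun c _ hc => ?_) ?_
    · by_contra h
      have := Cpl.rawZ_support (right_ne_zero_of_mul h)
      simp only [Finset.mem_range] at hj
      omega
    · intro h
      simp only [Finset.mem_range] at h hj
      omega
  rw [h1, hv, rawZ_top hk' hk (Nat.add_zero k)]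
  rw [chanW, Finset.sum_mul, ← Finset.sum_range_reflect (fun b => (-1 : ℝ) ^ b * _ * _ * _ / _ * _)]
  refine Finset.sum_congr rfl fun j hj => ?_
  rw [Finset.mem_range] at hj
  rw [Nat.add_sub_cancel, rawZ_top hk' hk (show j + (k - j) = k by omega),
    show k - (k - j) = j by omega, Nat.choose_symm (by omega : j ≤ k)]
  simp only [Nat.add_sub_cancel, show 2 * (n + 1) - 2 = 2 * n by omega, pow_zero, Nat.choose_zero_right,
    Nat.cast_one, mul_one, Nat.cast_sub (show j ≤ k by omega)]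
  rcases Nat.lt_or_ge n j with hnj | hnj
  · rw [Nat.choose_eq_zero_of_lt hnj]
    have hz : ker (n + 1) k 0 j (k - j) = 0 := by
      rw [ker, Finset.sum_eq_zero fun a _ => by
        rw [show phi (n + 1) j a 0 = 0 by rw [phi, if_neg (by omega)], mul_zero], mul_zero]
    simp [hz]
  · have hker : ker (n + 1) k 0 j (k - j) =
        2 * (phi (n + 1) k (j + 1) (k - j) * phi (n + 1) j (j + 1) 0) := by
      rw [ker, Finset.sum_eq_single (j + 1) (fun a _ ha => by
        rw [show phi (n + 1) j a 0 = 0 by rw [phi, if_neg (by omega)], mul_zero]) (fun h => absurd (Finset.mem_range.2 (by omega)) h)]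
    rw [hker, phi, if_pos ⟨by omega, by omega, by omega⟩, phi, if_pos ⟨by omega, by omega, by omega⟩,
      show 2 * (n + 1) - 2 = 2 * n by omega]
    simp only [Nat.choose_zero_right, Nat.cast_one, mul_one, Nat.cast_zero, zero_sub]
    rw [Real.sqrt_div' _ (by positivity), Real.sqrt_div' _ (by positivity),
      Real.sqrt_mul (Nat.cast_nonneg _), Real.sqrt_mul (Nat.cast_nonneg ((2 * n).choose j)),
      Real.sqrt_mul (by positivity), Real.sqrt_mul (show (0 : ℝ) ≤ 2 * ((n + 1 : ℕ) : ℝ) by positivity)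
        ((2 * n).choose j : ℝ)]
    have hCa : (0 : ℝ) < ((n + 1).choose (j + 1) : ℝ) := by exact_mod_cast Nat.choose_pos (by omega)
    have hCb : (0 : ℝ) < ((n + 1).choose (k - j) : ℝ) := by exact_mod_cast Nat.choose_pos (by omega)
    have hDk : (0 : ℝ) < ((2 * n).choose k : ℝ) := by exact_mod_cast Nat.choose_pos hk'
    have hDj : (0 : ℝ) < ((2 * n).choose j : ℝ) := by exact_mod_cast Nat.choose_pos (by omega)
    have hCn : ((n : ℝ) + 1) * (n.choose j : ℝ) = ((n + 1).choose (j + 1) : ℝ) * ((j : ℝ) + 1) := by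
      exact_mod_cast Nat.add_one_mul_choose_eq n j
    have e1 := Real.sq_sqrt hCa.le
    have e2 := Real.sq_sqrt hDj.le
    have e3 := Real.sq_sqrt (show (0 : ℝ) ≤ 2 * ((n + 1 : ℕ) : ℝ) by positivity)
    push_cast [Nat.cast_sub (show j ≤ k by omega)] at e3 ⊢
    have p1 := Real.sqrt_pos.2 hCb
    have p2 := Real.sqrt_pos.2 hDk
    have p3 := Real.sqrt_pos.2 hDj
    have p4 := Real.sqrt_pos.2 (show (0 : ℝ) < 2 * ((n : ℝ) + 1) by positivity)
    field_simp
    rw [e1, e2, e3]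
    linear_combination
      -2 * (2 * (j : ℝ) + 1 - k) * (k.choose j : ℝ) * ((2 * n).choose j : ℝ) * hCn

end Chn

end Vale.Agent.P359
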