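import Vale.Agent.P359.Basic

/-!
The large-spin limit of the coupled vectors `coup (A Q) (B Q) k T` when `A Q / Q → al`, `B Q / Q → be`.
-/

namespace Vale.Agent.P359

open Finset

/-- Limit of the unnormalised coupled vector (up to a positive factor). -/
noncomputable def coupLimRaw (al be : ℝ) (k T i b : ℕ) : ℝ :=
  if i + b = T then
    (∑ r ∈ range (k + 1), if k ≤ i + r ∧ r ≤ b then
      (-1 : ℝ) ^ r * (k.choose r) * (al ^ (i + r - k) / ((i + r - k).factorial : ℝ)) *
        (be ^ (b - r) / ((b - r).factorial : ℝ)) else 0) /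
      Real.sqrt (al ^ i / (i.factorial : ℝ) * (be ^ b / (b.factorial : ℝ)))
  else 0

/-- Limit of `coup`. -/
noncomputable def coupLim (al be : ℝ) (k T i b : ℕ) : ℝ :=
  coupLimRaw al be k T i b / Real.sqrt (∑ j ∈ range (T + 1), coupLimRaw al be k T j (T - j) ^ 2)

end Vale.Agent.P359
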