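import Vale.Agent.P359.CouplingPoly
import Vale.Agent.P359.CouplingLimDef

/-!
The coupled vectors `coup A B k T`: orthonormality, action of raising and lowering, completeness,
and their limit for large spins.
-/

namespace Vale.Agent.P359

open Finset Filter Topology

namespace Cpl

/-- The coupled vector with an integer degree `m = T - k`. -/
noncomputable def rawZ (A B k : ℕ) (m : ℤ) (i b : ℕ) : ℝ :=
  if i ≤ A ∧ b ≤ B then
    coef (A - k) (B - k) k m i b / Real.sqrt ((A.choose i : ℝ) * (B.choose b))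
  else 0

theorem coupRaw_eq {A B k : ℕ} (T i b : ℕ) :
    coupRaw A B k T i b = rawZ A B k ((T : ℤ) - k) i b := by
  unfold coupRaw rawZ
  rw [coef_closed]
  by_cases h : i + b = T ∧ i ≤ A ∧ b ≤ B
  · rw [if_pos h, if_pos h.2, if_pos (show (i : ℤ) + b = (T : ℤ) - k + k by omega)]
    congr 1
    refine Finset.sum_congr rfl fun r _ => ?_
    unfold term
    by_cases hr : k ≤ i + r ∧ r ≤ b
    · rw [if_pos hr, show (i : ℤ) + r - k = ((i + r - k : ℕ) : ℤ) by omega,
        show (b : ℤ) - r = ((b - r : ℕ) : ℤ) by omega, chooseZ_natCast, chooseZ_natCast]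
    · rw [if_neg hr]
      rcases not_and_or.1 hr with h1 | h1
      · rw [chooseZ_neg _ (show (i : ℤ) + r - k < 0 by omega)]; ring
      · rw [chooseZ_neg _ (show (b : ℤ) - r < 0 by omega)]; ring
  · rw [if_neg h]
    split_ifs with h2 h3
    · exact absurd ⟨by omega, h2.1, h2.2⟩ h
    · simp
    · rfl

theorem rawZ_support {A B k : ℕ} {m : ℤ} {i b : ℕ} (h : rawZ A B k m i b ≠ 0) :
    (i : ℤ) + b = m + k ∧ i ≤ A ∧ b ≤ B := by
  unfold rawZ at h
  split_ifs at h with hib
  · exact ⟨(coef_support _ _ _ _ _ _ fun h0 => h (by rw [h0, zero_div])).1, hib⟩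
  · exact absurd rfl h

theorem rawZ_out {A B k : ℕ} {m : ℤ} (h : m < 0 ∨ ((A - k + (B - k) : ℕ) : ℤ) < m) (i b : ℕ) :
    rawZ A B k m i b = 0 := by
  unfold rawZ
  split_ifs
  · rw [coef_out _ _ _ _ _ _ h, zero_div]
  · rfl

theorem choose_rec (A n : ℕ) :
    ((n : ℝ) + 1) * (A.choose (n + 1) : ℝ) = ((A : ℝ) - n) * (A.choose n : ℝ) := by
  have h := chooseZ_succ A (n : ℤ)
  rw [show (n : ℤ) + 1 = ((n + 1 : ℕ) : ℤ) by push_cast; ring, chooseZ_natCast, chooseZ_natCast] at h
  exact_mod_cast h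

theorem lad_div_choose {A n : ℕ} (hn : n < A) :
    lad A n / Real.sqrt (A.choose n : ℝ) = ((A : ℝ) - n) / Real.sqrt (A.choose (n + 1) : ℝ) ∧
      lad A n / Real.sqrt (A.choose (n + 1) : ℝ) = ((n : ℝ) + 1) / Real.sqrt (A.choose n : ℝ) := by
  have hrec := choose_rec A n
  have h1 : (0 : ℝ) < A.choose n := by exact_mod_cast Nat.choose_pos hn.le
  have h2 : (0 : ℝ) < A.choose (n + 1) := by exact_mod_cast Nat.choose_pos hn
  have h3 : (0 : ℝ) ≤ (A : ℝ) - n := by
    rw [sub_nonneg]; exact_mod_cast hn.le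
  constructor
  · rw [lad, ← Real.sqrt_div' _ h1.le, ← Real.sqrt_sq h3, ← Real.sqrt_div' _ h2.le,
      Real.sqrt_sq h3]
    congr 1
    field_simp
    linear_combination ((A : ℝ) - n) * hrec
  · rw [lad, ← Real.sqrt_div' _ h2.le, ← Real.sqrt_sq (by positivity : (0:ℝ) ≤ (n:ℝ) + 1),
      ← Real.sqrt_div' _ h1.le, Real.sqrt_sq (by positivity : (0:ℝ) ≤ (n:ℝ) + 1)]
    congr 1
    field_simp
    linear_combination -hrec

theorem sqrt_mul_choose (A B i b : ℕ) :
    Real.sqrt ((A.choose i : ℝ) * (B.choose b)) =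
      Real.sqrt (A.choose i : ℝ) * Real.sqrt (B.choose b : ℝ) :=
  Real.sqrt_mul (Nat.cast_nonneg _) _

theorem lower2_rawZ {A B k : ℕ} (hA : k ≤ A) (hB : k ≤ B) (m : ℤ) (i b : ℕ) :
    lower2 A B (rawZ A B k m) i b = ((m : ℝ) + 1) * rawZ A B k (m + 1) i b := by
  by_cases hib : i ≤ A ∧ b ≤ B
  · obtain ⟨hiA, hbB⟩ := hib
    have key := coef_lower (A - k) (B - k) k m i b
    rw [Nat.cast_sub hA, Nat.cast_sub hB] at key
    have e1 : (if 1 ≤ i ∧ i ≤ A then lad A (i - 1) * rawZ A B k m (i - 1) b else 0) =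
        ((A : ℝ) - k + k - (i : ℤ) + 1) * coef (A - k) (B - k) k m ((i : ℤ) - 1) b /
          Real.sqrt ((A.choose i : ℝ) * (B.choose b)) := by
      rcases Nat.eq_zero_or_pos i with rfl | hi
      · rw [if_neg (by omega),
          coef_eq_zero (m := m) (i := ((0 : ℕ) : ℤ) - 1) (b := (b : ℤ)) (by omega)]
        simp
      · obtain ⟨n, rfl⟩ : ∃ n, i = n + 1 := ⟨i - 1, by omega⟩
        rw [if_pos ⟨hi, hiA⟩, Nat.add_sub_cancel, rawZ, if_pos ⟨by omega, hbB⟩,
          sqrt_mul_choose, sqrt_mul_choose]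
        push_cast
        rw [show (n : ℤ) + 1 - 1 = n by ring]
        calc lad A n * (coef (A - k) (B - k) k m n b / (Real.sqrt (A.choose n : ℝ) * Real.sqrt (B.choose b : ℝ)))
            = lad A n / Real.sqrt (A.choose n : ℝ) * (coef (A - k) (B - k) k m n b / Real.sqrt (B.choose b : ℝ)) := by
              ring
          _ = _ := by
              rw [(lad_div_choose (show n < A by omega)).1]
              ring
    have e2 : (if 1 ≤ b ∧ b ≤ B then lad B (b - 1) * rawZ A B k m i (b - 1) else 0) =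
        ((B : ℝ) - k + k - (b : ℤ) + 1) * coef (A - k) (B - k) k m i ((b : ℤ) - 1) /
          Real.sqrt ((A.choose i : ℝ) * (B.choose b)) := by
      rcases Nat.eq_zero_or_pos b with rfl | hb
      · rw [if_neg (by omega),
          coef_eq_zero (m := m) (i := (i : ℤ)) (b := ((0 : ℕ) : ℤ) - 1) (by omega)]
        simp
      · obtain ⟨n, rfl⟩ : ∃ n, b = n + 1 := ⟨b - 1, by omega⟩
        rw [if_pos ⟨hb, hbB⟩, Nat.add_sub_cancel, rawZ, if_pos ⟨hiA, by omega⟩,
          sqrt_mul_choose, sqrt_mul_choose]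
        push_cast
        rw [show (n : ℤ) + 1 - 1 = n by ring]
        calc lad B n * (coef (A - k) (B - k) k m i n / (Real.sqrt (A.choose i : ℝ) * Real.sqrt (B.choose n : ℝ)))
            = lad B n / Real.sqrt (B.choose n : ℝ) * (coef (A - k) (B - k) k m i n / Real.sqrt (A.choose i : ℝ)) := by
              ring
          _ = _ := by
              rw [(lad_div_choose (show n < B by omega)).1]
              ring
    rw [lower2, e1, e2, ← add_div, key, rawZ, if_pos ⟨hiA, hbB⟩, mul_div_assoc]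
  · rw [rawZ, if_neg hib, mul_zero, lower2]
    have z : ∀ i' b' : ℕ, ¬(i' ≤ A ∧ b' ≤ B) → rawZ A B k m i' b' = 0 := fun i' b' h => by
      rw [rawZ, if_neg h]
    rcases not_and_or.1 hib with h | h
    · rw [if_neg (by omega), z i (b - 1) (by omega)]; simp
    · rw [z (i - 1) b (by omega), if_neg (show ¬(1 ≤ b ∧ b ≤ B) by omega)]; simp

theorem raise2_rawZ {A B k : ℕ} (hA : k ≤ A) (hB : k ≤ B) (m : ℤ) (i b : ℕ) :
    raise2 A B (rawZ A B k (m + 1)) i b =
      ((A : ℝ) + B - 2 * k - m) * rawZ A B k m i b := by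
  by_cases hib : i ≤ A ∧ b ≤ B
  · obtain ⟨hiA, hbB⟩ := hib
    have key := coef_raise (A - k) (B - k) k m i b
    rw [Nat.cast_sub hA, Nat.cast_sub hB] at key
    have e1 : (if i < A then lad A i * rawZ A B k (m + 1) (i + 1) b else 0) =
        (((i : ℤ) : ℝ) + 1) * coef (A - k) (B - k) k (m + 1) ((i : ℤ) + 1) b /
          Real.sqrt ((A.choose i : ℝ) * (B.choose b)) := by
      by_cases hi : i < A
      · rw [if_pos hi, rawZ, if_pos ⟨by omega, hbB⟩, sqrt_mul_choose, sqrt_mul_choose]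
        push_cast
        calc lad A i * (coef (A - k) (B - k) k (m + 1) ((i : ℤ) + 1) b /
              (Real.sqrt (A.choose (i + 1) : ℝ) * Real.sqrt (B.choose b : ℝ)))
            = lad A i / Real.sqrt (A.choose (i + 1) : ℝ) *
                (coef (A - k) (B - k) k (m + 1) ((i : ℤ) + 1) b / Real.sqrt (B.choose b : ℝ)) := by
              ring
          _ = _ := by
              rw [(lad_div_choose hi).2]
              ring
      · rw [if_neg hi, coef_eq_zero (m := m + 1) (i := (i : ℤ) + 1) (b := (b : ℤ)) (by omega)]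
        simp
    have e2 : (if b < B then lad B b * rawZ A B k (m + 1) i (b + 1) else 0) =
        (((b : ℤ) : ℝ) + 1) * coef (A - k) (B - k) k (m + 1) i ((b : ℤ) + 1) /
          Real.sqrt ((A.choose i : ℝ) * (B.choose b)) := by
      by_cases hb : b < B
      · rw [if_pos hb, rawZ, if_pos ⟨hiA, by omega⟩, sqrt_mul_choose, sqrt_mul_choose]
        push_cast
        calc lad B b * (coef (A - k) (B - k) k (m + 1) i ((b : ℤ) + 1) /
              (Real.sqrt (A.choose i : ℝ) * Real.sqrt (B.choose (b + 1) : ℝ)))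
            = lad B b / Real.sqrt (B.choose (b + 1) : ℝ) *
                (coef (A - k) (B - k) k (m + 1) i ((b : ℤ) + 1) / Real.sqrt (A.choose i : ℝ)) := by
              ring
          _ = _ := by
              rw [(lad_div_choose hb).2]
              ring
      · rw [if_neg hb, coef_eq_zero (m := m + 1) (i := (i : ℤ)) (b := (b : ℤ) + 1) (by omega)]
        simp
    rw [raise2, e1, e2, ← add_div, key, rawZ, if_pos ⟨hiA, hbB⟩]
    ring
  · rw [rawZ, if_neg hib, mul_zero, raise2]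
    have z : ∀ i' b' : ℕ, ¬(i' ≤ A ∧ b' ≤ B) → rawZ A B k (m + 1) i' b' = 0 := fun i' b' h => by
      rw [rawZ, if_neg h]
    rcases not_and_or.1 hib with h | h
    · rw [if_neg (by omega), z i (b + 1) (by omega)]; simp
    · rw [z (i + 1) b (by omega), if_neg (show ¬(b < B) by omega)]; simp

/-- The inner product of the two-level space. -/
noncomputable def ip (A B : ℕ) (f g : ℕ → ℕ → ℝ) : ℝ :=
  ∑ i ∈ range (A + 1), ∑ b ∈ range (B + 1), f i b * g i b

theorem ip_smul_left (A B : ℕ) (c : ℝ) (f g : ℕ → ℕ → ℝ) :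
    ip A B (fun i b => c * f i b) g = c * ip A B f g := by
  simp [ip, Finset.mul_sum, mul_assoc]

theorem ip_smul_right (A B : ℕ) (c : ℝ) (f g : ℕ → ℕ → ℝ) :
    ip A B f (fun i b => c * g i b) = c * ip A B f g := by
  simp [ip, Finset.mul_sum, mul_left_comm]

theorem shift_sum (n : ℕ) (L u v : ℕ → ℝ) :
    ∑ i ∈ range (n + 1), (if 1 ≤ i ∧ i ≤ n then L (i - 1) * u (i - 1) else 0) * v i =
      ∑ i ∈ range (n + 1), u i * (if i < n then L i * v (i + 1) else 0) := by
  rw [Finset.sum_range_succ', Finset.sum_range_succ]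
  simp only [show ¬(1 ≤ 0 ∧ 0 ≤ n) by omega, if_false, zero_mul, add_zero, lt_irrefl, mul_zero]
  refine Finset.sum_congr rfl fun j hj => ?_
  rw [Finset.mem_range] at hj
  rw [if_pos (by omega), if_pos hj, Nat.add_sub_cancel]
  ring

theorem ip_adjoint (A B : ℕ) (f g : ℕ → ℕ → ℝ) :
    ip A B (lower2 A B f) g = ip A B f (raise2 A B g) := by
  simp only [ip, lower2, raise2, add_mul, mul_add, Finset.sum_add_distrib]
  congr 1
  · rw [Finset.sum_comm]
    conv_rhs => rw [Finset.sum_comm]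
    exact Finset.sum_congr rfl fun b _ => shift_sum A (lad A) (fun i => f i b) (fun i => g i b)
  · exact Finset.sum_congr rfl fun i _ => shift_sum B (lad B) (f i) (g i)

/-- Squared norm of the coupled vector of degree `m`. -/
noncomputable def nsq (A B k : ℕ) (m : ℤ) : ℝ := ip A B (rawZ A B k m) (rawZ A B k m)

theorem nsq_rec {A B k : ℕ} (hA : k ≤ A) (hB : k ≤ B) (m : ℤ) :
    ((m : ℝ) + 1) * nsq A B k (m + 1) = ((A : ℝ) + B - 2 * k - m) * nsq A B k m := by
  rw [nsq, nsq, ← ip_smul_left, ← ip_smul_right]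
  have h := ip_adjoint A B (rawZ A B k m) (rawZ A B k (m + 1))
  rw [show lower2 A B (rawZ A B k m) = fun i b => ((m : ℝ) + 1) * rawZ A B k (m + 1) i b from
      funext fun i => funext fun b => lower2_rawZ hA hB m i b,
    show raise2 A B (rawZ A B k (m + 1)) =
      fun i b => ((A : ℝ) + B - 2 * k - m) * rawZ A B k m i b from
      funext fun i => funext fun b => raise2_rawZ hA hB m i b] at h
  exact h

theorem nsq_pos {A B k : ℕ} (hA : k ≤ A) (hB : k ≤ B) :
    ∀ m : ℕ, m + 2 * k ≤ A + B → 0 < nsq A B k m := by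
  intro m
  induction m with
  | zero =>
    intro _
    have h1 : rawZ A B k ((0 : ℕ) : ℤ) k 0 ≠ 0 := by
      rw [rawZ, if_pos ⟨hA, Nat.zero_le B⟩, coef_closed, if_pos (by push_cast; ring)]
      refine div_ne_zero ?_ (Real.sqrt_ne_zero'.2 (by
        have := Nat.choose_pos hA
        simpa using mul_pos (show (0:ℝ) < A.choose k by exact_mod_cast this) one_pos))
      rw [Finset.sum_range_succ', Finset.sum_eq_zero fun r _ => by
        rw [term, chooseZ_neg _ (show ((0 : ℕ) : ℤ) - ((r + 1 : ℕ) : ℤ) < 0 by push_cast; omega),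
          mul_zero]]
      simp [term, chooseZ]
    refine lt_of_lt_of_le (mul_self_pos.2 h1) ?_
    refine le_trans ?_ (Finset.single_le_sum (f := fun i => ∑ b ∈ range (B + 1),
      rawZ A B k ((0 : ℕ) : ℤ) i b * rawZ A B k ((0 : ℕ) : ℤ) i b)
      (fun i _ => Finset.sum_nonneg fun b _ => mul_self_nonneg _) (Finset.mem_range.2 (show k < A + 1 by omega)))
    exact Finset.single_le_sum (f := fun b =>
      rawZ A B k ((0 : ℕ) : ℤ) k b * rawZ A B k ((0 : ℕ) : ℤ) k b)
      (fun b _ => mul_self_nonneg _) (Finset.mem_range.2 (show 0 < B + 1 by omega))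
  | succ m ih =>
    intro hm
    have h := nsq_rec hA hB (m : ℤ)
    have h0 := ih (by omega)
    have h1 : (0 : ℝ) < (A : ℝ) + B - 2 * k - ((m : ℤ) : ℝ) := by
      have : ((m + 1 + 2 * k : ℕ) : ℝ) ≤ ((A + B : ℕ) : ℝ) := by exact_mod_cast hm
      push_cast at this ⊢
      linarith
    rw [show ((m + 1 : ℕ) : ℤ) = (m : ℤ) + 1 by push_cast; ring]
    refine pos_of_mul_pos_right ?_ (show (0 : ℝ) ≤ ((m : ℤ) : ℝ) + 1 by positivity)
    rw [h]
    positivity

theorem coup_eq {A B k : ℕ} (T i b : ℕ) :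
    coup A B k T i b =
      (Real.sqrt (nsq A B k ((T : ℤ) - k)))⁻¹ * rawZ A B k ((T : ℤ) - k) i b := by
  rw [coup, coupRaw_eq, nsq, ip, div_eq_inv_mul]
  simp only [coupRaw_eq, sq]

theorem nsq_pos' {A B k T : ℕ} (hA : k ≤ A) (hB : k ≤ B) (h1 : k ≤ T) (h2 : T + k ≤ A + B) :
    0 < nsq A B k ((T : ℤ) - k) := by
  rw [show (T : ℤ) - k = ((T - k : ℕ) : ℤ) by omega]
  exact nsq_pos hA hB _ (by omega)

theorem ip_orth {A B k k' : ℕ} (hA : k' ≤ A) (hB : k' ≤ B) (hk : k < k') :
    ∀ T, k' ≤ T → ip A B (rawZ A B k ((T : ℤ) - k)) (rawZ A B k' ((T : ℤ) - k')) = 0 := by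
  intro T
  induction T with
  | zero => omega
  | succ T ih =>
    intro hT
    have hA' : k ≤ A := by omega
    have hB' : k ≤ B := by omega
    have hne : (((T : ℤ) - k : ℤ) : ℝ) + 1 ≠ 0 := by
      have : (0 : ℤ) < (T : ℤ) - k + 1 := by omega
      have h' : (0 : ℝ) < (((T : ℤ) - k + 1 : ℤ) : ℝ) := by exact_mod_cast this
      push_cast at h' ⊢
      exact h'.ne'
    have h := ip_adjoint A B (rawZ A B k ((T : ℤ) - k)) (rawZ A B k' ((T : ℤ) - k' + 1))
    rw [show lower2 A B (rawZ A B k ((T : ℤ) - k)) =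
        fun i b => ((((T : ℤ) - k : ℤ) : ℝ) + 1) * rawZ A B k ((T : ℤ) - k + 1) i b from
        funext fun i => funext fun b => lower2_rawZ hA' hB' _ i b,
      show raise2 A B (rawZ A B k' ((T : ℤ) - k' + 1)) =
        fun i b => ((A : ℝ) + B - 2 * k' - (((T : ℤ) - k' : ℤ) : ℝ)) *
          rawZ A B k' ((T : ℤ) - k') i b from
        funext fun i => funext fun b => raise2_rawZ hA hB _ i b,
      ip_smul_left, ip_smul_right] at h
    rw [show ((T + 1 : ℕ) : ℤ) - k = (T : ℤ) - k + 1 by push_cast; ring,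
      show ((T + 1 : ℕ) : ℤ) - k' = (T : ℤ) - k' + 1 by push_cast; ring]
    refine (mul_eq_zero.1 (h.trans ?_)).resolve_left hne
    rcases Nat.lt_or_ge T k' with hlt | hge
    · rw [show ip A B (rawZ A B k ((T : ℤ) - k)) (rawZ A B k' ((T : ℤ) - k')) = 0 by
        simp [ip, rawZ_out (A := A) (B := B) (k := k') (m := (T : ℤ) - k') (Or.inl (by omega))],
        mul_zero]
    · rw [ih hge, mul_zero]

end Cpl

open Cpl

/-- Support of `coup`. -/
theorem coup_support {A B k T i b : ℕ} (h : ¬(i + b = T ∧ i ≤ A ∧ b ≤ B)) :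
    coup A B k T i b = 0 := by
  rw [coup, coupRaw, if_neg h, zero_div]

/-- Orthonormality. -/
theorem coup_orth {A B k k' T T' : ℕ} (hA : k ≤ A) (hB : k ≤ B) (hA' : k' ≤ A) (hB' : k' ≤ B)
    (h1 : k ≤ T) (h2 : T + k ≤ A + B) (h1' : k' ≤ T') (_h2' : T' + k' ≤ A + B) :
    ∑ i ∈ range (A + 1), ∑ b ∈ range (B + 1), coup A B k T i b * coup A B k' T' i b =
      if k = k' ∧ T = T' then 1 else 0 := by
  by_cases hT : T = T'
  · subst hT
    simp only [coup_eq]
    change ip A B (fun i b => _ * rawZ A B k ((T : ℤ) - k) i b)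
      (fun i b => _ * rawZ A B k' ((T : ℤ) - k') i b) = _
    rw [ip_smul_left, ip_smul_right]
    by_cases hk : k = k'
    · subst hk
      rw [if_pos (by simp), ← nsq, ← mul_assoc, ← mul_inv,
        Real.mul_self_sqrt (nsq_pos' hA hB h1 h2).le,
        inv_mul_cancel₀ (nsq_pos' hA hB h1 h2).ne']
    · rw [if_neg fun h => hk h.1]
      rcases lt_or_gt_of_ne hk with h | h
      · rw [ip_orth hA' hB' h T h1']; simp
      · have := ip_orth hA hB h T h1
        rw [show ip A B (rawZ A B k ((T : ℤ) - k)) (rawZ A B k' ((T : ℤ) - k')) = 0 by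
          rw [← this]; simp [ip, mul_comm]]
        simp
  · rw [if_neg fun h => hT h.2]
    refine Finset.sum_eq_zero fun i _ => Finset.sum_eq_zero fun b _ => ?_
    by_cases h : i + b = T
    · rw [coup_support (T := T') (by omega), mul_zero]
    · rw [coup_support (T := T) (by omega), zero_mul]

/-- Lowering inside a channel. -/
theorem coup_lower {A B k T : ℕ} (hA : k ≤ A) (hB : k ≤ B) (h1 : k ≤ T) (h2 : T + k < A + B)
    (i b : ℕ) :
    lower2 A B (coup A B k T) i b = lad (A + B - 2 * k) (T - k) * coup A B k (T + 1) i b := by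
  set m : ℤ := (T : ℤ) - k with hm
  have hlin : lower2 A B (coup A B k T) i b =
      (Real.sqrt (nsq A B k m))⁻¹ * lower2 A B (rawZ A B k m) i b := by
    simp only [lower2, coup_eq, ← hm]
    split_ifs <;> ring
  have hn0 := nsq_pos' hA hB h1 h2.le
  have hn1 := nsq_pos' (T := T + 1) hA hB (by omega) (by omega)
  have hm1 : ((T + 1 : ℕ) : ℤ) - k = m + 1 := by rw [hm]; push_cast; ring
  rw [← hm] at hn0
  rw [hm1] at hn1
  rw [hlin, lower2_rawZ hA hB, coup_eq, hm1, ← mul_assoc, ← mul_assoc]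
  congr 1
  have hmR : (m : ℝ) = ((T - k : ℕ) : ℝ) := by
    rw [Nat.cast_sub h1, hm]; push_cast; ring
  have hN : ((A + B - 2 * k : ℕ) : ℝ) = (A : ℝ) + B - 2 * k := by
    rw [Nat.cast_sub (by omega)]; push_cast; ring
  have hrec := nsq_rec hA hB m
  have hc1 : (0 : ℝ) ≤ (m : ℝ) + 1 := by rw [hmR]; positivity
  have hc2 : (0 : ℝ) ≤ (A : ℝ) + B - 2 * k - m := by
    rw [hmR, ← hN, sub_nonneg]
    exact_mod_cast (show T - k ≤ A + B - 2 * k by omega)
  rw [lad, hN, ← hmR, inv_mul_eq_div, ← div_eq_mul_inv, div_eq_div_iff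
    (Real.sqrt_pos.2 hn0).ne' (Real.sqrt_pos.2 hn1).ne',
    ← Real.sqrt_mul (mul_nonneg hc1 hc2), mul_assoc, ← hrec, ← mul_assoc,
    Real.sqrt_mul (mul_self_nonneg _), Real.sqrt_mul_self hc1]

/-- Raising inside a channel. -/
theorem coup_raise {A B k T : ℕ} (hA : k ≤ A) (hB : k ≤ B) (h1 : k ≤ T) (h2 : T + k < A + B)
    (i b : ℕ) :
    raise2 A B (coup A B k (T + 1)) i b = lad (A + B - 2 * k) (T - k) * coup A B k T i b := by
  set m : ℤ := (T : ℤ) - k with hm
  have hm1 : ((T + 1 : ℕ) : ℤ) - k = m + 1 := by rw [hm]; push_cast; ring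
  have hlin : raise2 A B (coup A B k (T + 1)) i b =
      (Real.sqrt (nsq A B k (m + 1)))⁻¹ * raise2 A B (rawZ A B k (m + 1)) i b := by
    simp only [raise2, coup_eq, hm1]
    split_ifs <;> ring
  have hn0 := nsq_pos' hA hB h1 h2.le
  have hn1 := nsq_pos' (T := T + 1) hA hB (by omega) (by omega)
  rw [← hm] at hn0
  rw [hm1] at hn1
  rw [hlin, raise2_rawZ hA hB, coup_eq, ← hm, ← mul_assoc, ← mul_assoc]
  congr 1
  have hmR : (m : ℝ) = ((T - k : ℕ) : ℝ) := by
    rw [Nat.cast_sub h1, hm]; push_cast; ring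
  have hN : ((A + B - 2 * k : ℕ) : ℝ) = (A : ℝ) + B - 2 * k := by
    rw [Nat.cast_sub (by omega)]; push_cast; ring
  have hrec := nsq_rec hA hB m
  have hc1 : (0 : ℝ) ≤ (m : ℝ) + 1 := by rw [hmR]; positivity
  have hc2 : (0 : ℝ) ≤ (A : ℝ) + B - 2 * k - m := by
    rw [hmR, ← hN, sub_nonneg]
    exact_mod_cast (show T - k ≤ A + B - 2 * k by omega)
  rw [lad, hN, ← hmR, inv_mul_eq_div, ← div_eq_mul_inv, div_eq_div_iff
    (Real.sqrt_pos.2 hn1).ne' (Real.sqrt_pos.2 hn0).ne',
    ← Real.sqrt_mul (mul_nonneg hc1 hc2), mul_comm ((m : ℝ) + 1), mul_assoc, hrec, ← mul_assoc,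
    Real.sqrt_mul (mul_self_nonneg _), Real.sqrt_mul_self hc2]

/-- The top of a channel. -/
theorem coup_top {A B k : ℕ} (hA : k ≤ A) (hB : k ≤ B) (i b : ℕ) :
    raise2 A B (coup A B k k) i b = 0 := by
  have hlin : raise2 A B (coup A B k k) i b =
      (Real.sqrt (nsq A B k 0))⁻¹ * raise2 A B (rawZ A B k (-1 + 1)) i b := by
    simp only [raise2, coup_eq, sub_self, neg_add_cancel]
    split_ifs <;> ring
  rw [hlin, raise2_rawZ hA hB, rawZ_out (Or.inl (by norm_num))]
  ring

/-- The bottom of a channel. -/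
theorem coup_bot {A B k : ℕ} (hA : k ≤ A) (hB : k ≤ B) (i b : ℕ) :
    lower2 A B (coup A B k (A + B - k)) i b = 0 := by
  set m : ℤ := ((A + B - k : ℕ) : ℤ) - k with hm
  have hlin : lower2 A B (coup A B k (A + B - k)) i b =
      (Real.sqrt (nsq A B k m))⁻¹ * lower2 A B (rawZ A B k m) i b := by
    simp only [lower2, coup_eq, ← hm]
    split_ifs <;> ring
  rw [hlin, lower2_rawZ hA hB, rawZ_out (Or.inr (by omega))]
  ring

/-- The channels of a level. -/
theorem channels_eq (A B T : ℕ) (hT : T ≤ A + B) :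
    (range (min A B + 1)).filter (fun k => k ≤ T ∧ T + k ≤ A + B) =
      range (min (min A B) (min T (A + B - T)) + 1) := by
  ext k
  simp only [Finset.mem_filter, Finset.mem_range]
  omega

/-- Completeness at each level. -/
theorem coup_complete {A B T i b i' b' : ℕ} (hT : T ≤ A + B) (hi : i ≤ A) (hb : b ≤ B)
    (he : i + b = T) (hi' : i' ≤ A) (hb' : b' ≤ B) (he' : i' + b' = T) :
    ∑ k ∈ (range (min A B + 1)).filter (fun k => k ≤ T ∧ T + k ≤ A + B),
      coup A B k T i b * coup A B k T i' b' = if i = i' then 1 else 0 := by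
  rw [channels_eq A B T hT]
  set K := min (min A B) (min T (A + B - T)) with hK
  set lo := T - B with hlo
  let U : Matrix (Fin (K + 1)) (Fin (K + 1)) ℝ :=
    fun j k => coup A B (k : ℕ) T (lo + j) (T - (lo + j))
  have hUU : U.transpose * U = 1 := by
    ext k k'
    rw [Matrix.mul_apply]
    have hk := k.isLt
    have hk' := k'.isLt
    have ho := coup_orth (A := A) (B := B) (k := k) (k' := k') (T := T) (T' := T) (by omega)
      (by omega) (by omega) (by omega) (by omega) (by omega) (by omega) (by omega)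
    rw [← Finset.sum_product'] at ho
    let e : Fin (K + 1) → ℕ × ℕ := fun j => (lo + j, T - (lo + j))
    have he : Function.Injective e := fun x y h => Fin.ext (by
      have := congrArg Prod.fst h
      simp [e] at this
      omega)
    have hsum : ∑ j, U.transpose k j * U j k' =
        ∑ p ∈ Finset.univ.image e, coup A B k T p.1 p.2 * coup A B k' T p.1 p.2 := by
      rw [Finset.sum_image fun x _ y _ h => he h]
      rfl
    rw [hsum, Finset.sum_subset (s₂ := range (A + 1) ×ˢ range (B + 1)) ?_ ?_, ho]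
    · simp [Matrix.one_apply, Fin.ext_iff]
    · intro p hp
      obtain ⟨j, -, rfl⟩ := Finset.mem_image.1 hp
      have := j.isLt
      simp [e]
      omega
    · intro p hp hn
      simp only [Finset.mem_product, Finset.mem_range] at hp
      rw [coup_support (k := (k : ℕ)), zero_mul]
      rintro ⟨hs, h1, h2⟩
      exact hn (Finset.mem_image.2 ⟨⟨p.1 - lo, by omega⟩, Finset.mem_univ _,
        Prod.ext (by simp [e]; omega) (by simp [e]; omega)⟩)
  have hUU' : U * U.transpose = 1 := mul_eq_one_comm.1 hUU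
  have key := congrFun (congrFun hUU' ⟨i - lo, by omega⟩) ⟨i' - lo, by omega⟩
  rw [Matrix.mul_apply, Matrix.one_apply] at key
  simp only [Fin.ext_iff] at key
  change (∑ x : Fin (K + 1), coup A B (x : ℕ) T (lo + (i - lo)) (T - (lo + (i - lo))) *
    coup A B (x : ℕ) T (lo + (i' - lo)) (T - (lo + (i' - lo)))) = _ at key
  rw [show lo + (i - lo) = i by omega, show T - i = b by omega, show lo + (i' - lo) = i' by omega,
    show T - i' = b' by omega, Fin.sum_univ_eq_sum_range (fun k => coup A B k T i b * coup A B k T i' b')]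
    at key
  rw [key]
  by_cases h : i = i'
  · subst h; simp
  · rw [if_neg h, if_neg (by omega)]

namespace Cpl

theorem choose_tendsto {n : ℕ → ℕ} {al : ℝ}
    (h : Tendsto (fun Q => (n Q : ℝ) / Q) atTop (𝓝 al)) (p : ℕ) :
    Tendsto (fun Q => ((n Q).choose p : ℝ) / (Q : ℝ) ^ p) atTop
      (𝓝 (al ^ p / (p.factorial : ℝ))) := by
  induction p with
  | zero => simp
  | succ p ih =>
    have h2 : Tendsto (fun Q : ℕ => ((n Q : ℝ) - p) / Q) atTop (𝓝 al) := by
      simpa [sub_div] using h.sub (tendsto_const_div_atTop_nhds_zero_nat (p : ℝ))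
    have h3 := (ih.mul h2).div_const ((p : ℝ) + 1)
    convert h3 using 1
    · funext Q
      have := choose_rec (n Q) p
      have hp : (p : ℝ) + 1 ≠ 0 := by positivity
      rw [pow_succ, div_mul_div_comm, ← mul_comm ((n Q : ℝ) - p), ← this]
      field_simp
    · rw [Nat.factorial_succ, pow_succ]
      push_cast
      congr 1
      field_simp

theorem sqrt_pow_scale {x y : ℝ} (hx : 0 ≤ x) (q : ℝ) (i b : ℕ) (hq : 0 ≤ q) :
    Real.sqrt (x / q ^ i * (y / q ^ b)) = Real.sqrt (x * y) / Real.sqrt q ^ (i + b) := by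
  rw [div_mul_div_comm, ← pow_add, Real.sqrt_div' _ (by positivity)]
  congr 1
  rw [Real.sqrt_eq_iff_mul_self_eq (by positivity) (by positivity), ← mul_pow,
    Real.mul_self_sqrt hq]

theorem tendsto_atTop_of_ratio {n : ℕ → ℕ} {al : ℝ}
    (h : Tendsto (fun Q => (n Q : ℝ) / Q) atTop (𝓝 al)) (hal : 0 < al) (N : ℕ) :
    ∀ᶠ Q in atTop, N ≤ n Q := by
  have h1 : Tendsto (fun Q : ℕ => (n Q : ℝ) / Q * Q) atTop atTop :=
    h.pos_mul_atTop hal tendsto_natCast_atTop_atTop
  filter_upwards [h1.eventually_ge_atTop (N : ℝ), eventually_gt_atTop 0] with Q hQ hQ0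
  rw [div_mul_cancel₀ _ (by exact_mod_cast hQ0.ne')] at hQ
  exact_mod_cast hQ

theorem coupRaw_tendsto {A B : ℕ → ℕ} {al be : ℝ} (hal : 0 < al) (hbe : 0 < be)
    (hA : Tendsto (fun Q => (A Q : ℝ) / Q) atTop (𝓝 al))
    (hB : Tendsto (fun Q => (B Q : ℝ) / Q) atTop (𝓝 be)) (k T i b : ℕ) :
    Tendsto (fun Q : ℕ => coupRaw (A Q) (B Q) k T i b * ((Q : ℝ) ^ k / Real.sqrt Q ^ T)) atTop
      (𝓝 (coupLimRaw al be k T i b)) := by
  by_cases hib : i + b = T
  · have hsub : ∀ (n : ℕ → ℕ) (x : ℝ), 0 < x → Tendsto (fun Q => (n Q : ℝ) / Q) atTop (𝓝 x) →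
        Tendsto (fun Q => ((n Q - k : ℕ) : ℝ) / Q) atTop (𝓝 x) := by
      intro n x hx hn
      have h1 : Tendsto (fun Q : ℕ => ((n Q : ℝ) - k) / Q) atTop (𝓝 x) := by
        simpa [sub_div] using hn.sub (tendsto_const_div_atTop_nhds_zero_nat (k : ℝ))
      refine h1.congr' ?_
      filter_upwards [tendsto_atTop_of_ratio hn hx k] with Q hQ
      rw [Nat.cast_sub hQ]
    set S : ℕ → ℝ := fun Q => (∑ r ∈ range (k + 1), if k ≤ i + r ∧ r ≤ b then
      (-1 : ℝ) ^ r * (k.choose r) * (((A Q - k).choose (i + r - k) : ℝ) / (Q : ℝ) ^ (i + r - k)) *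
        (((B Q - k).choose (b - r) : ℝ) / (Q : ℝ) ^ (b - r)) else 0) /
      Real.sqrt (((A Q).choose i : ℝ) / (Q : ℝ) ^ i * (((B Q).choose b : ℝ) / (Q : ℝ) ^ b)) with hS
    have hlim : Tendsto S atTop (𝓝 (coupLimRaw al be k T i b)) := by
      rw [coupLimRaw, if_pos hib]
      refine Tendsto.div (tendsto_finsetSum _ fun r _ => ?_)
        ((Real.continuous_sqrt.tendsto _).comp ((choose_tendsto hA i).mul (choose_tendsto hB b)))
        (Real.sqrt_ne_zero'.2 (by positivity))
      split_ifs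
      · exact (tendsto_const_nhds.mul (choose_tendsto (hsub A al hal hA) _)).mul
          (choose_tendsto (hsub B be hbe hB) _)
      · exact tendsto_const_nhds
    refine hlim.congr' ?_
    filter_upwards [tendsto_atTop_of_ratio hA hal T, tendsto_atTop_of_ratio hB hbe T,
      eventually_gt_atTop 0] with Q hQA hQB hQ
    have hq : (0 : ℝ) < Q := by exact_mod_cast hQ
    simp only [hS]
    rw [coupRaw, if_pos ⟨hib, by omega, by omega⟩, sqrt_pow_scale (Nat.cast_nonneg _) _ i b hq.le,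
      hib, div_div_eq_mul_div, div_mul_eq_mul_div]
    congr 1
    rw [Finset.sum_mul, Finset.sum_mul]
    refine Finset.sum_congr rfl fun r _ => ?_
    split_ifs with hr
    · have hsplit : Real.sqrt (Q : ℝ) ^ T = (Q : ℝ) ^ k * ((Q : ℝ) ^ (i + r - k) * (Q : ℝ) ^ (b - r)) /
          Real.sqrt (Q : ℝ) ^ T := by
        rw [eq_div_iff (by positivity), ← mul_pow, Real.mul_self_sqrt hq.le, ← pow_add, ← pow_add]
        congr 1
        omega
      conv_lhs => rw [hsplit]
      field_simp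
    · simp
  · simp [coupRaw, coupLimRaw, hib]

theorem coupLimRaw_zero (al be : ℝ) {k T : ℕ} (h : T < k) (i b : ℕ) :
    coupLimRaw al be k T i b = 0 := by
  unfold coupLimRaw
  split_ifs with h'
  · rw [Finset.sum_eq_zero fun r _ => if_neg (by omega), zero_div]
  · rfl

theorem coupLimRaw_norm_pos {al be : ℝ} (hal : 0 < al) {k T : ℕ} (h : k ≤ T) :
    0 < ∑ j ∈ range (T + 1), coupLimRaw al be k T j (T - j) ^ 2 := by
  have hne : coupLimRaw al be k T T 0 ≠ 0 := by
    rw [coupLimRaw, if_pos (Nat.add_zero T), Finset.sum_eq_single 0]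
    · rw [if_pos ⟨by omega, le_refl 0⟩]
      refine div_ne_zero ?_ (Real.sqrt_ne_zero'.2 (by simp; positivity))
      simp [hal.ne', Nat.factorial_ne_zero]
    · intro r _ hr
      rw [if_neg (by omega)]
    · simp
  refine Finset.sum_pos' (fun j _ => sq_nonneg _) ⟨T, by simp, ?_⟩
  rw [Nat.sub_self]
  positivity

theorem coupRaw_norm_eq {A B k T : ℕ} (hA : T ≤ A) (hB : T ≤ B) :
    ∑ i ∈ range (A + 1), ∑ b ∈ range (B + 1), coupRaw A B k T i b ^ 2 =
      ∑ j ∈ range (T + 1), coupRaw A B k T j (T - j) ^ 2 := by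
  rw [← Finset.sum_subset (s₁ := range (T + 1))
    (Finset.range_subset_range.2 (show T + 1 ≤ A + 1 by omega)) (fun i _ hi => by
      rw [Finset.mem_range] at hi
      refine Finset.sum_eq_zero fun b _ => ?_
      rw [coupRaw, if_neg (by omega)]
      simp)]
  refine Finset.sum_congr rfl fun j hj => Finset.sum_eq_single (T - j) (fun b _ hb => ?_) ?_
  · rw [Finset.mem_range] at hj
    rw [coupRaw, if_neg (by omega)]
    simp
  · intro h
    simp only [Finset.mem_range] at h
    omega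

end Cpl

/-- The large-spin limit of the coupled vectors. -/
theorem coup_limit {A B : ℕ → ℕ} {al be : ℝ} (hal : 0 < al) (hbe : 0 < be)
    (hA : Tendsto (fun Q => (A Q : ℝ) / Q) atTop (𝓝 al))
    (hB : Tendsto (fun Q => (B Q : ℝ) / Q) atTop (𝓝 be)) (k T i b : ℕ) :
    Tendsto (fun Q => coup (A Q) (B Q) k T i b) atTop (𝓝 (coupLim al be k T i b)) := by
  rcases Nat.lt_or_ge T k with hTk | hTk
  · rw [coupLim, coupLimRaw_zero al be hTk, zero_div]
    refine tendsto_const_nhds.congr fun Q => ?_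
    rw [coup, coupRaw_eq, rawZ_out (Or.inl (by omega)), zero_div]
  have hpos := coupLimRaw_norm_pos (be := be) hal hTk
  have hnum := coupRaw_tendsto hal hbe hA hB k T i b
  have hden : Tendsto (fun Q : ℕ => Real.sqrt (∑ j ∈ range (T + 1),
      (coupRaw (A Q) (B Q) k T j (T - j) * ((Q : ℝ) ^ k / Real.sqrt Q ^ T)) ^ 2)) atTop
      (𝓝 (Real.sqrt (∑ j ∈ range (T + 1), coupLimRaw al be k T j (T - j) ^ 2))) :=
    (Real.continuous_sqrt.tendsto _).comp
      (tendsto_finsetSum _ fun j _ => (coupRaw_tendsto hal hbe hA hB k T j (T - j)).pow 2)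
  refine (hnum.div hden (Real.sqrt_ne_zero'.2 hpos)).congr' ?_
  filter_upwards [tendsto_atTop_of_ratio hA hal T, tendsto_atTop_of_ratio hB hbe T,
    eventually_gt_atTop 0] with Q hQA hQB hQ
  have hc : (0 : ℝ) < (Q : ℝ) ^ k / Real.sqrt Q ^ T := by
    have hq : (0 : ℝ) < Q := by exact_mod_cast hQ
    positivity
  simp only [Pi.div_apply]
  rw [coup, coupRaw_norm_eq hQA hQB]
  generalize (Q : ℝ) ^ k / Real.sqrt Q ^ T = c at hc ⊢
  rw [show (∑ j ∈ range (T + 1), (coupRaw (A Q) (B Q) k T j (T - j) * c) ^ 2) =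
      (∑ j ∈ range (T + 1), coupRaw (A Q) (B Q) k T j (T - j) ^ 2) * c ^ 2 by
    rw [Finset.sum_mul]
    exact Finset.sum_congr rfl fun j _ => by ring,
    Real.sqrt_mul (Finset.sum_nonneg fun j _ => sq_nonneg _), Real.sqrt_sq hc.le,
    mul_div_mul_right _ _ hc.ne']

end Vale.Agent.P359
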