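import Vale.Agent.P359.Basic

/-!
The integer coefficients behind the coupled vectors: coefficients of
`(x - y)^k (1 + x)^a (1 + y)^c` and the action of raising and lowering on them.
-/

namespace Vale.Agent.P359

namespace Cpl

/-- Binomial coefficient with an integer lower index. -/
def chooseZ (a : ℕ) (i : ℤ) : ℝ := if 0 ≤ i then (a.choose i.toNat : ℝ) else 0

theorem chooseZ_natCast (a n : ℕ) : chooseZ a (n : ℤ) = (a.choose n : ℝ) := by
  simp [chooseZ]

theorem chooseZ_neg (a : ℕ) {i : ℤ} (h : i < 0) : chooseZ a i = 0 := by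
  rw [chooseZ, if_neg (not_le.2 h)]

theorem chooseZ_big (a : ℕ) {i : ℤ} (h : (a : ℤ) < i) : chooseZ a i = 0 := by
  obtain ⟨n, rfl⟩ : ∃ n : ℕ, i = n := ⟨i.toNat, by omega⟩
  rw [chooseZ_natCast, Nat.choose_eq_zero_of_lt (by omega), Nat.cast_zero]

theorem chooseZ_succ (a : ℕ) (i : ℤ) :
    ((i : ℝ) + 1) * chooseZ a (i + 1) = ((a : ℝ) - i) * chooseZ a i := by
  rcases lt_or_ge i 0 with h | h
  · rw [chooseZ_neg a h, mul_zero]
    rcases eq_or_lt_of_le (Int.lt_iff_add_one_le.1 h) with h1 | h1
    · have : (i : ℝ) + 1 = 0 := by exact_mod_cast h1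
      rw [this, zero_mul]
    · rw [chooseZ_neg a h1, mul_zero]
  · obtain ⟨n, rfl⟩ : ∃ n : ℕ, i = n := ⟨i.toNat, by omega⟩
    rw [show (n : ℤ) + 1 = ((n + 1 : ℕ) : ℤ) by push_cast; ring, chooseZ_natCast, chooseZ_natCast]
    rcases le_or_gt n a with hn | hn
    · have := Nat.choose_succ_right_eq a n
      have h2 : ((a.choose (n + 1) * (n + 1) : ℕ) : ℝ) = ((a.choose n * (a - n) : ℕ) : ℝ) := by
        rw [this]
      push_cast [Nat.cast_sub hn] at h2 ⊢
      linarith
    · rw [Nat.choose_eq_zero_of_lt hn, Nat.choose_eq_zero_of_lt (by omega)]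
      simp

/-- Coefficient of `x^i y^b` in `(x - y)^k` times the degree `m` part of `(1+x)^a (1+y)^c`. -/
def coef (a c : ℕ) : ℕ → ℤ → ℤ → ℤ → ℝ
  | 0, m, i, b => if i + b = m then chooseZ a i * chooseZ c b else 0
  | k + 1, m, i, b => coef a c k m (i - 1) b - coef a c k m i (b - 1)

theorem coef_support (a c : ℕ) : ∀ (k : ℕ) (m i b : ℤ),
    coef a c k m i b ≠ 0 →
      i + b = m + k ∧ 0 ≤ i ∧ i ≤ (a + k : ℕ) ∧ 0 ≤ b ∧ b ≤ (c + k : ℕ)
  | 0, m, i, b, h => by
    simp only [coef] at h
    split_ifs at h with he
    · refine ⟨by simpa using he, ?_⟩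
      by_contra hc
      rcases lt_or_ge i 0 with h1 | h1
      · simp [chooseZ_neg a h1] at h
      rcases lt_or_ge (a : ℤ) i with h2 | h2
      · simp [chooseZ_big a h2] at h
      rcases lt_or_ge b 0 with h3 | h3
      · simp [chooseZ_neg c h3] at h
      rcases lt_or_ge (c : ℤ) b with h4 | h4
      · simp [chooseZ_big c h4] at h
      exact hc ⟨h1, by simpa using h2, h3, by simpa using h4⟩
    · exact absurd rfl h
  | k + 1, m, i, b, h => by
    simp only [coef] at h
    by_cases h1 : coef a c k m (i - 1) b = 0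
    · have h2 : coef a c k m i (b - 1) ≠ 0 := by simpa [h1] using h
      have := coef_support a c k m i (b - 1) h2
      push_cast at this ⊢
      omega
    · have := coef_support a c k m (i - 1) b h1
      push_cast at this ⊢
      omega

theorem coef_eq_zero {a c k : ℕ} {m i b : ℤ}
    (h : ¬(i + b = m + k ∧ 0 ≤ i ∧ i ≤ (a + k : ℕ) ∧ 0 ≤ b ∧ b ≤ (c + k : ℕ))) :
    coef a c k m i b = 0 := by
  by_contra hne
  exact h (coef_support a c k m i b hne)

theorem coef_out (a c : ℕ) : ∀ (k : ℕ) (m i b : ℤ), m < 0 ∨ (a + c : ℕ) < m →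
    coef a c k m i b = 0
  | 0, m, i, b, h => by
    simp only [coef]
    split_ifs with he
    · rcases h with h | h
      · rcases lt_or_ge i 0 with h1 | h1
        · simp [chooseZ_neg a h1]
        · simp [chooseZ_neg c (show b < 0 by omega)]
      · push_cast at h
        rcases lt_or_ge (a : ℤ) i with h1 | h1
        · simp [chooseZ_big a h1]
        · simp [chooseZ_big c (show (c : ℤ) < b by omega)]
    · rfl
  | k + 1, m, i, b, h => by
    simp [coef, coef_out a c k m _ _ h]

/-- Raising. -/
theorem coef_raise (a c : ℕ) : ∀ (k : ℕ) (m i b : ℤ),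
    ((i : ℝ) + 1) * coef a c k (m + 1) (i + 1) b + ((b : ℝ) + 1) * coef a c k (m + 1) i (b + 1) =
      ((a : ℝ) + c - m) * coef a c k m i b
  | 0, m, i, b => by
    simp only [coef]
    by_cases h : i + b = m
    · rw [if_pos (show i + 1 + b = m + 1 by omega), if_pos (show i + (b + 1) = m + 1 by omega),
        if_pos h]
      have hm : (m : ℝ) = i + b := by exact_mod_cast h.symm
      rw [hm]
      linear_combination chooseZ c b * chooseZ_succ a i + chooseZ a i * chooseZ_succ c b
    · rw [if_neg (show ¬ i + 1 + b = m + 1 by omega), if_neg (show ¬ i + (b + 1) = m + 1 by omega),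
        if_neg h]
      ring
  | k + 1, m, i, b => by
    have h1 := coef_raise a c k m (i - 1) b
    have h2 := coef_raise a c k m i (b - 1)
    simp only [coef]
    simp only [sub_add_cancel, add_sub_cancel_right, Int.cast_sub, Int.cast_one] at h1 h2 ⊢
    linear_combination h1 - h2

/-- Lowering. -/
theorem coef_lower (a c : ℕ) : ∀ (k : ℕ) (m i b : ℤ),
    ((a : ℝ) + k - i + 1) * coef a c k m (i - 1) b + ((c : ℝ) + k - b + 1) * coef a c k m i (b - 1) =
      ((m : ℝ) + 1) * coef a c k (m + 1) i b
  | 0, m, i, b => by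
    simp only [coef]
    by_cases h : i + b = m + 1
    · rw [if_pos (show i - 1 + b = m by omega), if_pos (show i + (b - 1) = m by omega), if_pos h]
      have hm : (m : ℝ) + 1 = i + b := by exact_mod_cast h.symm
      rw [hm]
      have ha := chooseZ_succ a (i - 1)
      have hc := chooseZ_succ c (b - 1)
      simp only [sub_add_cancel, Int.cast_sub, Int.cast_one] at ha hc
      push_cast
      linear_combination (-chooseZ c b) * ha - chooseZ a i * hc
    · rw [if_neg (show ¬ i - 1 + b = m by omega), if_neg (show ¬ i + (b - 1) = m by omega),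
        if_neg h]
      ring
  | k + 1, m, i, b => by
    have h1 := coef_lower a c k m (i - 1) b
    have h2 := coef_lower a c k m i (b - 1)
    simp only [coef]
    simp only [Int.cast_sub, Int.cast_one] at h1 h2
    push_cast
    linear_combination h1 - h2

/-- The summand of the closed form. -/
def term (a c k : ℕ) (i b : ℤ) (r : ℕ) : ℝ :=
  (-1 : ℝ) ^ r * (k.choose r) * chooseZ a (i + r - k) * chooseZ c (b - r)

theorem coef_closed (a c : ℕ) : ∀ (k : ℕ) (m i b : ℤ),
    coef a c k m i b = if i + b = m + k then ∑ r ∈ Finset.range (k + 1), term a c k i b r else 0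
  | 0, m, i, b => by simp [coef, term]
  | k + 1, m, i, b => by
    simp only [coef, coef_closed a c k]
    by_cases h : i + b = m + (k + 1 : ℕ)
    · rw [if_pos h, if_pos (show i - 1 + b = m + k by omega),
        if_pos (show i + (b - 1) = m + k by omega), Finset.sum_range_succ' (n := k + 1)]
      have key : ∀ r : ℕ, term a c (k + 1) i b (r + 1) =
          term a c k (i - 1) b (r + 1) - term a c k i (b - 1) r := by
        intro r
        simp only [term, Nat.choose_succ_succ]
        push_cast
        rw [show i + ((r : ℤ) + 1) - (k + 1) = i + r - k by ring,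
          show i - 1 + ((r : ℤ) + 1) - k = i + r - k by ring,
          show b - ((r : ℤ) + 1) = b - 1 - r by ring, pow_succ]
        ring
      rw [Finset.sum_congr rfl fun r _ => key r, Finset.sum_sub_distrib]
      have e0 : term a c (k + 1) i b 0 = term a c k (i - 1) b 0 := by
        simp only [term, Nat.choose_zero_right]
        push_cast
        ring_nf
      have ek : term a c k (i - 1) b (k + 1) = 0 := by
        simp [term, Nat.choose_succ_self]
      have hs : ∑ r ∈ Finset.range (k + 1), term a c k (i - 1) b (r + 1) + term a c k (i - 1) b 0 =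
          ∑ r ∈ Finset.range (k + 1), term a c k (i - 1) b r := by
        rw [← Finset.sum_range_succ', Finset.sum_range_succ, ek, add_zero]
      linarith
    · rw [if_neg h, if_neg (show ¬ i - 1 + b = m + k by omega),
        if_neg (show ¬ i + (b - 1) = m + k by omega), sub_zero]

end Cpl

end Vale.Agent.P359
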