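import Mathlib

/-!
The Haldane `V₁` Hamiltonian on the sphere and its Laughlin vector.

One-particle space: `Fin (Q + 1)`, index `a` standing for the unit vector
`√(Q choose a) u^(Q-a) v^a`.  An `N`-fermion vector is an antisymmetric function of `N` indices.
-/

namespace Vale.Agent.P359

open Matrix Finset MvPolynomial
open scoped Kronecker ComplexConjugate

/-- Spin `Q/2` lowering operator. -/
noncomputable def spinDown (Q : ℕ) : Matrix (Fin (Q + 1)) (Fin (Q + 1)) ℂ :=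
  fun i j => if (i : ℕ) = (j : ℕ) + 1 then ((Real.sqrt (((j : ℕ) + 1 : ℝ) * ((Q : ℝ) - j)) : ℝ) : ℂ) else 0

/-- Spin `Q/2` component along the axis. -/
noncomputable def spinZ (Q : ℕ) : Matrix (Fin (Q + 1)) (Fin (Q + 1)) ℂ :=
  Matrix.diagonal fun i => (Q : ℂ) / 2 - (i : ℕ)

/-- The operator `A ⊗ 1 + 1 ⊗ A` of a pair. -/
noncomputable def pairSum {Q : ℕ} (A : Matrix (Fin (Q + 1)) (Fin (Q + 1)) ℂ) :
    Matrix (Fin (Q + 1) × Fin (Q + 1)) (Fin (Q + 1) × Fin (Q + 1)) ℂ :=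
  A ⊗ₖ (1 : Matrix (Fin (Q + 1)) (Fin (Q + 1)) ℂ) + (1 : Matrix (Fin (Q + 1)) (Fin (Q + 1)) ℂ) ⊗ₖ A

/-- Total spin squared from its axis component and its lowering operator. -/
noncomputable def spinSq {ι : Type} [Fintype ι] (Z L : Matrix ι ι ℂ) : Matrix ι ι ℂ :=
  Z * Z + (1 / 2 : ℂ) • (Lᴴ * L + L * Lᴴ)

/-- Eigenspace of a matrix at `t`. -/
def eigSpace {ι : Type} [Fintype ι] (A : Matrix ι ι ℂ) (t : ℂ) :
    Submodule ℂ (EuclideanSpace ℂ ι) where
  carrier := {z | A *ᵥ WithLp.ofLp z = t • WithLp.ofLp z}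
  zero_mem' := by simp
  add_mem' {y z} hy hz := by
    simp only [Set.mem_setOf_eq, WithLp.ofLp_add, Matrix.mulVec_add, smul_add] at hy hz ⊢
    rw [hy, hz]
  smul_mem' c z hz := by
    simp only [Set.mem_setOf_eq, WithLp.ofLp_smul, Matrix.mulVec_smul] at hz ⊢
    rw [hz, smul_comm]

/-- Matrix entries of the orthogonal projection onto a subspace. -/
noncomputable def projEntry {ι : Type} [Fintype ι] [DecidableEq ι]
    (W : Submodule ℂ (EuclideanSpace ℂ ι)) (p q : ι) : ℂ :=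
  W.starProjection (EuclideanSpace.single q 1) p

/-- Total spin squared of a pair. -/
noncomputable def pairCasimir (Q : ℕ) :
    Matrix (Fin (Q + 1) × Fin (Q + 1)) (Fin (Q + 1) × Fin (Q + 1)) ℂ :=
  spinSq (pairSum (spinZ Q)) (pairSum (spinDown Q))

/-- Pair states of total spin `Q - 1` (relative angular momentum one). -/
noncomputable def pairSpace (Q : ℕ) :
    Submodule ℂ (EuclideanSpace ℂ (Fin (Q + 1) × Fin (Q + 1))) :=
  eigSpace (pairCasimir Q) (((Q : ℂ) - 1) * (Q : ℂ))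

/-- Matrix of the orthogonal projection onto `pairSpace`. -/
noncomputable def pairProj (Q : ℕ) (p q : Fin (Q + 1) × Fin (Q + 1)) : ℂ :=
  projEntry (pairSpace Q) p q

/-- Antisymmetry in the particle labels. -/
def Antisym {R : Type*} [Ring R] {N Q : ℕ} (Φ : (Fin N → Fin (Q + 1)) → R) : Prop :=
  ∀ (σ : Equiv.Perm (Fin N)) x, Φ (x ∘ σ) = ((Equiv.Perm.sign σ : ℤ) : R) * Φ x

/-- The energy `⟨Φ, H Φ⟩` of `H = ∑_{i<j} P_ij`. -/
noncomputable def energy (N Q : ℕ) (Φ : (Fin N → Fin (Q + 1)) → ℂ) : ℝ :=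
  (∑ x, conj (Φ x) * ∑ i, ∑ j, if i < j then
      ∑ a, ∑ b, pairProj Q (x i, x j) (a, b) * Φ (Function.update (Function.update x i a) j b)
    else 0).re

/-- Squared norm. -/
noncomputable def normSqV {N Q : ℕ} (Φ : (Fin N → Fin (Q + 1)) → ℂ) : ℝ :=
  ∑ x, ‖Φ x‖ ^ 2

/-- The Laughlin polynomial in the spinor variables: `(i, false)` is `u_i`, `(i, true)` is `v_i`. -/
noncomputable def laughlinPoly (N : ℕ) : MvPolynomial (Fin N × Bool) ℤ :=
  ∏ p ∈ (univ : Finset (Fin N × Fin N)).filter (fun p => p.1 < p.2),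
    (X (p.1, false) * X (p.2, true) - X (p.2, false) * X (p.1, true)) ^ 3

/-- The Laughlin vector at flux `3 (N - 1)` in the orthonormal monomial basis. -/
noncomputable def laughlin (N : ℕ) (x : Fin N → Fin (3 * (N - 1) + 1)) : ℂ :=
  (((coeff (Finsupp.equivFunOnFinite.symm fun p : Fin N × Bool =>
      if p.2 then (x p.1 : ℕ) else 3 * (N - 1) - (x p.1 : ℕ)) (laughlinPoly N) : ℤ) : ℝ) /
    ∏ i, Real.sqrt ((3 * (N - 1)).choose (x i) : ℝ) : ℝ)

end Vale.Agent.P359
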