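import Vale.Agent.P359.Chains

/-!
Completeness of the coupled vectors on pairs and triples of sites, exchange symmetry, bounds.
-/

namespace Vale.Agent.P359

open Finset Matrix

theorem vec2_eq_zero {A B D E k T : ℕ} {u : Fin D × Fin E} (h : lev2 u ≠ T) :
    vec2 (coup A B k T) u = 0 :=
  coup_support fun e => h e.1

theorem coup_complete_pair {A B D E : ℕ} (hD : D = A + 1) (hE : E = B + 1) (u x : Fin D × Fin E) :
    ∑ k ∈ (range (min A B + 1)).filter (fun k => k ≤ lev2 u ∧ lev2 u + k ≤ A + B),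
      vec2 (coup A B k (lev2 u)) u * vec2 (coup A B k (lev2 u)) x = if u = x then 1 else 0 := by
  have h1 := u.1.isLt
  have h2 := u.2.isLt
  have h3 := x.1.isLt
  have h4 := x.2.isLt
  by_cases hl : lev2 x = lev2 u
  · simp only [vec2]
    rw [coup_complete (T := lev2 u) (i := (u.1 : ℕ)) (b := (u.2 : ℕ)) (i' := (x.1 : ℕ))
      (b' := (x.2 : ℕ)) (by simp only [lev2]; omega) (by omega) (by omega) rfl (by omega) (by omega) hl]
    refine if_congr ⟨fun h => ?_, fun h => by rw [h]⟩ rfl rfl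
    have hl' : (x.1 : ℕ) + x.2 = (u.1 : ℕ) + u.2 := hl
    exact Prod.ext (Fin.ext h) (Fin.ext (by omega))
  · rw [if_neg (fun h => hl (by rw [h]))]
    exact sum_eq_zero fun k _ => by rw [vec2_eq_zero (u := x) hl, mul_zero]

/-- The coupled vectors resolve the identity on a pair of sites. -/
theorem coup_resolve {A B D E : ℕ} (hD : D = A + 1) (hE : E = B + 1) (u x : Fin D × Fin E) :
    ∑ p ∈ (range (min A B + 1)).sigma (fun k => Icc k (A + B - k)),
      vec2 (coup A B p.1 p.2) u * vec2 (coup A B p.1 p.2) x = if u = x then 1 else 0 := by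
  rw [sum_sigma, ← coup_complete_pair hD hE u x, sum_filter]
  refine sum_congr rfl fun k hk => ?_
  rw [mem_range] at hk
  by_cases h : k ≤ lev2 u ∧ lev2 u + k ≤ A + B
  · rw [if_pos h, sum_eq_single (lev2 u)]
    · intro T _ hT
      rw [vec2_eq_zero (u := u) (Ne.symm hT), zero_mul]
    · intro hn
      exact absurd (mem_Icc.2 ⟨h.1, by omega⟩) hn
  · rw [if_neg h]
    refine sum_eq_zero fun T hT => ?_
    rw [mem_Icc] at hT
    show vec2 (coup A B k T) u * _ = 0
    rw [vec2_eq_zero (u := u) (fun e => h ⟨by omega, by omega⟩), zero_mul]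

/-- The same at a low level. -/
theorem coup_resolve_level {A B D E : ℕ} (hD : D = A + 1) (hE : E = B + 1) (u x : Fin D × Fin E)
    (hA : lev2 u ≤ A) (hB : lev2 u ≤ B) :
    ∑ k ∈ range (lev2 u + 1), vec2 (coup A B k (lev2 u)) u * vec2 (coup A B k (lev2 u)) x =
      if u = x then 1 else 0 := by
  rw [← coup_complete_pair hD hE u x]
  refine sum_congr ?_ fun _ _ => rfl
  ext k
  simp only [mem_filter, mem_range]
  omega

/-- Orthonormality as dot products. -/
theorem coup_dot {A B D E k k' T T' : ℕ} (hD : D = A + 1) (hE : E = B + 1) (hA : k ≤ A) (hB : k ≤ B)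
    (hA' : k' ≤ A) (hB' : k' ≤ B) (h1 : k ≤ T) (h2 : T + k ≤ A + B) (h1' : k' ≤ T')
    (h2' : T' + k' ≤ A + B) :
    (vec2 (coup A B k T) : Fin D × Fin E → ℝ) ⬝ᵥ vec2 (coup A B k' T') =
      if k = k' ∧ T = T' then 1 else 0 := by
  subst hD hE
  rw [← coup_orth hA hB hA' hB' h1 h2 h1' h2', dotProduct, Fintype.sum_prod_type]
  simp only [vec2]
  rw [Fin.sum_univ_eq_sum_range
    (fun i => ∑ b : Fin (B + 1), coup A B k T i b * coup A B k' T' i b) (A + 1)]
  exact sum_congr rfl fun i _ =>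
    Fin.sum_univ_eq_sum_range (fun b => coup A B k T i b * coup A B k' T' i b) (B + 1)

theorem pv_eq_zero {Q L m U i a b : ℕ} (hm : m ≤ U) (h : i + a + b ≠ U) : pv Q L m U i a b = 0 := by
  unfold pv
  split_ifs with hmab
  · rw [coup_support fun e => h (by omega), zero_mul]
  · rfl

/-- The coupled vectors resolve the identity on impurity and pair at a low level. -/
theorem pv_resolve {Q : ℕ} (u x : Imp Q × (Orb Q × Orb Q)) (hU : 4 * lev3 u ≤ Q) :
    ∑ p ∈ (range (lev3 u + 1)).sigma (fun L => range (L + 1)),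
      vec3 Q p.1 p.2 (lev3 u) u * vec3 Q p.1 p.2 (lev3 u) x = if u = x then 1 else 0 := by
  obtain ⟨i, a, b⟩ := u
  obtain ⟨i', a', b'⟩ := x
  simp only [lev3] at hU
  have hi := i.isLt
  have hi' := i'.isLt
  have hU' : lev3 (Q := Q) (i, (a, b)) = (i : ℕ) + a + b := rfl
  rw [sum_sigma, hU']
  simp only [vec3]
  by_cases hl : (i' : ℕ) + a' + b' = i + a + b
  swap
  · rw [if_neg fun h => hl (by simp only [Prod.mk.injEq] at h; rw [h.1, h.2.1, h.2.2])]
    refine sum_eq_zero fun L hL => sum_eq_zero fun m hm => ?_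
    rw [mem_range] at hL hm
    rw [pv_eq_zero (U := (i : ℕ) + a + b) (i := (i' : ℕ)) (by omega) hl, mul_zero]
  rw [sum_comm' (t' := range ((i : ℕ) + a + b + 1))
    (s' := fun m => Ico m ((i : ℕ) + a + b + 1))
    (h := by intro L m; simp only [mem_range, mem_Ico]; omega)]
  have hinner : ∀ m ∈ range ((i : ℕ) + a + b + 1),
      ∑ L ∈ Ico m ((i : ℕ) + a + b + 1),
        pv Q L m ((i : ℕ) + a + b) i a b * pv Q L m ((i : ℕ) + a + b) i' a' b' =
      (if i = i' then (1 : ℝ) else 0) * (if m ≤ (a : ℕ) + b then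
        coup Q Q m ((a : ℕ) + b) a b * coup Q Q m ((a : ℕ) + b) a' b' else 0) := by
    intro m hm
    rw [mem_range] at hm
    by_cases h1 : m ≤ (a : ℕ) + b
    swap
    · simp [pv, h1]
    by_cases h2 : m ≤ (a' : ℕ) + b'
    swap
    · have hne : i ≠ i' := by
        intro e
        rw [e] at hl
        omega
      simp [pv, h2, hne]
    have hcc : ∑ k ∈ range ((i : ℕ) + a + b - m + 1),
        coup (2 * Q - 2) (2 * Q - 2 * m) k ((i : ℕ) + a + b - m) i ((a : ℕ) + b - m) *
          coup (2 * Q - 2) (2 * Q - 2 * m) k ((i : ℕ) + a + b - m) i' ((a' : ℕ) + b' - m) =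
        if (i : ℕ) = i' then 1 else 0 := by
      rw [← coup_complete (A := 2 * Q - 2) (B := 2 * Q - 2 * m) (T := (i : ℕ) + a + b - m)
        (i := (i : ℕ)) (b := (a : ℕ) + b - m) (i' := (i' : ℕ)) (b' := (a' : ℕ) + b' - m)
        (by omega) (by omega) (by omega) (by omega) (by omega) (by omega) (by omega)]
      refine sum_congr ?_ fun _ _ => rfl
      ext k
      simp only [mem_filter, mem_range]
      omega
    rw [sum_Ico_eq_sum_range, if_pos h1]
    simp only [pv, if_pos h1, if_pos h2, Nat.add_sub_cancel_left]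
    rw [show (i : ℕ) + a + b + 1 - m = (i : ℕ) + a + b - m + 1 by omega]
    rw [show (∑ k ∈ range ((i : ℕ) + a + b - m + 1),
        coup (2 * Q - 2) (2 * Q - 2 * m) k ((i : ℕ) + a + b - m) i ((a : ℕ) + b - m) *
          coup Q Q m ((a : ℕ) + b) a b *
        (coup (2 * Q - 2) (2 * Q - 2 * m) k ((i : ℕ) + a + b - m) i' ((a' : ℕ) + b' - m) *
          coup Q Q m ((a' : ℕ) + b') a' b')) =
      (if (i : ℕ) = i' then (1 : ℝ) else 0) *
        (coup Q Q m ((a : ℕ) + b) a b * coup Q Q m ((a' : ℕ) + b') a' b') by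
      rw [← hcc, sum_mul]
      exact sum_congr rfl fun k _ => by ring]
    by_cases he : i = i'
    · subst he
      rw [show (a' : ℕ) + b' = (a : ℕ) + b by omega]
      simp
    · simp [he, Fin.val_inj]
  rw [sum_congr rfl hinner, ← mul_sum]
  by_cases he : i = i'
  swap
  · simp [he]
  subst he
  have hab : (a' : ℕ) + b' = (a : ℕ) + b := by omega
  rw [← sum_filter, if_pos rfl, one_mul]
  have hset : (range ((i : ℕ) + a + b + 1)).filter (fun m => m ≤ (a : ℕ) + b) =
      (range (min Q Q + 1)).filter (fun m => m ≤ (a : ℕ) + b ∧ (a : ℕ) + b + m ≤ Q + Q) := by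
    ext m
    simp only [mem_filter, mem_range]
    omega
  rw [hset, coup_complete (by omega) (by omega) (by omega) rfl (by omega) (by omega) hab]
  refine if_congr ⟨fun h => ?_, fun h => by simp_all⟩ rfl rfl
  simp only [Prod.mk.injEq, Fin.ext_iff]
  refine ⟨trivial, h, ?_⟩
  omega

theorem coupRaw_swap (A k T i b : ℕ) :
    coupRaw A A k T b i = (-1 : ℝ) ^ k * coupRaw A A k T i b := by
  unfold coupRaw
  by_cases h : i + b = T ∧ i ≤ A ∧ b ≤ A
  · rw [if_pos h, if_pos ⟨by omega, h.2.2, h.2.1⟩, mul_comm ((A.choose b : ℝ)), ← mul_div_assoc]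
    congr 1
    rw [← sum_range_reflect, mul_sum]
    refine sum_congr rfl fun r hr => ?_
    rw [mem_range] at hr
    rw [show k + 1 - 1 - r = k - r by omega]
    by_cases hc : k ≤ i + r ∧ r ≤ b
    · rw [if_pos hc, if_pos (by omega), Nat.choose_symm (by omega : r ≤ k),
        show b + (k - r) - k = b - r by omega, show i - (k - r) = i + r - k by omega]
      have hs : (-1 : ℝ) ^ (k - r) = (-1 : ℝ) ^ k * (-1 : ℝ) ^ r := by
        rw [← pow_add, show k + r = k - r + 2 * r by omega, pow_add, pow_mul]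
        simp
      rw [hs]
      ring
    · rw [if_neg hc, if_neg (by omega), mul_zero]
  · rw [if_neg h, if_neg (fun e => h ⟨by omega, e.2.2, e.2.1⟩), mul_zero]

/-- Exchanging two equal spins multiplies channel `k` by a sign. -/
theorem coup_swap (A k T i b : ℕ) : coup A A k T b i = (-1 : ℝ) ^ k * coup A A k T i b := by
  rw [coup, coup, coupRaw_swap, mul_div_assoc]

/-- Exchanging the fermions of a pair multiplies channel `m` by a sign. -/
theorem vec3_swap {Q L m U : ℕ} (i : Imp Q) (a b : Orb Q) :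
    vec3 Q L m U (i, (b, a)) = (-1 : ℝ) ^ m * vec3 Q L m U (i, (a, b)) := by
  simp only [vec3, pv, Nat.add_comm (b : ℕ) (a : ℕ), coup_swap Q m ((a : ℕ) + b) (a : ℕ) (b : ℕ)]
  split_ifs <;> ring

theorem coup_abs_le (A B k T i b : ℕ) : |coup A B k T i b| ≤ 1 := by
  rw [coup, abs_div, abs_of_nonneg (Real.sqrt_nonneg _)]
  by_cases h : i ≤ A ∧ b ≤ B
  · refine div_le_one_of_le₀ ?_ (Real.sqrt_nonneg _)
    refine Real.abs_le_sqrt ?_
    refine le_trans ?_ (single_le_sum (fun i' _ => sum_nonneg fun b' _ => sq_nonneg _)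
      (mem_range.2 (by omega : i < A + 1)))
    exact single_le_sum (f := fun b' => coupRaw A B k T i b' ^ 2) (fun b' _ => sq_nonneg _)
      (mem_range.2 (by omega : b < B + 1))
  · rw [coupRaw, if_neg fun e => h e.2]
    simp

theorem vec2_abs_le {A B D E k T : ℕ} (u : Fin D × Fin E) : |vec2 (coup A B k T) u| ≤ 1 :=
  coup_abs_le _ _ _ _ _ _

theorem vec3_abs_le {Q L m U : ℕ} (u : Imp Q × (Orb Q × Orb Q)) : |vec3 Q L m U u| ≤ 1 := by
  simp only [vec3, pv]
  split_ifs
  · rw [abs_mul]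
    exact mul_le_one₀ (coup_abs_le _ _ _ _ _ _) (abs_nonneg _) (coup_abs_le _ _ _ _ _ _)
  · simp

end Vale.Agent.P359
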