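import Vale.Agent.P359.Chains

/-!
Orthonormal families spanning a subspace stable under the rotations, and their marginal forms.
-/

namespace Vale.Agent.P359

open Finset Matrix

variable {Z κ : Type*} [Fintype Z] [Fintype κ] [DecidableEq κ]
variable {J : Type*} [Fintype J]

/-- `A` maps the span of the orthonormal family `e` into itself. -/
def Stable (e : J → Z → ℝ) (A : (Z → ℝ) →ₗ[ℝ] (Z → ℝ)) : Prop :=
  ∀ j, A (e j) = ∑ l, (e l ⬝ᵥ A (e j)) • e l

/-- The trace of `A` over the family. -/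
def ftr (e : J → Z → ℝ) (A : (Z → ℝ) →ₗ[ℝ] (Z → ℝ)) : ℝ := ∑ j, e j ⬝ᵥ A (e j)

theorem ftr_comm {e : J → Z → ℝ} {A B B' : (Z → ℝ) →ₗ[ℝ] (Z → ℝ)}
    (hB : Stable e B) (hB' : Stable e B') (hadj : ∀ X Y, X ⬝ᵥ B Y = B' X ⬝ᵥ Y) :
    ∑ j, e j ⬝ᵥ A (B (e j)) = ∑ j, e j ⬝ᵥ B (A (e j)) := by
  have e1 : ∀ j, e j ⬝ᵥ A (B (e j)) = ∑ l, (e l ⬝ᵥ B (e j)) * (e j ⬝ᵥ A (e l)) := by
    intro j
    conv_lhs => rw [hB j]
    simp [map_sum, map_smul, dotProduct_sum, dotProduct_smul]
  have e2 : ∀ j, e j ⬝ᵥ B (A (e j)) = ∑ l, (e l ⬝ᵥ B' (e j)) * (e l ⬝ᵥ A (e j)) := by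
    intro j
    rw [hadj]
    conv_lhs => rw [hB' j]
    simp [sum_dotProduct, smul_dotProduct]
  simp only [e1, e2]
  rw [Finset.sum_comm]
  refine Finset.sum_congr rfl fun j _ => Finset.sum_congr rfl fun l _ => ?_
  rw [dotProduct_comm (e l) (B' (e j)), ← hadj]

/-- The marginal form of the family in the coordinate `l`. -/
def mform (e : J → Z → ℝ) (l : Lens Z κ) : Matrix κ κ ℝ :=
  fun u u' => ∑ j, e j ⬝ᵥ l.op (Matrix.single u u' 1) (e j)

theorem mform_pair (e : J → Z → ℝ) (l : Lens Z κ) (K : Matrix κ κ ℝ) :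
    ∑ j, e j ⬝ᵥ l.op K (e j) = ∑ u, ∑ u', K u u' * mform e l u u' := by
  have hK : ∀ X z, l.op K X z = ∑ u, ∑ u', K u u' * l.op (Matrix.single u u' 1) X z := by
    intro X z
    simp only [Lens.op_apply, Matrix.single, Matrix.of_apply, ite_mul, one_mul, zero_mul,
      ite_and, mul_ite, mul_zero, Finset.sum_ite_eq, Finset.mem_univ, if_true]
    simp [Finset.sum_ite_eq']
  simp only [mform, dotProduct, hK, Finset.mul_sum]
  rw [Finset.sum_comm]
  simp only [Finset.sum_comm (γ := J)]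
  refine Eq.trans Finset.sum_comm (Finset.sum_congr rfl fun u _ => ?_)
  refine Eq.trans Finset.sum_comm (Finset.sum_congr rfl fun u' _ => ?_)
  exact Finset.sum_congr rfl fun z _ => Finset.sum_congr rfl fun j _ => by ring

theorem mform_symm (e : J → Z → ℝ) (l : Lens Z κ) (u u' : κ) :
    mform e l u u' = mform e l u' u := by
  refine Finset.sum_congr rfl fun j _ => ?_
  rw [Lens.op_adj, Matrix.transpose_single, dotProduct_comm]

theorem mform_mulVec (e : J → Z → ℝ) (l : Lens Z κ) (v v' : κ → ℝ) :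
    v ⬝ᵥ (mform e l *ᵥ v') = ∑ j, e j ⬝ᵥ l.op (vecMulVec v v') (e j) := by
  rw [mform_pair]
  simp only [dotProduct, mulVec, vecMulVec_apply, Finset.mul_sum]
  exact Finset.sum_congr rfl fun u _ => Finset.sum_congr rfl fun u' _ => by ring

theorem mform_gram (e : J → Z → ℝ) (l : Lens Z κ) (o : κ) (v v' : κ → ℝ) :
    v ⬝ᵥ (mform e l *ᵥ v') = ∑ j, l.op (vecMulVec (Pi.single o 1) v) (e j) ⬝ᵥ
      l.op (vecMulVec (Pi.single o 1) v') (e j) := by
  rw [mform_mulVec]
  exact Finset.sum_congr rfl fun j _ => Lens.op_outer _ _ _ _ _ _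

theorem mform_nonneg (e : J → Z → ℝ) (l : Lens Z κ) (v : κ → ℝ) :
    0 ≤ v ⬝ᵥ (mform e l *ᵥ v) := by
  rcases isEmpty_or_nonempty κ with h | h
  · simp [dotProduct]
  · rw [mform_gram e l (Classical.arbitrary κ)]
    exact Finset.sum_nonneg fun j _ => Finset.sum_nonneg fun z _ => mul_self_nonneg _

/-- Sum of marginal forms over a set of coordinates. -/
def sform {P : Type*} (e : J → Z → ℝ) (s : Finset P) (l : P → Lens Z κ) : Matrix κ κ ℝ :=
  ∑ p ∈ s, mform e (l p)

theorem sform_symm {P : Type*} (e : J → Z → ℝ) (s : Finset P) (l : P → Lens Z κ) :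
    (sform e s l)ᵀ = sform e s l := by
  ext u u'
  simp only [sform, Matrix.transpose_apply, Matrix.sum_apply]
  exact Finset.sum_congr rfl fun p _ => mform_symm e (l p) u' u

theorem sform_mulVec {P : Type*} (e : J → Z → ℝ) (s : Finset P) (l : P → Lens Z κ)
    (v v' : κ → ℝ) :
    v ⬝ᵥ (sform e s l *ᵥ v') = ∑ p ∈ s, v ⬝ᵥ (mform e (l p) *ᵥ v') := by
  rw [sform, Matrix.sum_mulVec, dotProduct_sum]

theorem sform_nonneg {P : Type*} (e : J → Z → ℝ) (s : Finset P) (l : P → Lens Z κ) (v : κ → ℝ) :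
    0 ≤ v ⬝ᵥ (sform e s l *ᵥ v) := by
  rw [sform_mulVec]
  exact Finset.sum_nonneg fun p _ => mform_nonneg e (l p) v

theorem sform_pair {P : Type*} (e : J → Z → ℝ) (s : Finset P) (l : P → Lens Z κ)
    (K : Matrix κ κ ℝ) :
    ∑ j, ∑ p ∈ s, e j ⬝ᵥ (l p).op K (e j) = ∑ u, ∑ u', K u u' * sform e s l u u' := by
  rw [Finset.sum_comm]
  simp only [mform_pair, sform, Matrix.sum_apply, Finset.mul_sum]
  rw [Finset.sum_comm]
  exact Finset.sum_congr rfl fun u _ => Finset.sum_comm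

/-- The marginal form commutes with the local part of a symmetry. -/
theorem mform_comm {e : J → Z → ℝ} {l : Lens Z κ} {L : Matrix κ κ ℝ}
    {B B' : (Z → ℝ) →ₗ[ℝ] (Z → ℝ)} (hB : Stable e B) (hB' : Stable e B')
    (hadj : ∀ X Y, X ⬝ᵥ B Y = B' X ⬝ᵥ Y) (hloc : LocalAt l L B) :
    L * mform e l = mform e l * L := by
  ext a c
  have key : ∀ K : Matrix κ κ ℝ, ∑ u, ∑ u', (K * L - L * K) u u' * mform e l u u' = 0 := by
    intro K
    rw [← mform_pair]
    simp only [← hloc K, dotProduct_sub, Finset.sum_sub_distrib, sub_eq_zero]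
    exact ftr_comm hB hB' hadj
  have h := key (Matrix.single c a 1)
  simp only [Matrix.sub_apply, sub_mul, Finset.sum_sub_distrib, Matrix.mul_apply, Matrix.single,
    Matrix.of_apply, ite_mul, one_mul, zero_mul, mul_ite, mul_one, mul_zero, ite_and,
    Finset.sum_ite_eq, Finset.sum_ite_eq', Finset.mem_univ, if_true] at h
  simp only [Finset.sum_ite_irrel, Finset.sum_const_zero, Finset.sum_ite_eq, Finset.sum_ite_eq',
    Finset.mem_univ, if_true] at h
  rw [Finset.sum_comm] at h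
  simp only [ite_mul, zero_mul, Finset.sum_ite_eq, Finset.mem_univ, if_true] at h
  simp only [Matrix.mul_apply]
  calc ∑ x, L a x * mform e l x c = ∑ x, L a x * mform e l c x :=
        Finset.sum_congr rfl fun x _ => by rw [mform_symm e l x c]
    _ = ∑ x, L x c * mform e l x a := by linarith
    _ = ∑ x, mform e l a x * L x c :=
        Finset.sum_congr rfl fun x _ => by rw [mform_symm e l x a, mul_comm]

end Vale.Agent.P359
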