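import Vale.Agent.P359.Family

/-!
The form `c + fermEnergy - exchEnergy` on allowed states: it is enough to bound its trace over
families stable under the rotations.
-/

namespace Vale.Agent.P359

open Finset Matrix
open scoped Kronecker

variable {Q n : ℕ}

/-- The exchange as a matrix. -/
noncomputable def exchM (Q : ℕ) : Matrix (Imp Q × Orb Q) (Imp Q × Orb Q) ℝ :=
  Matrix.of (exch Q)

/-- The pair projection as a matrix. -/
noncomputable def projM (Q : ℕ) : Matrix (Orb Q × Orb Q) (Orb Q × Orb Q) ℝ :=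
  Matrix.of (proj1 Q)

/-- Coordinates of an ordered pair of fermions. -/
abbrev OPair (n : ℕ) : Type := {pq : Fin n × Fin n // pq.1 ≠ pq.2}

/-- The exchange operator on impurity states. -/
noncomputable def exchOp (Q n : ℕ) : (Conf Q n → ℝ) →ₗ[ℝ] (Conf Q n → ℝ) :=
  ∑ p : Fin n, (l01 Q p).op (exchM Q)

/-- The fermion energy operator, over ordered pairs. -/
noncomputable def fermOp (Q n : ℕ) : (Conf Q n → ℝ) →ₗ[ℝ] (Conf Q n → ℝ) :=
  ∑ pq ∈ (univ : Finset (OPair n)).filter (fun pq => pq.1.1 < pq.1.2), (l11 Q pq.2).op (projM Q)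

/-- The operator whose positivity is the key inequality. -/
noncomputable def keyOp (Q n : ℕ) (c : ℝ) : (Conf Q n → ℝ) →ₗ[ℝ] (Conf Q n → ℝ) :=
  c • LinearMap.id + fermOp Q n - exchOp Q n

theorem exchEnergy_eq (X : Conf Q n → ℝ) : exchEnergy X = X ⬝ᵥ exchOp Q n X := by
  simp only [exchEnergy, exchOp, LinearMap.sum_apply, dotProduct, Finset.sum_apply,
    Fintype.sum_prod_type, Lens.op_apply]
  rfl

theorem fermEnergy_eq (X : Conf Q n → ℝ) : fermEnergy X = X ⬝ᵥ fermOp Q n X := by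
  simp only [fermEnergy, fermOp, LinearMap.sum_apply, dotProduct, Finset.sum_apply,
    Fintype.sum_prod_type, Lens.op_apply]
  refine Finset.sum_congr rfl fun i _ => Finset.sum_congr rfl fun x _ => ?_
  congr 1
  rw [← Fintype.sum_prod_type', ← Finset.sum_filter]
  refine Eq.symm (Finset.sum_bij (fun pq _ => pq.1) ?_ ?_ ?_ ?_)
  · intro pq hpq; simpa using hpq
  · intro a _ b _ hab; exact Subtype.ext hab
  · intro b hb
    simp only [Finset.mem_filter, Finset.mem_univ, true_and] at hb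
    exact ⟨⟨b, ne_of_lt hb⟩, by simp [hb], rfl⟩
  · intro pq _; rfl

theorem keyOp_form (X : Conf Q n → ℝ) (c : ℝ) :
    X ⬝ᵥ keyOp Q n c X = c * confNormSq X + fermEnergy X - exchEnergy X := by
  simp only [keyOp, LinearMap.sub_apply, LinearMap.add_apply, LinearMap.smul_apply,
    LinearMap.id_apply, dotProduct_sub, dotProduct_add, dotProduct_smul, smul_eq_mul,
    ← exchEnergy_eq, ← fermEnergy_eq]
  simp [confNormSq, dotProduct, sq]

/-- The coupled vector of impurity and one fermion. -/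
noncomputable abbrev cv (Q k T : ℕ) : Imp Q × Orb Q → ℝ := vec2 (coup (2 * Q - 2) Q k T)

/-- The null contractions as local operators. -/
noncomputable def nullOp (o : Imp Q × Orb Q) (k T : ℕ) (p : Fin n) :
    (Conf Q n → ℝ) →ₗ[ℝ] (Conf Q n → ℝ) :=
  (l01 Q p).op (vecMulVec (Pi.single o 1) (cv Q k T))

theorem nullOp_apply (o : Imp Q × Orb Q) (k T : ℕ) (p : Fin n) (X : Conf Q n → ℝ)
    (z : Conf Q n) :
    nullOp o k T p X z = (if (z.1, z.2 p) = o then 1 else 0) *
      ∑ i : Imp Q, ∑ a : Orb Q, coup (2 * Q - 2) Q k T i a * X (i, Function.update z.2 p a) := by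
  simp only [nullOp, Lens.op_apply, vecMulVec_apply, Fintype.sum_prod_type, Finset.mul_sum]
  refine Finset.sum_congr rfl fun i _ => Finset.sum_congr rfl fun a _ => ?_
  simp only [l01, Lens.prod, lI, lF, vec2, Pi.single_apply]
  ring

theorem allowed_iff (o : Imp Q × Orb Q) (X : Conf Q n → ℝ) :
    Allowed X ↔ (∀ i, Antisym fun x => X (i, x)) ∧
      ∀ k ∈ ({0, 1, 3} : Finset ℕ), ∀ T, k ≤ T → T + k ≤ 3 * Q - 2 → ∀ p, nullOp o k T p X = 0 := by
  refine and_congr Iff.rfl ⟨fun h k hk T h1 h2 p => funext fun z => ?_,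
    fun h k hk T h1 h2 p x => ?_⟩
  · rw [nullOp_apply, h k hk T h1 h2 p z.2, mul_zero]; rfl
  · have h' := congrFun (h k hk T h1 h2 p) (o.1, Function.update x p o.2)
    simpa [nullOp_apply] using h'

/-- Allowed states are stable under operators moving the null chains into themselves. -/
theorem allowed_Jop (o : Imp Q × Orb Q) {K0 : Matrix (Imp Q) (Imp Q) ℝ}
    {K : Matrix (Orb Q) (Orb Q) ℝ}
    (hstep : ∀ k ∈ ({0, 1, 3} : Finset ℕ), ∀ T, k ≤ T → T + k ≤ 3 * Q - 2 →
      ∃ (c : ℝ) (T' : ℕ), k ≤ T' ∧ T' + k ≤ 3 * Q - 2 ∧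
        (sum2 K0 K)ᵀ *ᵥ cv Q k T = c • cv Q k T')
    {X : Conf Q n → ℝ} (hX : Allowed X) : Allowed (Jop K0 K X) := by
  rw [allowed_iff o] at hX ⊢
  refine ⟨antisym_Jop hX.1 K0 K, fun k hk T h1 h2 p => ?_⟩
  obtain ⟨c, T', h1', h2', hc⟩ := hstep k hk T h1 h2
  have hloc := local_01 K0 K p (vecMulVec (Pi.single o 1) (cv Q k T)) X
  have hK : sum2 K0 K * vecMulVec (Pi.single o 1) (cv Q k T) =
      vecMulVec (sum2 K0 K *ᵥ Pi.single o 1) (Pi.single o 1) *
        vecMulVec (Pi.single o 1) (cv Q k T) := by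
    rw [Matrix.mul_vecMulVec, Matrix.vecMulVec_mul_vecMulVec]
    simp
  have hz : ∀ {T}, k ≤ T → T + k ≤ 3 * Q - 2 →
      (l01 Q p).op (vecMulVec (Pi.single o 1) (cv Q k T)) X = 0 :=
    fun h h' => hX.2 k hk _ h h' p
  rw [Lens.op_sub, LinearMap.sub_apply, hK, Lens.op_mul (l01 Q p) (vecMulVec _ (Pi.single o 1)),
    hz h1 h2, map_zero, map_zero, sub_zero, sub_zero, Matrix.vecMulVec_mul, ← mulVec_transpose,
    hc, vecMulVec_smul, Lens.op_smul, LinearMap.smul_apply, hz h1' h2', smul_zero] at hloc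
  exact hloc

theorem sum2_lev : sum2 (levM (2 * Q - 1)) (levM (Q + 1)) =
    diagonal fun u : Imp Q × Orb Q => (lev2 u : ℝ) := by
  simp only [sum2, levM, ← diagonal_one, diagonal_kronecker_diagonal, diagonal_add]
  congr 1
  ext u
  simp [lev2]

theorem sumP_lev : sumP (levM (Q + 1)) =
    diagonal fun u : Orb Q × Orb Q => (lev2 u : ℝ) := by
  simp only [sumP, levM, ← diagonal_one, diagonal_kronecker_diagonal, diagonal_add]
  congr 1
  ext u
  simp [lev2]

theorem sum3_lev : sum3 (levM (2 * Q - 1)) (levM (Q + 1)) =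
    diagonal fun u : Imp Q × (Orb Q × Orb Q) => (lev3 u : ℝ) := by
  rw [sum3, sumP_lev]
  simp only [levM, ← diagonal_one, diagonal_kronecker_diagonal, diagonal_add]
  congr 1
  ext u
  simp only [lev2, lev3]
  push_cast
  ring

theorem graded_iff {ι : Type*} [Fintype ι] [DecidableEq ι] (lev : ι → ℕ) (M : Matrix ι ι ℝ) :
    diagonal (fun u => (lev u : ℝ)) * M = M * diagonal (fun u => (lev u : ℝ)) ↔
      ∀ u u', lev u ≠ lev u' → M u u' = 0 := by
  constructor
  · intro h u u' hne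
    have h' := congrFun (congrFun h u) u'
    rw [diagonal_mul, mul_diagonal, mul_comm (M u u'), ← sub_eq_zero, ← sub_mul] at h'
    exact (mul_eq_zero.1 h').resolve_left (sub_ne_zero.2 (by exact_mod_cast hne))
  · intro h
    ext u u'
    rw [diagonal_mul, mul_diagonal]
    by_cases e : lev u = lev u'
    · rw [e, mul_comm]
    · rw [h u u' e]; simp

/-- The lowering of impurity and one fermion. -/
noncomputable abbrev low2I (Q : ℕ) : Matrix (Imp Q × Orb Q) (Imp Q × Orb Q) ℝ :=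
  low2M (2 * Q - 2) Q (2 * Q - 1) (Q + 1)

/-- The lowering of two fermions. -/
noncomputable abbrev low2P (Q : ℕ) : Matrix (Orb Q × Orb Q) (Orb Q × Orb Q) ℝ :=
  low2M Q Q (Q + 1) (Q + 1)

theorem allowed_J (hQ : 4 ≤ Q) {X : Conf Q n → ℝ} (hX : Allowed X) :
    Allowed (Jlow Q n X) ∧ Allowed (Jhigh Q n X) ∧ Allowed (Jlev Q n X) := by
  have o : Imp Q × Orb Q := (⟨0, by omega⟩, 0)
  have hk : ∀ k ∈ ({0, 1, 3} : Finset ℕ), k ≤ Q ∧ k ≤ 2 * Q - 2 := by
    intro k hk; simp only [Finset.mem_insert, Finset.mem_singleton] at hk; omega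
  have hc : ∀ k ∈ ({0, 1, 3} : Finset ℕ), Chain (low2I Q) lev2 k (2 * Q - 2 + Q - k)
      (fun T => lad (2 * Q - 2 + Q - 2 * k) (T - k)) (fun T => cv Q k T) :=
    fun k hkm => chain2 (by omega) rfl (hk k hkm).2 (hk k hkm).1
  refine ⟨allowed_Jop o (fun k hkm T h1 h2 => ?_) hX, allowed_Jop o (fun k hkm T h1 h2 => ?_) hX,
    allowed_Jop o (fun k hkm T h1 h2 => ?_) hX⟩
  · rcases Nat.eq_or_lt_of_le h1 with h | h
    · subst h
      exact ⟨0, k, le_rfl, h2, (hc k hkm).first.trans (zero_smul _ _).symm⟩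
    · refine ⟨lad (2 * Q - 2 + Q - 2 * k) (T - 1 - k), T - 1, by omega, by omega, ?_⟩
      have := (hc k hkm).high (T - 1) (by omega) (by omega)
      rwa [show T - 1 + 1 = T by omega] at this
  · have e : (sum2 (lowM (2 * Q - 2) (2 * Q - 1))ᵀ (lowM Q (Q + 1))ᵀ :
        Matrix (Imp Q × Orb Q) (Imp Q × Orb Q) ℝ)ᵀ = low2I Q := by
      rw [sum2, transpose_add, ← kroneckerMap_transpose, ← kroneckerMap_transpose, transpose_one,
        transpose_one, transpose_transpose, transpose_transpose]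
      rfl
    rw [e]
    rcases Nat.eq_or_lt_of_le (show T ≤ 2 * Q - 2 + Q - k by omega) with h | h
    · refine ⟨0, T, h1, h2, ?_⟩
      rw [h, zero_smul]
      exact chain2_last (by omega) rfl (hk k hkm).2 (hk k hkm).1
    · exact ⟨_, T + 1, by omega, by omega, (hc k hkm).low T h1 h⟩
  · refine ⟨(T : ℝ), T, h1, h2, funext fun u => ?_⟩
    rw [sum2_lev, diagonal_transpose, mulVec_diagonal, Pi.smul_apply, smul_eq_mul]
    by_cases hu : cv Q k T u = 0
    · rw [hu]; simp
    · rw [(hc k hkm).grade T h1 (by omega) u hu]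

/-- An orthonormal family of allowed states stable under the rotations. -/
structure InvFamily {J : Type} [Fintype J] (e : J → Conf Q n → ℝ) : Prop where
  norm : ∀ j, e j ⬝ᵥ e j = 1
  allowed : ∀ j, Allowed (e j)
  low : Stable e (Jlow Q n)
  high : Stable e (Jhigh Q n)
  lev : Stable e (Jlev Q n)

/-- The symmetries of the two local matrices. -/
structure Sym (Q : ℕ) : Prop where
  exch : Invar (low2I Q) lev2 (exchM Q)
  proj : Invar (low2P Q) lev2 (projM Q)

theorem Invar.commT {ι : Type*} [Fintype ι] {L M : Matrix ι ι ℝ} {lev : ι → ℕ}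
    (h : Invar L lev M) : Lᵀ * M = M * Lᵀ := by
  have := congrArg Matrix.transpose h.comm
  rw [transpose_mul, transpose_mul, h.symm] at this
  exact this.symm

theorem keyOp_adj (h : Sym Q) (c : ℝ) (X Y : Conf Q n → ℝ) :
    X ⬝ᵥ keyOp Q n c Y = keyOp Q n c X ⬝ᵥ Y := by
  simp only [keyOp, exchOp, fermOp, LinearMap.sub_apply, LinearMap.add_apply,
    LinearMap.smul_apply, LinearMap.id_apply, LinearMap.sum_apply, dotProduct_sub, sub_dotProduct,
    dotProduct_add, add_dotProduct, dotProduct_smul, smul_dotProduct, dotProduct_sum,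
    sum_dotProduct, Lens.op_adj, h.exch.symm, h.proj.symm]

theorem keyOp_comm {K0 : Matrix (Imp Q) (Imp Q) ℝ} {K : Matrix (Orb Q) (Orb Q) ℝ}
    (h1 : sum2 K0 K * exchM Q = exchM Q * sum2 K0 K) (h2 : sumP K * projM Q = projM Q * sumP K)
    (c : ℝ) (X : Conf Q n → ℝ) : keyOp Q n c (Jop K0 K X) = Jop K0 K (keyOp Q n c X) := by
  simp only [keyOp, LinearMap.sub_apply, LinearMap.add_apply, LinearMap.smul_apply,
    LinearMap.id_apply, map_sub, map_add, map_smul, exchOp, fermOp, LinearMap.sum_apply, map_sum]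
  congr 1
  · congr 1
    refine Finset.sum_congr rfl fun pq _ => ?_
    have := local_11 K0 K pq.2 (projM Q) X
    rw [← h2, sub_self] at this
    have e0 : (l11 Q pq.2 : Lens (Conf Q n) _).op (0 : Matrix (Orb Q × Orb Q) (Orb Q × Orb Q) ℝ) X = 0 := by
      ext z; simp [Lens.op_apply]
    rw [e0] at this
    exact sub_eq_zero.1 this
  · refine Finset.sum_congr rfl fun p _ => ?_
    have := local_01 K0 K p (exchM Q) X
    rw [← h1, sub_self] at this
    have e0 : (l01 Q p : Lens (Conf Q n) _).op (0 : Matrix (Imp Q × Orb Q) (Imp Q × Orb Q) ℝ) X = 0 := by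
      ext z; simp [Lens.op_apply]
    rw [e0] at this
    exact sub_eq_zero.1 this

theorem keyOp_commJ (h : Sym Q) (c : ℝ) (X : Conf Q n → ℝ) :
    keyOp Q n c (Jlow Q n X) = Jlow Q n (keyOp Q n c X) ∧
      keyOp Q n c (Jhigh Q n X) = Jhigh Q n (keyOp Q n c X) ∧
      keyOp Q n c (Jlev Q n X) = Jlev Q n (keyOp Q n c X) := by
  refine ⟨keyOp_comm h.exch.comm h.proj.comm c X, keyOp_comm ?_ ?_ c X, keyOp_comm ?_ ?_ c X⟩
  · have e : (sum2 (lowM (2 * Q - 2) (2 * Q - 1))ᵀ (lowM Q (Q + 1))ᵀ :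
        Matrix (Imp Q × Orb Q) (Imp Q × Orb Q) ℝ) = (low2I Q)ᵀ := by
      rw [low2I, low2M, transpose_add, ← kroneckerMap_transpose, ← kroneckerMap_transpose,
        transpose_one, transpose_one]
      rfl
    rw [e]; exact h.exch.commT
  · have e : sumP (lowM Q (Q + 1))ᵀ = (low2P Q)ᵀ := by
      rw [low2P, low2M, transpose_add, ← kroneckerMap_transpose, ← kroneckerMap_transpose,
        transpose_one]
      rfl
    rw [e]; exact h.proj.commT
  · rw [sum2_lev]; exact (graded_iff _ _).2 h.exch.graded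
  · rw [sumP_lev]; exact (graded_iff _ _).2 h.proj.graded

theorem allowed_zero : Allowed (0 : Conf Q n → ℝ) :=
  ⟨fun i σ x => by simp, fun k _ T _ _ p x => by simp⟩

theorem allowed_add {X Y : Conf Q n → ℝ} (hX : Allowed X) (hY : Allowed Y) : Allowed (X + Y) :=
  ⟨fun i σ x => by
      have a := hX.1 i σ x
      have b := hY.1 i σ x
      simp only [Pi.add_apply] at a b ⊢
      rw [a, b, mul_add],
    fun k hk T h1 h2 p x => by
      simp only [Pi.add_apply, mul_add, Finset.sum_add_distrib,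
        hX.2 k hk T h1 h2 p x, hY.2 k hk T h1 h2 p x, add_zero]⟩

theorem allowed_smul (c : ℝ) {X : Conf Q n → ℝ} (hX : Allowed X) : Allowed (c • X) :=
  ⟨fun i σ x => by
      have a := hX.1 i σ x
      simp only [Pi.smul_apply, smul_eq_mul] at a ⊢
      rw [a]; ring,
    fun k hk T h1 h2 p x => by
      simp only [Pi.smul_apply, smul_eq_mul, mul_left_comm _ c, ← Finset.mul_sum,
        hX.2 k hk T h1 h2 p x, mul_zero]⟩

/-- The allowed states as a subspace of Euclidean space. -/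
def allowedSpace (Q n : ℕ) : Submodule ℝ (EuclideanSpace ℝ (Conf Q n)) where
  carrier := {X | Allowed (WithLp.ofLp X)}
  zero_mem' := allowed_zero
  add_mem' := allowed_add
  smul_mem' c _ hX := allowed_smul c hX

theorem inner_dot {ι : Type*} [Fintype ι] (x y : EuclideanSpace ℝ ι) :
    inner ℝ x y = WithLp.ofLp x ⬝ᵥ WithLp.ofLp y := by
  rw [EuclideanSpace.inner_eq_star_dotProduct, star_trivial, dotProduct_comm]

/-- Trace positivity over stable families gives positivity. -/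
theorem key_of_families (hQ : 4 ≤ Q) (hsym : Sym Q) (c : ℝ)
    (h : ∀ d, ∀ e : Fin d → Conf Q n → ℝ, InvFamily e → 0 ≤ ftr e (keyOp Q n c)) :
    ∀ X : Conf Q n → ℝ, Allowed X → exchEnergy X ≤ c * confNormSq X + fermEnergy X := by
  intro X hX
  by_contra hlt
  set W := allowedSpace Q n
  let e2 : EuclideanSpace ℝ (Conf Q n) ≃ₗ[ℝ] (Conf Q n → ℝ) := WithLp.linearEquiv 2 ℝ (Conf Q n → ℝ)
  let M : EuclideanSpace ℝ (Conf Q n) →ₗ[ℝ] EuclideanSpace ℝ (Conf Q n) :=
    e2.symm.toLinearMap ∘ₗ keyOp Q n c ∘ₗ e2.toLinearMap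
  let A : W →ₗ[ℝ] W := W.orthogonalProjection.toLinearMap ∘ₗ M ∘ₗ W.subtype
  have hA : ∀ x y : W, inner ℝ (A x) y =
      keyOp Q n c (WithLp.ofLp (x : EuclideanSpace ℝ (Conf Q n))) ⬝ᵥ
        WithLp.ofLp (y : EuclideanSpace ℝ (Conf Q n)) := by
    intro x y
    exact (Submodule.inner_orthogonalProjection_eq_of_mem_right y (M x)).trans (inner_dot _ _)
  have hsymA : A.IsSymmetric := by
    intro x y
    rw [hA, real_inner_comm, hA, ← keyOp_adj hsym, dotProduct_comm]
  let b := hsymA.eigenvectorBasis rfl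
  let x0 : W := ⟨e2.symm X, hX⟩
  have hneg : inner ℝ (A x0) x0 < 0 := by
    rw [hA, dotProduct_comm]
    show X ⬝ᵥ keyOp Q n c X < 0
    rw [keyOp_form]
    linarith [not_le.1 hlt]
  obtain ⟨i, hi⟩ : ∃ i, hsymA.eigenvalues rfl i < 0 := by
    by_contra hall
    push Not at hall
    refine absurd hneg (not_lt.2 ?_)
    rw [← OrthonormalBasis.sum_inner_mul_inner b (A x0) x0]
    refine Finset.sum_nonneg fun j _ => ?_
    have e : inner ℝ (A x0) (b j) = hsymA.eigenvalues rfl j * inner ℝ (b j) x0 := by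
      rw [hsymA x0 (b j), hsymA.apply_eigenvectorBasis, real_inner_smul_right, real_inner_comm]
      rfl
    rw [e, mul_assoc]
    exact mul_nonneg (hall j) (mul_self_nonneg _)
  set lam : ℝ := hsymA.eigenvalues rfl i
  set E := Module.End.eigenspace A lam
  let bE := stdOrthonormalBasis ℝ E
  let e : Fin (Module.finrank ℝ E) → Conf Q n → ℝ :=
    fun j => WithLp.ofLp (((bE j : E) : W) : EuclideanSpace ℝ (Conf Q n))
  have hstab : ∀ (B B' : (Conf Q n → ℝ) →ₗ[ℝ] (Conf Q n → ℝ)),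
      (∀ X, Allowed X → Allowed (B X)) → (∀ X, Allowed X → Allowed (B' X)) →
      (∀ X Y, X ⬝ᵥ B Y = B' X ⬝ᵥ Y) →
      (∀ X, keyOp Q n c (B X) = B (keyOp Q n c X)) → Stable e B := by
    intro B B' hB hB' hadj hcomm j
    set y : W := ((bE j : E) : W)
    let By : W := ⟨e2.symm (B (e2 y.1)), hB _ y.2⟩
    have hev : A y = lam • y := Module.End.mem_eigenspace_iff.1 (bE j).2
    have hmem : By ∈ E := by
      rw [Module.End.mem_eigenspace_iff]
      refine ext_inner_right ℝ fun v => ?_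
      let Bv : W := ⟨e2.symm (B' (e2 v.1)), hB' _ v.2⟩
      rw [hA, real_inner_smul_left]
      show keyOp Q n c (B (e2 y.1)) ⬝ᵥ e2 v.1 = lam * inner ℝ By.1 v.1
      rw [hcomm, dotProduct_comm, hadj, dotProduct_comm]
      have h2 : keyOp Q n c (e2 y.1) ⬝ᵥ B' (e2 v.1) = inner ℝ (A y) Bv := (hA y Bv).symm
      rw [h2, hev]
      refine (real_inner_smul_left y Bv lam).trans ?_
      congr 1
      show inner ℝ y.1 Bv.1 = inner ℝ By.1 v.1
      rw [inner_dot, inner_dot]
      show e2 y.1 ⬝ᵥ B' (e2 v.1) = B (e2 y.1) ⬝ᵥ e2 v.1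
      rw [dotProduct_comm, ← hadj, dotProduct_comm]
    have hrep := bE.sum_repr' (⟨By, hmem⟩ : E)
    have hrep' := congrArg (fun t : E => e2 ((t : W) : EuclideanSpace ℝ (Conf Q n))) hrep
    simp only [Submodule.coe_sum, Submodule.coe_smul, map_sum, map_smul] at hrep'
    show B (e j) = _
    refine hrep'.symm.trans (Finset.sum_congr rfl fun l _ => ?_)
    congr 1
    exact inner_dot _ _
  have hadjL : ∀ X Y : Conf Q n → ℝ, X ⬝ᵥ Jlow Q n Y = Jhigh Q n X ⬝ᵥ Y := fun X Y =>
    Jop_adj _ _ X Y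
  have hadjH : ∀ X Y : Conf Q n → ℝ, X ⬝ᵥ Jhigh Q n Y = Jlow Q n X ⬝ᵥ Y := fun X Y => by
    rw [dotProduct_comm, ← hadjL, dotProduct_comm]
  have hadjN : ∀ X Y : Conf Q n → ℝ, X ⬝ᵥ Jlev Q n Y = Jlev Q n X ⬝ᵥ Y := fun X Y => by
    refine (Jop_adj _ _ X Y).trans ?_
    simp [Jlev, levM, diagonal_transpose]
  have hfam : InvFamily e :=
    { norm := fun j => by
        have h1 : inner ℝ (bE j) (bE j) = (1 : ℝ) := by
          simp [real_inner_self_eq_norm_sq, bE.norm_eq_one]
        exact (inner_dot _ _).symm.trans h1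
      allowed := fun j => ((bE j : E) : W).2
      low := hstab _ _ (fun X hX => (allowed_J hQ hX).1) (fun X hX => (allowed_J hQ hX).2.1) hadjL
        (fun X => (keyOp_commJ hsym c X).1)
      high := hstab _ _ (fun X hX => (allowed_J hQ hX).2.1) (fun X hX => (allowed_J hQ hX).1) hadjH
        (fun X => (keyOp_commJ hsym c X).2.1)
      lev := hstab _ _ (fun X hX => (allowed_J hQ hX).2.2) (fun X hX => (allowed_J hQ hX).2.2) hadjN
        (fun X => (keyOp_commJ hsym c X).2.2) }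
  have h0 := h _ e hfam
  have hval : ∀ j, e j ⬝ᵥ keyOp Q n c (e j) = lam := by
    intro j
    rw [dotProduct_comm, ← hA ((bE j : E) : W) ((bE j : E) : W),
      Module.End.mem_eigenspace_iff.1 (bE j).2, real_inner_smul_left]
    have h1 : inner ℝ ((bE j : E) : W) ((bE j : E) : W) = (1 : ℝ) :=
      (inner_dot _ _).trans (hfam.norm j)
    rw [h1, mul_one]
  have hb : b i ∈ E := Module.End.mem_eigenspace_iff.2 (hsymA.apply_eigenvectorBasis rfl i)
  haveI : Nontrivial E := ⟨⟨⟨b i, hb⟩, 0, fun h => b.orthonormal.ne_zero i (congrArg Subtype.val h)⟩⟩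
  have hd : 0 < Module.finrank ℝ E := Module.finrank_pos
  simp only [ftr, hval, Finset.sum_const, Finset.card_univ, Fintype.card_fin, nsmul_eq_mul] at h0
  have hd' : (0 : ℝ) < Module.finrank ℝ E := by exact_mod_cast hd
  nlinarith [hi]

end Vale.Agent.P359
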