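import Vale.Agent.P359.KernelPoly
import Vale.Agent.P359.Basic

/-!
P359, kernel part two: antisymmetric vectors without relative momentum one pairs at the Laughlin
flux are multiples of the Laughlin vector; the energy vanishes exactly on them.
-/

namespace Vale.Agent.P359

open MvPolynomial Finset Equiv
open scoped ComplexConjugate

noncomputable section

variable {N Q : ℕ}

/-- Exponent of a configuration. -/
def cfgExp (x : Fin N → Fin (Q + 1)) : Fin N →₀ ℕ :=
  Finsupp.equivFunOnFinite.symm fun i => (x i : ℕ)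

@[simp] lemma cfgExp_apply (x : Fin N → Fin (Q + 1)) (i : Fin N) : cfgExp x i = (x i : ℕ) := rfl

lemma cfgExp_injective : Function.Injective (cfgExp (N := N) (Q := Q)) := fun x y h =>
  funext fun i => Fin.ext (DFunLike.congr_fun h i)

/-- Product of the square roots of the binomial weights. -/
def cfgWt (x : Fin N → Fin (Q + 1)) : ℂ := ((∏ i, Real.sqrt (Q.choose (x i) : ℝ) : ℝ) : ℂ)

lemma sqrt_choose_pos {k : ℕ} (hk : k ≤ Q) : 0 < Real.sqrt (Q.choose k : ℝ) :=
  Real.sqrt_pos.2 (Nat.cast_pos.2 (Nat.choose_pos hk))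

lemma cfgWt_ne_zero (x : Fin N → Fin (Q + 1)) : cfgWt x ≠ 0 :=
  Complex.ofReal_ne_zero.2 (prod_pos fun i _ => sqrt_choose_pos (Nat.le_of_lt_succ (x i).2)).ne'

/-- The polynomial of a vector in the affine chart. -/
def polyOf (Φ : (Fin N → Fin (Q + 1)) → ℂ) : MvPolynomial (Fin N) ℂ :=
  ∑ x, monomial (cfgExp x) (Φ x * cfgWt x)

lemma coeff_polyOf (Φ : (Fin N → Fin (Q + 1)) → ℂ) (x : Fin N → Fin (Q + 1)) :
    coeff (cfgExp x) (polyOf Φ) = Φ x * cfgWt x := by
  classical
  rw [polyOf, coeff_sum, sum_eq_single x (fun y _ hy => ?_) (by simp), coeff_monomial, if_pos rfl]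
  rw [coeff_monomial, if_neg fun h => hy (cfgExp_injective h)]

lemma coeff_polyOf_of_gt (Φ : (Fin N → Fin (Q + 1)) → ℂ) {d : Fin N →₀ ℕ} {k : Fin N}
    (hk : Q < d k) : coeff d (polyOf Φ) = 0 := by
  classical
  rw [polyOf, coeff_sum]
  refine sum_eq_zero fun x _ => ?_
  rw [coeff_monomial, if_neg]
  rintro rfl
  exact absurd (x k).2 (by simp at hk ⊢; omega)

lemma degreeOf_polyOf (Φ : (Fin N → Fin (Q + 1)) → ℂ) (k : Fin N) : degreeOf k (polyOf Φ) ≤ Q := by
  rw [degreeOf_le_iff]
  intro d hd
  by_contra h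
  exact mem_support_iff.1 hd (coeff_polyOf_of_gt Φ (not_le.1 h))

lemma polyOf_injective : Function.Injective (polyOf (N := N) (Q := Q)) := fun Φ Ψ h =>
  funext fun x => by
    have := congrArg (coeff (cfgExp x)) h
    rw [coeff_polyOf, coeff_polyOf] at this
    exact mul_right_cancel₀ (cfgWt_ne_zero x) this

lemma rename_polyOf (σ : Equiv.Perm (Fin N)) (Φ : (Fin N → Fin (Q + 1)) → ℂ) :
    rename σ (polyOf Φ) = polyOf fun y => Φ (y ∘ σ) := by
  rw [polyOf, map_sum, polyOf]
  refine Fintype.sum_equiv (Equiv.arrowCongr σ (Equiv.refl _)) _ _ fun x => ?_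
  have he : (Equiv.arrowCongr σ (Equiv.refl (Fin (Q + 1)))) x = x ∘ σ.symm := rfl
  rw [he, rename_monomial, Function.comp_assoc, Equiv.symm_comp_self, Function.comp_id]
  refine congrArg₂ (fun d c => monomial d c) ?_ ?_
  · ext k
    rw [show Finsupp.mapDomain σ (cfgExp x) k = cfgExp x (σ.symm k) by
      conv_lhs => rw [← σ.apply_symm_apply k]
      rw [Finsupp.mapDomain_apply σ.injective]]
    rfl
  · simp only [cfgWt, Function.comp_apply]
    congr 2
    exact (Equiv.prod_comp σ.symm fun i => Real.sqrt (Q.choose (x i) : ℝ)).symm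

lemma polyOf_const_mul (c : ℂ) (Φ : (Fin N → Fin (Q + 1)) → ℂ) :
    (polyOf fun x => c * Φ x) = C c * polyOf Φ := by
  rw [polyOf, polyOf, mul_sum]
  exact sum_congr rfl fun x _ => by rw [C_mul_monomial, mul_assoc]

lemma antisym_iff_rename (Φ : (Fin N → Fin (Q + 1)) → ℂ) :
    Antisym Φ ↔ ∀ σ : Equiv.Perm (Fin N),
      rename σ (polyOf Φ) = ((Equiv.Perm.sign σ : ℤ) : MvPolynomial (Fin N) ℂ) * polyOf Φ := by
  constructor
  · intro h σ
    rw [rename_polyOf, show (fun y => Φ (y ∘ σ))
      = fun y => ((Equiv.Perm.sign σ : ℤ) : ℂ) * Φ y from funext (h σ), polyOf_const_mul, map_intCast]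
  · intro h σ x
    have := h σ
    rw [rename_polyOf, ← map_intCast (C : ℂ →+* MvPolynomial (Fin N) ℂ), ← polyOf_const_mul] at this
    exact congrFun (polyOf_injective this) x

/-- The contraction of a vector with the pair state `M` at the slots `i, j`. -/
def phiContr (i j : Fin N) (M : ℕ) (Φ : (Fin N → Fin (Q + 1)) → ℂ) (x : Fin N → Fin (Q + 1)) : ℂ :=
  ∑ a : Fin (Q + 1), ∑ b : Fin (Q + 1),
    (phi Q M a b : ℂ) * Φ (Function.update (Function.update x i a) j b)

/-- Exponent after merging the slots `i, j` and differentiating once. -/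
def mergeExp (i j : Fin N) (d : Fin N →₀ ℕ) : Fin N →₀ ℕ :=
  Finsupp.equivFunOnFinite.symm fun k => if k = i then 0 else if k = j then d i + d j - 1 else d k

lemma mapDomain_merge {i j : Fin N} (hij : i ≠ j) (d : Fin N →₀ ℕ) (k : Fin N) :
    Finsupp.mapDomain (fun m => if m = i then j else m) d k
      = if k = i then 0 else if k = j then d i + d j else d k := by
  classical
  rw [Finsupp.mapDomain, Finsupp.sum_apply, Finsupp.sum_fintype _ _ (by simp)]
  simp only [Finsupp.single_apply]
  rcases eq_or_ne k i with rfl | hki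
  · rw [if_pos rfl]
    refine sum_eq_zero fun m _ => if_neg ?_
    split_ifs with h
    · exact hij.symm
    · exact h
  rw [if_neg hki]
  rcases eq_or_ne k j with rfl | hkj
  · rw [if_pos rfl, ← add_sum_erase _ _ (mem_univ i), if_pos (if_pos rfl)]
    congr 1
    rw [sum_eq_single k]
    · simp [hki]
    · intro m hm hmk
      simp [(mem_erase.1 hm).1, hmk]
    · simp [hki]
  · rw [if_neg hkj, sum_eq_single k]
    · simp [hki]
    · intro m _ hmk
      split_ifs with h1 h2 <;> simp_all [Ne.symm hkj]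
    · simp

lemma mergeVar_pderiv_monomial {i j : Fin N} (hij : i ≠ j) {s : Fin N} (hs : s = i ∨ s = j)
    (d : Fin N →₀ ℕ) (c : ℂ) :
    mergeVar i j (pderiv s (monomial d c)) = monomial (mergeExp i j d) (c * d s) := by
  rw [pderiv_monomial]
  by_cases h0 : d s = 0
  · simp [h0]
  have hrn : ∀ p, mergeVar i j p = rename (fun m => if m = i then j else m) p := by
    intro p
    have : mergeVar i j = rename (R := ℂ) (fun m => if m = i then j else m) := by
      refine algHom_ext fun k => ?_
      rw [mergeVar_X, rename_X]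
      split_ifs <;> rfl
    rw [this]
  rw [hrn, rename_monomial]
  refine congrArg (fun d => monomial d (c * _)) (Finsupp.ext fun k => ?_)
  rw [mapDomain_merge hij]
  simp only [mergeExp, Finsupp.tsub_apply, Finsupp.single_apply]
  rcases hs with rfl | rfl
  · simp only [Finsupp.equivFunOnFinite_symm_apply_apply, hij, if_false, if_true]
    split_ifs <;> first | omega | simp_all
  · simp only [Finsupp.equivFunOnFinite_symm_apply_apply, hij.symm, if_false, if_true]
    split_ifs <;> first | omega | simp_all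

lemma pairContr_polyOf {i j : Fin N} (hij : i ≠ j) (Φ : (Fin N → Fin (Q + 1)) → ℂ) :
    pairContr i j (polyOf Φ) = ∑ x, monomial (mergeExp i j (cfgExp x))
      (Φ x * cfgWt x * (((x j : ℕ) : ℂ) - ((x i : ℕ) : ℂ))) := by
  rw [pairContr, polyOf, map_sum, map_sum, ← sum_sub_distrib, map_sum]
  refine sum_congr rfl fun x _ => ?_
  rw [map_sub, mergeVar_pderiv_monomial hij (Or.inr rfl), mergeVar_pderiv_monomial hij (Or.inl rfl),
    ← map_sub, ← mul_sub]
  rfl

/-- Exponent of the coefficient which records the contraction `M` around `x`. -/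
def targetExp (i j : Fin N) (M : ℕ) (x : Fin N → Fin (Q + 1)) : Fin N →₀ ℕ :=
  Finsupp.equivFunOnFinite.symm fun k => if k = i then 0 else if k = j then M else (x k : ℕ)

lemma cfgWt_update {i j : Fin N} (hij : i ≠ j) (x : Fin N → Fin (Q + 1)) (a b : Fin (Q + 1)) :
    cfgWt (Function.update (Function.update x i a) j b)
      = ((Real.sqrt (Q.choose a : ℝ) * Real.sqrt (Q.choose b : ℝ) *
          ∏ k ∈ (univ.erase i).erase j, Real.sqrt (Q.choose (x k) : ℝ) : ℝ) : ℂ) := by
  rw [cfgWt]
  congr 1
  rw [← mul_prod_erase univ _ (mem_univ i),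
    ← mul_prod_erase (univ.erase i) _ (mem_erase.2 ⟨hij.symm, mem_univ j⟩), ← mul_assoc]
  congr 1
  · rw [Function.update_of_ne hij, Function.update_self, Function.update_self]
  · refine prod_congr rfl fun k hk => ?_
    rw [Function.update_of_ne (mem_erase.1 hk).1,
      Function.update_of_ne (mem_erase.1 (mem_erase.1 hk).2).1]

lemma coeff_pairContr {i j : Fin N} (hij : i ≠ j) (Φ : (Fin N → Fin (Q + 1)) → ℂ) {M : ℕ}
    (hM : M < 2 * Q - 1) (x : Fin N → Fin (Q + 1)) :
    ∃ K : ℂ, K ≠ 0 ∧
      coeff (targetExp i j M x) (pairContr i j (polyOf Φ)) = K * phiContr i j M Φ x := by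
  classical
  have hpos : (0 : ℝ) < 2 * Q * ((2 * Q - 2).choose M) := by
    have : 0 < Q := by omega
    have := Nat.choose_pos (show M ≤ 2 * Q - 2 by omega)
    positivity
  refine ⟨((Real.sqrt (2 * Q * ((2 * Q - 2).choose M)) *
      ∏ k ∈ (univ.erase i).erase j, Real.sqrt (Q.choose (x k) : ℝ) : ℝ) : ℂ), ?_, ?_⟩
  · exact Complex.ofReal_ne_zero.2 (mul_pos (Real.sqrt_pos.2 hpos)
      (prod_pos fun k _ => sqrt_choose_pos (Nat.le_of_lt_succ (x k).2))).ne'
  rw [pairContr_polyOf hij, coeff_sum, phiContr, ← Fintype.sum_prod_type', mul_sum]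
  symm
  refine Fintype.sum_of_injective (fun ab : Fin (Q + 1) × Fin (Q + 1) =>
    Function.update (Function.update x i ab.1) j ab.2) ?_ _ _ ?_ ?_
  · intro p q h
    have h1 := congrFun h i
    have h2 := congrFun h j
    simp [Function.update_of_ne hij] at h1 h2
    exact Prod.ext h1 h2
  · intro y hy
    rw [coeff_monomial, if_neg]
    intro he
    refine hy ⟨(y i, y j), funext fun k => ?_⟩
    rcases eq_or_ne k j with rfl | hkj
    · simp
    rcases eq_or_ne k i with rfl | hki
    · simp [Function.update_of_ne hkj]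
    · have := DFunLike.congr_fun he k
      simp [mergeExp, targetExp, hki, hkj] at this
      simp [Function.update_of_ne hkj, Function.update_of_ne hki, Fin.ext_iff, this]
  · rintro ⟨a, b⟩
    rw [coeff_monomial, cfgWt_update hij]
    simp only [Function.update_of_ne hij, Function.update_self]
    have hexp : mergeExp i j (cfgExp (Function.update (Function.update x i a) j b))
        = targetExp i j M x ↔ (a : ℕ) + b - 1 = M := by
      constructor
      · intro h
        simpa [mergeExp, targetExp, hij, hij.symm, Function.update_of_ne hij] using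
          DFunLike.congr_fun h j
      · intro h
        ext k
        rcases eq_or_ne k i with rfl | hki
        · simp [mergeExp, targetExp]
        rcases eq_or_ne k j with rfl | hkj
        · simp [mergeExp, targetExp, hki, Function.update_of_ne hij, h]
        · simp [mergeExp, targetExp, hki, hkj]
    by_cases hT : (a : ℕ) + b = M + 1
    · rw [if_pos (hexp.2 (by omega)), phi,
        if_pos ⟨hT, Nat.le_of_lt_succ a.2, Nat.le_of_lt_succ b.2⟩,
        Real.sqrt_div' _ hpos.le, Real.sqrt_mul (Nat.cast_nonneg _)]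
      push_cast
      have : ((Real.sqrt (2 * Q * ((2 * Q - 2).choose M)) : ℝ) : ℂ) ≠ 0 :=
        Complex.ofReal_ne_zero.2 (Real.sqrt_pos.2 hpos).ne'
      field_simp
    · rw [phi, if_neg fun h => hT h.1]
      split_ifs with h
      · have hab : (a : ℕ) = b := by
          have := hexp.1 h
          omega
        simp [hab]
      · simp

lemma pairContr_eq_zero_iff {i j : Fin N} (hij : i ≠ j) (Φ : (Fin N → Fin (Q + 1)) → ℂ) :
    pairContr i j (polyOf Φ) = 0 ↔ ∀ M, M < 2 * Q - 1 → ∀ x, phiContr i j M Φ x = 0 := by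
  classical
  constructor
  · intro h M hM x
    obtain ⟨K, hK, e⟩ := coeff_pairContr hij Φ hM x
    rw [h, coeff_zero] at e
    exact (mul_eq_zero.1 e.symm).resolve_left hK
  · intro h
    ext d
    rw [coeff_zero]
    by_contra hne
    have hne0 := hne
    rw [pairContr_polyOf hij, coeff_sum] at hne0
    obtain ⟨y, -, hy⟩ := exists_ne_zero_of_sum_ne_zero hne0
    rw [coeff_monomial] at hy
    split_ifs at hy with hd
    · have hyij : (y i : ℕ) ≠ y j := by
        intro e
        rw [e, sub_self, mul_zero] at hy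
        exact hy rfl
      have h1 := (y i).2
      have h2 := (y j).2
      have hd' : targetExp i j ((y i : ℕ) + y j - 1) y = d := by
        rw [← hd]
        ext k
        simp [targetExp, mergeExp]
      obtain ⟨K, -, e⟩ := coeff_pairContr hij Φ (M := (y i : ℕ) + y j - 1) (by omega) y
      rw [hd', h _ (by omega), mul_zero] at e
      exact hne e
    · exact hy rfl

lemma isWeightedHomogeneous_laughlinPoly (k : Fin N) :
    IsWeightedHomogeneous (fun q : Fin N × Bool => if q.1 = k then 1 else 0) (laughlinPoly N)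
      (3 * (N - 1)) := by
  rw [← card_pairs_containing k, card_filter, mul_sum, laughlinPoly]
  refine IsWeightedHomogeneous.prod _ _ _ fun p hp => ?_
  have hne := (mem_filter.1 hp).2.ne
  have hX := fun q : Fin N × Bool =>
    isWeightedHomogeneous_X ℤ (fun q : Fin N × Bool => if q.1 = k then 1 else 0) q
  have h1 := (hX (p.1, false)).mul (hX (p.2, true))
  have h2 := (hX (p.2, false)).mul (hX (p.1, true))
  rw [add_comm] at h2
  have h3 := (h1.sub h2).pow 3
  simp only [smul_eq_mul] at h3
  have e : 3 * (if k = p.1 ∨ k = p.2 then 1 else 0)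
      = 3 * ((if p.1 = k then 1 else 0) + if p.2 = k then 1 else 0) := by
    split_ifs <;> simp_all [eq_comm]
  rw [e]
  exact h3

lemma aeval_laughlinPoly :
    aeval (fun q : Fin N × Bool => if q.2 then (X q.1 : MvPolynomial (Fin N) ℂ) else 1)
      (laughlinPoly N) = affPoly N := by
  rw [laughlinPoly, map_prod, affPoly]
  refine prod_congr rfl fun p _ => ?_
  simp

lemma coeff_affPoly (x : Fin N → Fin (3 * (N - 1) + 1)) :
    coeff (cfgExp x) (affPoly N) = ((coeff (Finsupp.equivFunOnFinite.symm fun p : Fin N × Bool =>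
      if p.2 then (x p.1 : ℕ) else 3 * (N - 1) - (x p.1 : ℕ)) (laughlinPoly N) : ℤ) : ℂ) := by
  classical
  set e := Finsupp.equivFunOnFinite.symm fun p : Fin N × Bool =>
    if p.2 then (x p.1 : ℕ) else 3 * (N - 1) - (x p.1 : ℕ) with he
  have hmono : ∀ d : Fin N × Bool →₀ ℕ, ∀ c : ℤ,
      aeval (fun q : Fin N × Bool => if q.2 then (X q.1 : MvPolynomial (Fin N) ℂ) else 1)
        (monomial d c) = monomial (Finsupp.equivFunOnFinite.symm fun k => d (k, true)) (c : ℂ) := by
    intro d c
    rw [aeval_monomial, monomial_eq, Finsupp.prod_fintype _ _ (by simp),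
      Finsupp.prod_fintype _ _ (by simp), Fintype.prod_prod_type]
    simp
  rw [← aeval_laughlinPoly]
  conv_lhs => rw [(laughlinPoly N).as_sum, map_sum, coeff_sum]
  rw [sum_eq_single e]
  · rw [hmono, coeff_monomial, if_pos]
    ext k
    simp [he]
  · intro d hd hde
    rw [hmono, coeff_monomial, if_neg]
    intro h
    refine hde (Finsupp.ext fun q => ?_)
    obtain ⟨k, b⟩ := q
    have hw := isWeightedHomogeneous_laughlinPoly k (mem_support_iff.1 hd)
    rw [Finsupp.weight_apply, Finsupp.sum_fintype _ _ (by simp), Fintype.sum_prod_type,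
      sum_eq_single k (fun m _ hm => by simp [hm]) (by simp)] at hw
    simp at hw
    have ht := DFunLike.congr_fun h k
    simp at ht
    cases b
    · simp [he]; omega
    · simp [he, ht]
  · intro h
    rw [hmono, notMem_support_iff.1 h]
    simp

lemma polyOf_laughlin : polyOf (laughlin N) = affPoly N := by
  ext d
  by_cases h : ∃ k, 3 * (N - 1) < d k
  · obtain ⟨k, hk⟩ := h
    rw [coeff_polyOf_of_gt _ hk]
    by_contra hne
    have := monomial_le_degreeOf k (mem_support_iff.2 (Ne.symm hne))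
    rw [degreeOf_affPoly] at this
    omega
  · simp only [not_exists, not_lt] at h
    obtain ⟨x, rfl⟩ : ∃ x : Fin N → Fin (3 * (N - 1) + 1), cfgExp x = d :=
      ⟨fun k => ⟨d k, Nat.lt_succ_of_le (h k)⟩, Finsupp.ext fun k => rfl⟩
    rw [coeff_polyOf, coeff_affPoly, laughlin, cfgWt]
    have hp : (((∏ i, Real.sqrt ((3 * (N - 1)).choose (x i) : ℝ) : ℝ)) : ℂ) ≠ 0 := cfgWt_ne_zero x
    rw [Complex.ofReal_div, div_mul_cancel₀ _ hp, Complex.ofReal_intCast]

/-- The Laughlin vector is not zero. -/
theorem laughlin_ne_zero : laughlin N ≠ 0 := by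
  intro h
  refine affPoly_ne_zero (N := N) ?_
  rw [← polyOf_laughlin, h]
  simp [polyOf]

/-- The Laughlin vector is antisymmetric. -/
theorem laughlin_antisym : Antisym (laughlin N) := by
  rw [antisym_iff_rename, polyOf_laughlin]
  exact rename_affPoly

/-- The Laughlin vector has no pair of relative momentum one. -/
theorem laughlin_phi {i j : Fin N} (hij : i < j) (M : ℕ) (hM : M < 2 * (3 * (N - 1)) - 1)
    (x : Fin N → Fin (3 * (N - 1) + 1)) :
    ∑ a : Fin (3 * (N - 1) + 1), ∑ b : Fin (3 * (N - 1) + 1),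
      (phi (3 * (N - 1)) M a b : ℂ) *
        laughlin N (Function.update (Function.update x i a) j b) = 0 := by
  refine (pairContr_eq_zero_iff hij.ne (laughlin N)).1 ?_ M hM x
  rw [polyOf_laughlin, pairContr_affPoly hij]

/-- An antisymmetric vector without pairs of relative momentum one is a Laughlin multiple. -/
theorem kernel_unique {Φ : (Fin N → Fin (3 * (N - 1) + 1)) → ℂ} (hΦ : Antisym Φ)
    (h0 : ∀ i j : Fin N, i < j → ∀ M, M < 2 * (3 * (N - 1)) - 1 → ∀ x,
      ∑ a : Fin (3 * (N - 1) + 1), ∑ b : Fin (3 * (N - 1) + 1),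
        (phi (3 * (N - 1)) M a b : ℂ) * Φ (Function.update (Function.update x i a) j b) = 0) :
    ∃ t : ℂ, Φ = t • laughlin N := by
  obtain ⟨t, ht⟩ := eq_C_mul_affPoly (degreeOf_polyOf Φ) ((antisym_iff_rename Φ).1 hΦ)
    fun i j hij => (pairContr_eq_zero_iff hij.ne Φ).2 (h0 i j hij)
  refine ⟨t, polyOf_injective ?_⟩
  rw [ht, ← polyOf_laughlin, ← polyOf_const_mul]
  rfl

/-- Averaging over the values at two slots. -/
lemma sum_update_pair {i j : Fin N} (hij : i ≠ j) (f : (Fin N → Fin (Q + 1)) → ℂ) :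
    ∑ x, ∑ a, ∑ b, f (Function.update (Function.update x i a) j b)
      = ((Q + 1 : ℕ) : ℂ) ^ 2 * ∑ x, f x := by
  let e : (Fin N → Fin (Q + 1)) × Fin (Q + 1) × Fin (Q + 1) →
      (Fin N → Fin (Q + 1)) × Fin (Q + 1) × Fin (Q + 1) := fun t =>
    (Function.update (Function.update t.1 i t.2.1) j t.2.2, t.1 i, t.1 j)
  have he : Function.Involutive e := by
    rintro ⟨x, a, b⟩
    simp only [e, Prod.mk.injEq]
    refine ⟨funext fun k => ?_, ?_, ?_⟩
    · rcases eq_or_ne k j with rfl | hkj
      · simp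
      rcases eq_or_ne k i with rfl | hki
      · simp [Function.update_of_ne hkj]
      · simp [Function.update_of_ne hkj, Function.update_of_ne hki]
    · simp [Function.update_of_ne hij]
    · simp
  have h : ∑ t, f (e t).1 = ∑ t : (Fin N → Fin (Q + 1)) × Fin (Q + 1) × Fin (Q + 1), f t.1 :=
    Equiv.sum_comp (he.toPerm e) fun t => f t.1
  rw [Fintype.sum_prod_type, Fintype.sum_prod_type] at h
  simp only [Fintype.sum_prod_type] at h
  refine h.trans ?_
  simp only [sum_const, card_univ, Fintype.card_fin, nsmul_eq_mul, mul_sum]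
  exact sum_congr rfl fun x _ => by ring

lemma sum4_swap {A B R : Type*} [Fintype A] [Fintype B] [AddCommMonoid R] (f : A → B → A → B → R) :
    ∑ a, ∑ b, ∑ c, ∑ d, f a b c d = ∑ a, ∑ b, ∑ c, ∑ d, f c d a b := by
  calc ∑ a, ∑ b, ∑ c, ∑ d, f a b c d
      = ∑ a, ∑ c, ∑ b, ∑ d, f a b c d := sum_congr rfl fun a _ => sum_comm
    _ = ∑ c, ∑ a, ∑ b, ∑ d, f a b c d := sum_comm
    _ = ∑ c, ∑ a, ∑ d, ∑ b, f a b c d :=
        sum_congr rfl fun c _ => sum_congr rfl fun a _ => sum_comm
    _ = ∑ c, ∑ d, ∑ a, ∑ b, f a b c d := sum_congr rfl fun c _ => sum_comm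

lemma pair_term {i j : Fin N} (hij : i ≠ j) (Φ : (Fin N → Fin (Q + 1)) → ℂ) :
    ((Q + 1 : ℕ) : ℂ) ^ 2 *
        ∑ x, conj (Φ x) * ∑ a, ∑ b, (proj1 Q (x i, x j) (a, b) : ℂ) *
          Φ (Function.update (Function.update x i a) j b)
      = ((∑ x, ∑ M : Fin (2 * Q - 1), ‖phiContr i j M Φ x‖ ^ 2 : ℝ) : ℂ) := by
  rw [← sum_update_pair hij]
  push_cast
  refine sum_congr rfl fun x _ => ?_
  simp only [Function.update_of_ne hij, Function.update_self, Function.update_idem,
    Function.update_comm hij, ← Complex.conj_mul', phiContr, map_sum, map_mul, Complex.conj_ofReal,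
    proj1, Complex.ofReal_sum, Complex.ofReal_mul, sum_mul, mul_sum]
  have hu : ∀ a b a' b' : Fin (Q + 1),
      Function.update (Function.update (Function.update (Function.update x i a) j b) i a') j b'
        = Function.update (Function.update x i a') j b' := by
    intro a b a' b'
    ext k
    rcases eq_or_ne k j with rfl | hkj
    · simp
    rcases eq_or_ne k i with rfl | hki
    · simp [Function.update_of_ne hkj]
    · simp [Function.update_of_ne hkj, Function.update_of_ne hki]
  conv_rhs => enter [2, M]; rw [sum4_swap]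
  rw [sum_comm (s := (univ : Finset (Fin (2 * Q - 1))))]
  refine sum_congr rfl fun a _ => ?_
  rw [sum_comm (s := (univ : Finset (Fin (2 * Q - 1))))]
  refine sum_congr rfl fun b _ => ?_
  rw [sum_comm (s := (univ : Finset (Fin (2 * Q - 1))))]
  refine sum_congr rfl fun a' _ => ?_
  rw [sum_comm (s := (univ : Finset (Fin (2 * Q - 1))))]
  refine sum_congr rfl fun b' _ => sum_congr rfl fun M _ => ?_
  ring

/-- The energy is a sum of squared contractions. -/
theorem energy_eq_contr (hP : ∀ p q, pairProj Q p q = ((proj1 Q p q : ℝ) : ℂ))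
    (Φ : (Fin N → Fin (Q + 1)) → ℂ) :
    ((Q + 1 : ℕ) : ℝ) ^ 2 * energy N Q Φ
      = ∑ i, ∑ j, if i < j then ∑ x, ∑ M : Fin (2 * Q - 1), ‖phiContr i j M Φ x‖ ^ 2 else 0 := by
  have h : ((Q + 1 : ℕ) : ℂ) ^ 2 * (∑ x, conj (Φ x) * ∑ i, ∑ j, if i < j then
      ∑ a, ∑ b, pairProj Q (x i, x j) (a, b) * Φ (Function.update (Function.update x i a) j b)
      else 0) = ((∑ i, ∑ j, if i < j then
        ∑ x, ∑ M : Fin (2 * Q - 1), ‖phiContr i j M Φ x‖ ^ 2 else 0 : ℝ) : ℂ) := by
    simp only [mul_sum (s := (univ : Finset (Fin N))), hP]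
    rw [sum_comm, Complex.ofReal_sum]
    simp only [mul_sum (s := (univ : Finset (Fin N)))]
    refine sum_congr rfl fun i _ => ?_
    rw [sum_comm, Complex.ofReal_sum]
    simp only [mul_sum (s := (univ : Finset (Fin N)))]
    refine sum_congr rfl fun j _ => ?_
    split_ifs with hij
    · rw [pair_term hij.ne]
    · simp
  have h' := congrArg Complex.re h
  rwa [Complex.ofReal_re, ← Complex.ofReal_natCast, ← Complex.ofReal_pow, Complex.re_ofReal_mul] at h'

/-- The energy is nonnegative. -/
theorem energy_nonneg (hP : ∀ p q, pairProj Q p q = ((proj1 Q p q : ℝ) : ℂ))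
    (Φ : (Fin N → Fin (Q + 1)) → ℂ) : 0 ≤ energy N Q Φ := by
  refine nonneg_of_mul_nonneg_right ?_ (by positivity : (0 : ℝ) < ((Q + 1 : ℕ) : ℝ) ^ 2)
  rw [energy_eq_contr hP]
  exact sum_nonneg fun i _ => sum_nonneg fun j _ => by split_ifs <;> positivity

/-- The energy vanishes exactly when all pair contractions vanish. -/
theorem energy_eq_zero_iff (hP : ∀ p q, pairProj Q p q = ((proj1 Q p q : ℝ) : ℂ))
    (Φ : (Fin N → Fin (Q + 1)) → ℂ) :
    energy N Q Φ = 0 ↔ ∀ i j : Fin N, i < j → ∀ M, M < 2 * Q - 1 → ∀ x,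
      ∑ a : Fin (Q + 1), ∑ b : Fin (Q + 1),
        (phi Q M a b : ℂ) * Φ (Function.update (Function.update x i a) j b) = 0 := by
  have hc : ((Q + 1 : ℕ) : ℝ) ^ 2 ≠ 0 := by positivity
  rw [← mul_eq_zero_iff_left hc, energy_eq_contr hP]
  constructor
  · intro h i j hij M hM x
    rw [sum_eq_zero_iff_of_nonneg fun i _ => sum_nonneg fun j _ => by split_ifs <;> positivity] at h
    have h1 := (sum_eq_zero_iff_of_nonneg fun j _ => by split_ifs <;> positivity).1
      (h i (mem_univ i)) j (mem_univ j)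
    rw [if_pos hij] at h1
    have h2 := (sum_eq_zero_iff_of_nonneg fun x _ => by positivity).1 h1 x (mem_univ x)
    have h3 := (sum_eq_zero_iff_of_nonneg fun M _ => by positivity).1 h2 ⟨M, hM⟩ (mem_univ _)
    exact norm_eq_zero.1 (pow_eq_zero_iff two_ne_zero |>.1 h3)
  · intro h
    refine sum_eq_zero fun i _ => sum_eq_zero fun j _ => ?_
    split_ifs with hij
    · refine sum_eq_zero fun x _ => sum_eq_zero fun M _ => ?_
      rw [phiContr, h i j hij M M.2 x, norm_zero, zero_pow two_ne_zero]
    · rfl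

/-- The Laughlin vector has energy zero. -/
theorem laughlin_energy_zero
    (hP : ∀ p q, pairProj (3 * (N - 1)) p q = ((proj1 (3 * (N - 1)) p q : ℝ) : ℂ)) :
    energy N (3 * (N - 1)) (laughlin N) = 0 :=
  (energy_eq_zero_iff hP _).2 fun _ _ hij M hM x => laughlin_phi hij M hM x

/-- Zero energy antisymmetric vectors are Laughlin multiples. -/
theorem kernel_unique_energy
    (hP : ∀ p q, pairProj (3 * (N - 1)) p q = ((proj1 (3 * (N - 1)) p q : ℝ) : ℂ))
    (Φ : (Fin N → Fin (3 * (N - 1) + 1)) → ℂ) (hΦ : Antisym Φ)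
    (h0 : energy N (3 * (N - 1)) Φ = 0) : ∃ t : ℂ, Φ = t • laughlin N :=
  kernel_unique hΦ ((energy_eq_zero_iff hP Φ).1 h0)

end

end Vale.Agent.P359
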