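import Vale.Agent.P359.Defs

/-!
P359, kernel part one: the divisibility argument for the Laughlin polynomial in the affine chart.
-/

namespace Vale.Agent.P359

open MvPolynomial Finset Equiv

noncomputable section

variable {N : ℕ}

/-- Substitution of variable `j` for variable `i`. -/
def mergeVar (i j : Fin N) : MvPolynomial (Fin N) ℂ →ₐ[ℂ] MvPolynomial (Fin N) ℂ :=
  aeval fun k => if k = i then X j else X k

lemma mergeVar_X (i j k : Fin N) :
    mergeVar i j (X k) = if k = i then X j else X k := by simp [mergeVar]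

lemma dvd_sub_mergeVar (i j : Fin N) (p : MvPolynomial (Fin N) ℂ) :
    (X i - X j : MvPolynomial (Fin N) ℂ) ∣ p - mergeVar i j p := by
  induction p using MvPolynomial.induction_on with
  | C a => simp [mergeVar]
  | add p q hp hq =>
    rw [map_add, add_sub_add_comm]
    exact dvd_add hp hq
  | mul_X p k hp =>
    have h : (X i - X j : MvPolynomial (Fin N) ℂ) ∣ X k - mergeVar i j (X k) := by
      rw [mergeVar_X]
      split_ifs with h
      · rw [h]
      · simp
    rw [map_mul, show p * X k - mergeVar i j p * mergeVar i j (X k)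
      = (p - mergeVar i j p) * X k + mergeVar i j p * (X k - mergeVar i j (X k)) by ring]
    exact dvd_add (hp.mul_right _) (h.mul_left _)

lemma mergeVar_sub (i j : Fin N) : mergeVar i j (X i - X j) = 0 := by
  rw [map_sub, mergeVar_X, mergeVar_X, if_pos rfl]
  split_ifs <;> simp

lemma dvd_iff_mergeVar {i j : Fin N} (p : MvPolynomial (Fin N) ℂ) :
    (X i - X j : MvPolynomial (Fin N) ℂ) ∣ p ↔ mergeVar i j p = 0 := by
  constructor
  · rintro ⟨q, rfl⟩
    rw [map_mul, mergeVar_sub, zero_mul]
  · intro h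
    simpa [h] using dvd_sub_mergeVar i j p

lemma X_sub_X_ne_zero {i j : Fin N} (hij : i ≠ j) : (X i - X j : MvPolynomial (Fin N) ℂ) ≠ 0 :=
  sub_ne_zero.2 fun h => hij (X_injective h)

lemma prime_X_sub_X {i j : Fin N} (hij : i ≠ j) :
    Prime (X i - X j : MvPolynomial (Fin N) ℂ) := by
  refine ⟨X_sub_X_ne_zero hij, fun hu => ?_, fun a b hab => ?_⟩
  · have := (mergeVar_sub i j) ▸ hu.map (mergeVar i j)
    exact not_isUnit_zero this
  · rw [dvd_iff_mergeVar, map_mul, mul_eq_zero] at hab
    exact hab.imp (dvd_iff_mergeVar a).2 (dvd_iff_mergeVar b).2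

lemma rename_swap_sub (i j : Fin N) :
    rename (Equiv.swap i j) (X i - X j : MvPolynomial (Fin N) ℂ) = -(X i - X j) := by
  simp

lemma mergeVar_eq_zero_of_anti {i j : Fin N} {p : MvPolynomial (Fin N) ℂ}
    (h : rename (Equiv.swap i j) p = -p) : mergeVar i j p = 0 := by
  have hc : (mergeVar i j).comp (rename (Equiv.swap i j)) = mergeVar i j := by
    refine algHom_ext fun k => ?_
    simp only [AlgHom.comp_apply, rename_X, mergeVar_X, Equiv.swap_apply_def]
    split_ifs <;> simp_all
  have h2 := congrArg (fun f => f p) hc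
  simp only [AlgHom.comp_apply, h, map_neg] at h2
  exact CharZero.eq_neg_self_iff.1 h2.symm

/-- The contraction polynomial of the pair `i, j`. -/
def pairContr (i j : Fin N) (p : MvPolynomial (Fin N) ℂ) : MvPolynomial (Fin N) ℂ :=
  mergeVar i j (pderiv j p - pderiv i p)

lemma cube_dvd {i j : Fin N} (hij : i ≠ j) {p : MvPolynomial (Fin N) ℂ}
    (ha : rename (Equiv.swap i j) p = -p) (hc : pairContr i j p = 0) :
    (X i - X j : MvPolynomial (Fin N) ℂ) ^ 3 ∣ p := by
  have hL : (X i - X j : MvPolynomial (Fin N) ℂ) ≠ 0 := X_sub_X_ne_zero hij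
  obtain ⟨q, rfl⟩ := (dvd_iff_mergeVar p).2 (mergeVar_eq_zero_of_anti ha)
  have hq : rename (Equiv.swap i j) q = q := by
    rw [map_mul, rename_swap_sub, neg_mul, neg_inj] at ha
    exact mul_left_cancel₀ hL ha
  have hq0 : mergeVar i j q = 0 := by
    have e : pairContr i j ((X i - X j) * q) = (-2 : ℂ) • mergeVar i j q := by
      simp only [pairContr, pderiv_mul, map_sub, pderiv_X, map_add, map_mul, mergeVar_sub]
      simp [Pi.single_eq_of_ne hij, Pi.single_eq_of_ne (Ne.symm hij), mergeVar_X, two_smul]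
      ring
    rw [hc] at e
    exact (smul_eq_zero.1 e.symm).resolve_left (by norm_num)
  obtain ⟨r, rfl⟩ := (dvd_iff_mergeVar q).2 hq0
  have hr : rename (Equiv.swap i j) r = -r := by
    rw [map_mul, rename_swap_sub, neg_mul, ← mul_neg] at hq
    have := mul_left_cancel₀ hL (a := (X i - X j)) (b := -rename (Equiv.swap i j) r) (c := r)
      (by linear_combination hq)
    exact neg_eq_iff_eq_neg.1 this
  obtain ⟨s, rfl⟩ := (dvd_iff_mergeVar r).2 (mergeVar_eq_zero_of_anti hr)
  exact ⟨s, by ring⟩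

lemma pairContr_cube_mul {i j : Fin N} (s : MvPolynomial (Fin N) ℂ) :
    pairContr i j ((X i - X j) ^ 3 * s) = 0 := by
  simp only [pairContr, pderiv_mul, pderiv_pow, map_sub, map_add, map_mul, map_pow, map_natCast]
  have h : mergeVar i j (X i) - mergeVar i j (X j) = 0 := by rw [← map_sub, mergeVar_sub]
  rw [h]
  simp

/-- The affine Laughlin polynomial. -/
def affPoly (N : ℕ) : MvPolynomial (Fin N) ℂ :=
  ∏ p ∈ (univ : Finset (Fin N × Fin N)).filter (fun p => p.1 < p.2), (X p.2 - X p.1) ^ 3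

lemma affPoly_ne_zero : affPoly N ≠ 0 := by
  refine prod_ne_zero_iff.2 fun p hp => pow_ne_zero _ (X_sub_X_ne_zero ?_)
  exact (mem_filter.1 hp).2.ne'

lemma affPoly_eq_det : affPoly N = (Matrix.vandermonde (X : Fin N → MvPolynomial (Fin N) ℂ)).det ^ 3 := by
  rw [Matrix.det_vandermonde, affPoly, ← prod_pow, univ_product_univ.symm, prod_filter, prod_product]
  refine prod_congr rfl fun i _ => ?_
  rw [← prod_pow, ← prod_filter]
  refine prod_congr ?_ fun _ _ => rfl
  ext j
  simp

lemma rename_affPoly (σ : Equiv.Perm (Fin N)) :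
    rename σ (affPoly N) = ((Equiv.Perm.sign σ : ℤ) : MvPolynomial (Fin N) ℂ) * affPoly N := by
  rw [affPoly_eq_det, map_pow, AlgHom.map_det]
  have : (rename σ : MvPolynomial (Fin N) ℂ →ₐ[ℂ] _).mapMatrix (Matrix.vandermonde X)
      = (Matrix.vandermonde (X : Fin N → MvPolynomial (Fin N) ℂ)).submatrix σ id := by
    ext a b
    simp [Matrix.vandermonde]
  rw [this, Matrix.det_permute, mul_pow]
  rcases Int.units_eq_one_or (Equiv.Perm.sign σ) with h | h <;> simp [h, pow_succ]

lemma pairContr_affPoly {i j : Fin N} (hij : i < j) : pairContr i j (affPoly N) = 0 := by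
  have hm : (i, j) ∈ (univ : Finset (Fin N × Fin N)).filter (fun p => p.1 < p.2) := by simpa
  rw [affPoly, ← mul_prod_erase _ _ hm]
  have e : ((X j - X i : MvPolynomial (Fin N) ℂ)) ^ 3 = -(X i - X j) ^ 3 := by ring
  rw [show ((i, j) : Fin N × Fin N).2 = j from rfl, show ((i, j) : Fin N × Fin N).1 = i from rfl,
    e, neg_mul, ← mul_neg, pairContr_cube_mul]

lemma degreeOf_X_sub_X {i j : Fin N} (hij : i ≠ j) (k : Fin N) :
    degreeOf k (X i - X j : MvPolynomial (Fin N) ℂ) = if k = i ∨ k = j then 1 else 0 := by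
  have key : ∀ a b : Fin N, a ≠ b → degreeOf a (X a - X b : MvPolynomial (Fin N) ℂ) = 1 := by
    intro a b hab
    rw [sub_eq_add_neg, degreeOf_add_eq_of_degreeOf_lt]
    · simp
    · rw [← neg_one_mul, show (-1 : MvPolynomial (Fin N) ℂ) = C (-1) by simp,
        degreeOf_C_mul _ _ (mem_nonZeroDivisors_of_ne_zero (by norm_num)), degreeOf_X_of_ne hab,
        degreeOf_X_self]
      norm_num
  rcases eq_or_ne k i with rfl | hki
  · simp [key k j hij]
  rcases eq_or_ne k j with rfl | hkj
  · have h := key k i hki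
    rw [if_pos (Or.inr rfl), ← h, show (X k - X i : MvPolynomial (Fin N) ℂ) = C (-1) * (X i - X k) by
      simp, degreeOf_C_mul _ _ (mem_nonZeroDivisors_of_ne_zero (by norm_num))]
  · rw [if_neg (by simp [hki, hkj])]
    refine Nat.le_zero.1 ((degreeOf_add_le k (X i) (-X j : MvPolynomial (Fin N) ℂ)).trans ?_ |>.trans'
      (le_of_eq (by rw [sub_eq_add_neg])))
    rw [← neg_one_mul, show (-1 : MvPolynomial (Fin N) ℂ) = C (-1) by simp,
      degreeOf_C_mul _ _ (mem_nonZeroDivisors_of_ne_zero (by norm_num)), degreeOf_X_of_ne hki,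
      degreeOf_X_of_ne hkj]
    simp

lemma card_pairs_containing (k : Fin N) :
    (((univ : Finset (Fin N × Fin N)).filter (fun p => p.1 < p.2)).filter
      (fun p => k = p.1 ∨ k = p.2)).card = N - 1 := by
  have h : (((univ : Finset (Fin N × Fin N)).filter (fun p => p.1 < p.2)).filter
      (fun p => k = p.1 ∨ k = p.2))
      = ((univ : Finset (Fin N)).erase k).image (fun l => (min k l, max k l)) := by
    ext ⟨a, b⟩
    simp only [mem_filter, mem_univ, true_and, mem_image, mem_erase, ne_eq, Prod.mk.injEq]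
    constructor
    · rintro ⟨hab, rfl | rfl⟩
      · exact ⟨b, ⟨hab.ne', trivial⟩, min_eq_left hab.le, max_eq_right hab.le⟩
      · exact ⟨a, ⟨hab.ne, trivial⟩, min_eq_right hab.le, max_eq_left hab.le⟩
    · rintro ⟨l, ⟨hl, -⟩, rfl, rfl⟩
      rcases lt_or_gt_of_ne hl with h | h
      · simp [min_eq_right h.le, max_eq_left h.le, h]
      · simp [min_eq_left h.le, max_eq_right h.le, h]
  rw [h, card_image_of_injOn, card_erase_of_mem (mem_univ k), card_univ, Fintype.card_fin]
  intro a ha b hb hab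
  simp only [Prod.mk.injEq] at hab
  obtain ⟨h1, h2⟩ := hab
  rcases lt_or_gt_of_ne (mem_erase.1 ha).1 with h | h <;>
    rcases lt_or_gt_of_ne (mem_erase.1 hb).1 with h' | h' <;>
    simp [min_eq_left, min_eq_right, max_eq_left, max_eq_right, h.le, h'.le] at h1 h2 <;> omega

lemma degreeOf_affPoly (k : Fin N) : degreeOf k (affPoly N) = 3 * (N - 1) := by
  rw [affPoly, degreeOf_prod_eq _ _ fun p hp => pow_ne_zero _ (X_sub_X_ne_zero (mem_filter.1 hp).2.ne'),
    ← card_pairs_containing k, card_filter, mul_sum]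
  refine sum_congr rfl fun p hp => ?_
  have hne := (mem_filter.1 hp).2.ne'
  rw [degreeOf_pow_eq _ _ _ (X_sub_X_ne_zero hne), degreeOf_X_sub_X hne]
  split_ifs with h1 h2 <;> tauto

lemma eq_C_mul_affPoly {p : MvPolynomial (Fin N) ℂ}
    (hdeg : ∀ k, degreeOf k p ≤ 3 * (N - 1))
    (hanti : ∀ σ : Equiv.Perm (Fin N),
      rename σ p = ((Equiv.Perm.sign σ : ℤ) : MvPolynomial (Fin N) ℂ) * p)
    (hc : ∀ i j, i < j → pairContr i j p = 0) :
    ∃ t : ℂ, p = C t * affPoly N := by
  by_cases hp : p = 0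
  · exact ⟨0, by simp [hp]⟩
  have hdvd : affPoly N ∣ p := by
    refine prod_dvd_of_isRelPrime ?_ ?_
    · intro a ha b hb hab
      rw [mem_coe, mem_filter] at ha hb
      refine (((prime_X_sub_X ha.2.ne').irreducible.isRelPrime_iff_not_dvd).2 ?_).pow
      intro h
      rw [dvd_iff_mergeVar, map_sub, mergeVar_X, mergeVar_X, sub_eq_zero] at h
      have ha2 := ha.2
      have hb2 := hb.2
      split_ifs at h with h1 h2 h2 <;> have e := X_injective h
      · exact hb2.ne' (h1.trans h2.symm)
      · exact hab (Prod.ext (e ▸ rfl) h1.symm)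
      · rw [h2, e] at hb2
        exact lt_asymm hb2 ha2
      · exact hb2.ne' e
    · intro q hq
      have hlt := (mem_filter.1 hq).2
      have h := cube_dvd hlt.ne ((hanti _).trans (by simp [Equiv.Perm.sign_swap hlt.ne]))
        (hc _ _ hlt)
      rw [show ((X q.2 - X q.1 : MvPolynomial (Fin N) ℂ)) ^ 3 = -(X q.1 - X q.2) ^ 3 by ring,
        neg_dvd]
      exact h
  obtain ⟨s, rfl⟩ := hdvd
  have hs : s ≠ 0 := fun h => hp (by simp [h])
  refine ⟨coeff 0 s, ?_⟩
  have hk : ∀ k, degreeOf k s = 0 := by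
    intro k
    have := hdeg k
    rw [degreeOf_mul_eq affPoly_ne_zero hs, degreeOf_affPoly] at this
    omega
  have hC : s = C (coeff 0 s) := by
    ext d
    rw [coeff_C]
    split_ifs with h
    · rw [h]
    · obtain ⟨k, hkd⟩ : ∃ k, d k ≠ 0 := by
        by_contra hcon
        simp only [not_exists, not_not] at hcon
        exact h (Finsupp.ext fun k => (hcon k).symm)
      by_contra hne
      have := monomial_le_degreeOf k (mem_support_iff.2 hne)
      have := hk k
      omega
  rw [← hC, mul_comm]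

end

end Vale.Agent.P359
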