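import Vale.Agent.P359.Coupling
import Vale.Agent.P359.LimDefs

/-!
Large-spin limits of the impurity-fermion and impurity-pair ladder vectors.
-/

namespace Vale.Agent.P359

open Filter Topology

/-- The impurity-pair ladder vector: total channel `L`, pair channel `m`. -/
noncomputable def pairVec (Q L m i a b : ℕ) : ℝ :=
  if m ≤ L ∧ m ≤ a + b ∧ L ≤ i + a + b then
    coup (2 * Q - 2) (2 * Q - 2 * m) (L - m) (i + a + b - m) i (a + b - m) * coup Q Q m (a + b) a b
  else 0

theorem tendsto_flux_ratio (c d : ℕ) (hc : 0 < c) :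
    Tendsto (fun Q : ℕ => ((c * Q - d : ℕ) : ℝ) / Q) atTop (𝓝 (c : ℝ)) := by
  have h : Tendsto (fun Q : ℕ => (c : ℝ) - (d : ℝ) / Q) atTop (𝓝 (c : ℝ)) := by
    simpa using tendsto_const_nhds.sub (tendsto_const_div_atTop_nhds_zero_nat (d : ℝ))
  refine h.congr' ?_
  filter_upwards [eventually_gt_atTop d] with Q hQ
  have hQ' : (0 : ℝ) < Q := by exact_mod_cast Nat.lt_of_le_of_lt (Nat.zero_le d) hQ
  rw [Nat.cast_sub (le_trans hQ.le (Nat.le_mul_of_pos_left Q hc)), Nat.cast_mul]
  field_simp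

theorem tendsto_spin_one : Tendsto (fun Q : ℕ => (Q : ℝ) / Q) atTop (𝓝 1) := by
  simpa using tendsto_flux_ratio 1 0 one_pos

theorem tendsto_spin_two (d : ℕ) :
    Tendsto (fun Q : ℕ => ((2 * Q - d : ℕ) : ℝ) / Q) atTop (𝓝 2) := by
  simpa using tendsto_flux_ratio 2 d two_pos

theorem pairVec_tendsto (L m i a b : ℕ) :
    Tendsto (fun Q => pairVec Q L m i a b) atTop (𝓝 (pairLim L m i a b)) := by
  unfold pairVec pairLim
  split_ifs
  · exact (coup_limit (A := fun Q => 2 * Q - 2) (B := fun Q => 2 * Q - 2 * m) two_pos two_pos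
      (tendsto_spin_two 2) (tendsto_spin_two (2 * m)) _ _ _ _).mul
      (coup_limit (A := fun Q => Q) (B := fun Q => Q) one_pos one_pos tendsto_spin_one
        tendsto_spin_one _ _ _ _)
  · exact tendsto_const_nhds

theorem coupI_tendsto (k T i a : ℕ) :
    Tendsto (fun Q => coup (2 * Q - 2) Q k T i a) atTop (𝓝 (coupLim 2 1 k T i a)) :=
  coup_limit (A := fun Q => 2 * Q - 2) (B := fun Q => Q) two_pos one_pos (tendsto_spin_two 2)
    tendsto_spin_one k T i a

end Vale.Agent.P359
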