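import Vale.Agent.P359.Basic

/-!
A window operator evaluated on a first-quantised state.
-/

namespace Vale.Agent.P359

open Finset

namespace Win

variable {n R : ℕ}

/-- Antisymmetry for real functions on levels. -/
abbrev Anti (f : (Fin n → Fin (R + 1)) → ℝ) : Prop := Antisym f

theorem anti_coll {f : (Fin n → Fin (R + 1)) → ℝ} (h : Anti f) {x : Fin n → Fin (R + 1)}
    (hx : ¬Function.Injective x) : f x = 0 := by
  simp only [Function.Injective, not_forall] at hx
  obtain ⟨p, q, hpq, hne⟩ := hx
  have h' := h (Equiv.swap p q) x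
  have e : x ∘ (Equiv.swap p q) = x := by
    funext r
    rcases eq_or_ne r p with h1 | h1
    · subst h1; simp [hpq]
    · rcases eq_or_ne r q with h2 | h2
      · subst h2; simp [hpq]
      · simp [Equiv.swap_apply_of_ne_of_ne h1 h2]
  rw [e, Equiv.Perm.sign_swap hne] at h'
  push_cast at h'
  linarith

/-- Amplitude on a set of occupied levels. -/
def occ (f : (Fin n → Fin (R + 1)) → ℝ) (t : Finset ℕ) : ℝ :=
  if h : t.card = n ∧ ∀ x ∈ t, x < R + 1 then
    f fun k => ⟨t.orderEmbOfFin h.1 k, h.2 _ (orderEmbOfFin_mem t h.1 k)⟩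
  else 0

theorem inner_eq {f g : (Fin n → Fin (R + 1)) → ℝ} (hf : Anti f) (hg : Anti g) :
    ∑ x, f x * g x = (n.factorial : ℝ) * ∑ t ∈ (range (R + 1)).powerset, occ f t * occ g t := by
  classical
  rw [← Finset.sum_subset (Finset.subset_univ (univ.filter fun x : Fin n → Fin (R + 1) =>
      Function.Injective x)) fun x _ hx => by
        rw [anti_coll hf (fun h => hx (mem_filter.2 ⟨mem_univ _, h⟩)), zero_mul],
    ← Finset.sum_subset (Finset.filter_subset (fun t => t.card = n) (range (R + 1)).powerset)
      fun t ht hn => by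
        rw [occ, dif_neg (fun h => hn (mem_filter.2 ⟨ht, h.1⟩)), zero_mul],
    ← Finset.sum_fiberwise_of_maps_to
      (g := fun x : Fin n → Fin (R + 1) => univ.image (fun k => (x k : ℕ)))
      (t := (range (R + 1)).powerset.filter fun t => t.card = n), Finset.mul_sum]
  · refine Finset.sum_congr rfl fun t ht => ?_
    simp only [mem_filter, mem_powerset] at ht
    have hb : ∀ x ∈ t, x < R + 1 := fun x hx => mem_range.1 (ht.1 hx)
    set e : Fin n → Fin (R + 1) := fun k =>
      ⟨t.orderEmbOfFin ht.2 k, hb _ (orderEmbOfFin_mem t ht.2 k)⟩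
    have hocc : ∀ F : (Fin n → Fin (R + 1)) → ℝ, occ F t = F e := fun F => by
      rw [occ, dif_pos ⟨ht.2, hb⟩]
    have heinj : Function.Injective e := fun k l h =>
      (t.orderEmbOfFin ht.2).injective (congrArg Fin.val h)
    rw [hocc, hocc, show (n.factorial : ℝ) * (f e * g e) =
      ∑ _σ : Equiv.Perm (Fin n), f e * g e by
        rw [Finset.sum_const, Finset.card_univ, Fintype.card_perm, Fintype.card_fin, nsmul_eq_mul]]
    refine Eq.symm (Finset.sum_bij (fun σ _ => e ∘ σ) ?_ ?_ ?_ ?_)
    · intro σ _
      simp only [mem_filter, mem_univ, true_and]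
      refine ⟨heinj.comp σ.injective, ?_⟩
      ext v
      simp only [mem_image, mem_univ, true_and, Function.comp_apply, e]
      constructor
      · rintro ⟨k, rfl⟩; exact orderEmbOfFin_mem t ht.2 _
      · intro hv
        obtain ⟨k, hk⟩ : v ∈ Set.range (t.orderEmbOfFin ht.2) := by
          rw [range_orderEmbOfFin]; exact hv
        exact ⟨σ.symm k, by simpa using hk⟩
    · intro σ _ τ _ h
      exact Equiv.ext fun k => heinj (congrFun h k)
    · intro x hx
      simp only [mem_filter, mem_univ, true_and] at hx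
      have hm : ∀ k, ∃ l, t.orderEmbOfFin ht.2 l = (x k : ℕ) := fun k => by
        have : (x k : ℕ) ∈ Set.range (t.orderEmbOfFin ht.2) := by
          rw [range_orderEmbOfFin, ← hx.2]
          exact mem_image_of_mem _ (mem_univ k)
        exact this
      choose l hl using hm
      have hli : Function.Injective l := fun a b h => hx.1 (Fin.ext (by rw [← hl a, ← hl b, h]))
      exact ⟨Equiv.ofBijective l (Finite.injective_iff_bijective.1 hli), mem_univ _,
        funext fun k => Fin.ext (hl k)⟩
    · intro σ _
      rw [hf σ e, hg σ e]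
      rcases Int.units_eq_one_or (Equiv.Perm.sign σ) with h | h <;> simp [h]
  · intro x hx
    simp only [mem_filter, mem_univ, true_and] at hx
    simp only [mem_filter, mem_powerset]
    refine ⟨fun v hv => ?_, ?_⟩
    · obtain ⟨k, _, rfl⟩ := mem_image.1 hv
      exact mem_range.2 (x k).isLt
    · rw [card_image_of_injective _ (fun a b h => hx (Fin.ext h)), card_univ, Fintype.card_fin]

/-- The rank sign of a level in a set. -/
theorem fsign_insert_self (r : Finset ℕ) (a : ℕ) : fsign (insert a r) a = fsign r a := by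
  simp [fsign, Finset.filter_insert]

theorem anti_cons {m : ℕ} {f : (Fin (m + 1) → Fin (R + 1)) → ℝ} (hf : Anti f) (a : Fin (R + 1)) :
    Anti fun y : Fin m → Fin (R + 1) => f (Fin.cons a y) := by
  intro σ y
  have h := hf (Equiv.Perm.decomposeFin.symm (0, σ)) (Fin.cons a y)
  rw [Equiv.Perm.decomposeFin.symm_sign, if_pos rfl, one_mul] at h
  show f (Fin.cons a (y ∘ σ)) = _
  simp only
  rw [← h]
  congr 1
  funext k
  refine Fin.cases ?_ (fun j => ?_) k
  · simp
  · simp [Equiv.Perm.decomposeFin_symm_apply_succ]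

theorem insertNth_cons {m : ℕ} {f : (Fin (m + 1) → Fin (R + 1)) → ℝ} (hf : Anti f)
    (p : Fin (m + 1)) (a : Fin (R + 1)) (y : Fin m → Fin (R + 1)) :
    f (Fin.cons a y) = (-1 : ℝ) ^ (p : ℕ) * f (Fin.insertNth p a y) := by
  rw [← Fin.insertNth_comp_cycleRange_symm p a y, hf, Equiv.Perm.sign_symm, Fin.sign_cycleRange]
  push_cast
  rfl

theorem occ_cons {m : ℕ} {f : (Fin (m + 1) → Fin (R + 1)) → ℝ} (hf : Anti f) (a : Fin (R + 1))
    (r : Finset ℕ) : occ (fun y : Fin m → Fin (R + 1) => f (Fin.cons a y)) r =
      if (a : ℕ) ∈ r then 0 else fsign r a * occ f (insert (a : ℕ) r) := by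
  by_cases hr : r.card = m ∧ ∀ x ∈ r, x < R + 1
  · rw [occ, dif_pos hr]
    split_ifs with ha
    · refine anti_coll hf fun hinj => ?_
      obtain ⟨k, hk⟩ : (a : ℕ) ∈ Set.range (r.orderEmbOfFin hr.1) := by
        rw [range_orderEmbOfFin]; exact ha
      exact absurd (hinj (a₁ := 0) (a₂ := k.succ) (Fin.ext (by simpa using hk.symm)))
        (Fin.succ_ne_zero k).symm
    · have hins : (insert (a : ℕ) r).card = m + 1 ∧ ∀ x ∈ insert (a : ℕ) r, x < R + 1 := by
        refine ⟨by rw [card_insert_of_notMem ha, hr.1], fun x hx => ?_⟩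
        rcases mem_insert.1 hx with h | h
        · rw [h]; exact a.isLt
        · exact hr.2 x h
      rw [occ, dif_pos hins]
      -- position of `a`
      set e := r.orderEmbOfFin hr.1
      set j : ℕ := (r.filter (· < (a : ℕ))).card
      have hjm : j ≤ m := (card_filter_le _ _).trans hr.1.le
      have hlt : ∀ k : Fin m, e k < (a : ℕ) ↔ (k : ℕ) < j := by
        intro k
        have hcard : j = (univ.filter fun l : Fin m => e l < (a : ℕ)).card := by
          refine Eq.symm (card_bij (fun l _ => e l) (fun l hl => ?_) (fun x _ y _ h => e.injective h)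
            fun v hv => ?_)
          · simp only [mem_filter, mem_univ, true_and] at hl
            exact mem_filter.2 ⟨orderEmbOfFin_mem r hr.1 l, hl⟩
          · rw [mem_filter] at hv
            obtain ⟨l, hl⟩ : v ∈ Set.range e := by rw [range_orderEmbOfFin]; exact hv.1
            exact ⟨l, mem_filter.2 ⟨mem_univ _, hl ▸ hv.2⟩, hl⟩
        constructor
        · intro h
          rw [hcard]
          have : (Finset.Iic k).card ≤ (univ.filter fun l : Fin m => e l < (a : ℕ)).card :=
            card_le_card fun l hl => mem_filter.2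
              ⟨mem_univ _, lt_of_le_of_lt (e.monotone (Finset.mem_Iic.1 hl)) h⟩
          rw [Fin.card_Iic] at this
          omega
        · intro h
          by_contra hge
          have : (univ.filter fun l : Fin m => e l < (a : ℕ)).card ≤ (Finset.Iio k).card :=
            card_le_card fun l hl => Finset.mem_Iio.2 (by
              by_contra hl'
              exact hge (lt_of_le_of_lt (e.monotone (not_lt.1 hl')) (mem_filter.1 hl).2))
          rw [Fin.card_Iio, ← hcard] at this
          omega
      set p : Fin (m + 1) := ⟨j, by omega⟩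
      set y : Fin m → Fin (R + 1) := fun k => ⟨e k, hr.2 _ (orderEmbOfFin_mem r hr.1 k)⟩
      have hmono : StrictMono (Fin.insertNth p (a : ℕ) (fun k => e k) : Fin (m + 1) → ℕ) := by
        rw [Fin.strictMono_iff_lt_succ]
        intro i
        have hem : ∀ k l : Fin m, k < l → e k < e l := fun k l h => e.strictMono h
        have hne : ∀ k, e k ≠ (a : ℕ) := fun k h => ha (h ▸ orderEmbOfFin_mem r hr.1 k)
        rcases Fin.eq_self_or_eq_succAbove p i.castSucc with h1 | ⟨k, h1⟩ <;>
          rcases Fin.eq_self_or_eq_succAbove p i.succ with h2 | ⟨l, h2⟩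
        · exact absurd (h1.trans h2.symm) (Fin.castSucc_lt_succ).ne
        · rw [h1, Fin.insertNth_apply_same, h2, Fin.insertNth_apply_succAbove]
          have : ¬ (l : ℕ) < j := by
            intro hl
            have := congrArg Fin.val h2
            rw [Fin.succAbove_of_castSucc_lt _ _ (by simpa [p, Fin.lt_def] using hl)] at this
            have := congrArg Fin.val h1
            simp [p] at *
            omega
          exact lt_of_le_of_ne (not_lt.1 fun h => this ((hlt l).1 h)) (hne l).symm
        · rw [h2, Fin.insertNth_apply_same, h1, Fin.insertNth_apply_succAbove]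
          refine (hlt k).2 ?_
          by_contra hk
          have := congrArg Fin.val h1
          rw [Fin.succAbove_of_le_castSucc _ _ (by simpa [p, Fin.le_def] using hk)] at this
          have := congrArg Fin.val h2
          simp [p] at *
          omega
        · rw [h1, h2, Fin.insertNth_apply_succAbove, Fin.insertNth_apply_succAbove]
          refine hem _ _ ?_
          have hlt' : p.succAbove k < p.succAbove l := by rw [← h1, ← h2]; exact Fin.castSucc_lt_succ
          exact (Fin.succAbove_lt_succAbove_iff).1 hlt'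
      have huniq := orderEmbOfFin_unique hins.1 (f := Fin.insertNth p (a : ℕ) (fun k => e k)) ?_ hmono
      · rw [insertNth_cons hf p a y, fsign]
        congr 2
        funext k
        apply Fin.ext
        have hk := congrFun huniq k
        rcases Fin.eq_self_or_eq_succAbove p k with h1 | ⟨l, h1⟩
        · subst h1; simpa using hk
        · subst h1; simpa [y] using hk
      · intro k
        rcases Fin.eq_self_or_eq_succAbove p k with h1 | ⟨l, h1⟩
        · subst h1; simp
        · subst h1
          rw [Fin.insertNth_apply_succAbove]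
          exact mem_insert_of_mem (orderEmbOfFin_mem r hr.1 l)
  · rw [occ, dif_neg hr]
    split_ifs with ha
    · rfl
    · rw [occ, dif_neg, mul_zero]
      intro h
      refine hr ⟨?_, fun x hx => h.2 x (mem_insert_of_mem hx)⟩
      rw [card_insert_of_notMem ha] at h
      omega

theorem sum_at {m : ℕ} (H : (Fin (m + 1) → Fin (R + 1)) → ℝ) (p : Fin (m + 1)) (a : Fin (R + 1)) :
    ∑ x, (if x p = a then H x else 0) = ∑ y, H (Fin.insertNth p a y) := by
  rw [← (Fin.insertNthEquiv (fun _ => Fin (R + 1)) p).sum_comp, Fintype.sum_prod_type,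
    Finset.sum_eq_single a]
  · simp [Fin.insertNthEquiv]
  · intro b _ hb; simp [Fin.insertNthEquiv, hb]
  · simp

theorem one_body {f g : (Fin n → Fin (R + 1)) → ℝ} (hf : Anti f) (hg : Anti g)
    (a a' : Fin (R + 1)) :
    ∑ p, ∑ x, (if x p = a then f x * g (Function.update x p a') else 0) =
      (n.factorial : ℝ) * ∑ r ∈ (range (R + 1)).powerset,
        if (a : ℕ) ∈ r ∨ (a' : ℕ) ∈ r then 0 else
          fsign r a * fsign r a' * (occ f (insert (a : ℕ) r) * occ g (insert (a' : ℕ) r)) := by
  rcases n with _ | m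
  · simp only [Finset.univ_eq_empty, Finset.sum_empty]
    symm
    refine mul_eq_zero.2 (Or.inr (Finset.sum_eq_zero fun r _ => ?_))
    split_ifs with h
    · rfl
    · rw [occ, dif_neg (fun hh => by
        have := hh.1
        rw [card_insert_of_notMem (not_or.1 h).1] at this
        omega)]
      ring
  · have hterm : ∀ p : Fin (m + 1), ∑ x, (if x p = a then f x * g (Function.update x p a') else 0) =
        (m.factorial : ℝ) * ∑ r ∈ (range (R + 1)).powerset,
          if (a : ℕ) ∈ r ∨ (a' : ℕ) ∈ r then 0 else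
            fsign r a * fsign r a' * (occ f (insert (a : ℕ) r) * occ g (insert (a' : ℕ) r)) := by
      intro p
      rw [sum_at]
      have : ∀ y : Fin m → Fin (R + 1), f (Fin.insertNth p a y) *
          g (Function.update (Fin.insertNth p a y) p a') = f (Fin.cons a y) * g (Fin.cons a' y) := by
        intro y
        rw [Fin.update_insertNth, insertNth_cons hf p, insertNth_cons hg p]
        have h1 : ((-1 : ℝ) ^ (p : ℕ)) * (-1) ^ (p : ℕ) = 1 := by
          rw [← mul_pow]; norm_num
        linear_combination (-(f (Fin.insertNth p a y) * g (Fin.insertNth p a' y))) * h1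
      simp only [this]
      rw [inner_eq (anti_cons hf a) (anti_cons hg a')]
      refine congrArg _ (Finset.sum_congr rfl fun r _ => ?_)
      rw [occ_cons hf, occ_cons hg]
      by_cases h1 : (a : ℕ) ∈ r <;> by_cases h2 : (a' : ℕ) ∈ r <;> simp [h1, h2] <;> ring
    rw [Finset.sum_congr rfl fun p _ => hterm p, Finset.sum_const, card_univ, Fintype.card_fin,
      nsmul_eq_mul, Nat.factorial_succ, Nat.cast_mul, mul_assoc]

theorem two_body {f g : (Fin n → Fin (R + 1)) → ℝ} (hf : Anti f) (hg : Anti g)
    (a b a' b' : Fin (R + 1)) (hab : a ≠ b) (hab' : a' ≠ b') :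
    ∑ p, ∑ q, ∑ x, (if p ≠ q ∧ x p = a ∧ x q = b then
        f x * g (Function.update (Function.update x p a') q b') else 0) =
      (n.factorial : ℝ) * ∑ r ∈ (range (R + 1)).powerset,
        if (a : ℕ) ∈ r ∨ (b : ℕ) ∈ r ∨ (a' : ℕ) ∈ r ∨ (b' : ℕ) ∈ r then 0 else
          fsign (insert (b : ℕ) r) a * fsign r b * (fsign (insert (b' : ℕ) r) a' * fsign r b') *
            (occ f (insert (a : ℕ) (insert (b : ℕ) r)) * occ g (insert (a' : ℕ) (insert (b' : ℕ) r))) := by
  rcases n with _ | m
  · simp only [Finset.univ_eq_empty, Finset.sum_empty]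
    symm
    refine mul_eq_zero.2 (Or.inr (Finset.sum_eq_zero fun r _ => ?_))
    split_ifs with h
    · rfl
    · rw [occ, dif_neg (fun hh => absurd (card_eq_zero.1 hh.1) (insert_ne_empty _ _))]
      ring
  · have hab0 : (a : ℕ) ≠ b := fun h => hab (Fin.ext h)
    have hab0' : (a' : ℕ) ≠ b' := fun h => hab' (Fin.ext h)
    have hterm : ∀ p : Fin (m + 1), ∑ q, ∑ x, (if p ≠ q ∧ x p = a ∧ x q = b then
        f x * g (Function.update (Function.update x p a') q b') else 0) =
        (m.factorial : ℝ) * ∑ r ∈ (range (R + 1)).powerset,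
          if (a : ℕ) ∈ r ∨ (b : ℕ) ∈ r ∨ (a' : ℕ) ∈ r ∨ (b' : ℕ) ∈ r then 0 else
            fsign (insert (b : ℕ) r) a * fsign r b * (fsign (insert (b' : ℕ) r) a' * fsign r b') *
              (occ f (insert (a : ℕ) (insert (b : ℕ) r)) *
                occ g (insert (a' : ℕ) (insert (b' : ℕ) r))) := by
      intro p
      rw [← Finset.add_sum_erase univ _ (mem_univ p)]
      simp only [ne_eq, not_true, false_and, if_false, Finset.sum_const_zero, zero_add]
      have hq : ∀ q ∈ (univ : Finset (Fin (m + 1))).erase p, ∑ x, (if ¬p = q ∧ x p = a ∧ x q = b then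
          f x * g (Function.update (Function.update x p a') q b') else 0) =
          ∑ x, (if x p = a then (if x q = b then
          f x * g (Function.update (Function.update x p a') q b') else 0) else 0) := by
        intro q hq
        refine Finset.sum_congr rfl fun x _ => ?_
        rw [← ite_and]
        simp [Ne.symm (ne_of_mem_erase hq)]
      rw [Finset.sum_congr rfl hq]
      simp only [sum_at]
      rw [show (univ : Finset (Fin (m + 1))).erase p = univ.map p.succAboveEmb by
          ext q
          simp only [mem_erase, mem_univ, and_true, mem_map, true_and, Fin.coe_succAboveEmb]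
          exact ⟨fun h => Fin.exists_succAbove_eq h, fun ⟨l, hl⟩ => hl ▸ Fin.succAbove_ne p l⟩,
        Finset.sum_map]
      have hy : ∀ (l : Fin m) (y : Fin m → Fin (R + 1)),
          (if (Fin.insertNth p a y : Fin (m + 1) → Fin (R + 1)) (p.succAboveEmb l) = b then
            f (Fin.insertNth p a y) * g (Function.update (Function.update (Fin.insertNth p a y) p a')
              (p.succAboveEmb l) b') else 0) =
          if y l = b then f (Fin.cons a y) * g (Fin.cons a' (Function.update y l b')) else 0 := by
        intro l y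
        rw [Fin.coe_succAboveEmb, Fin.insertNth_apply_succAbove, Fin.update_insertNth,
          ← Fin.insertNth_update, insertNth_cons hf p, insertNth_cons hg p]
        split_ifs
        · have h1 : ((-1 : ℝ) ^ (p : ℕ)) * (-1) ^ (p : ℕ) = 1 := by
            rw [← mul_pow]; norm_num
          linear_combination (-(f (Fin.insertNth p a y) *
            g (Fin.insertNth p a' (Function.update y l b')))) * h1
        · rfl
      simp only [hy]
      rw [one_body (anti_cons hf a) (anti_cons hg a') b b']
      refine congrArg _ (Finset.sum_congr rfl fun r _ => ?_)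
      by_cases h : (b : ℕ) ∈ r ∨ (b' : ℕ) ∈ r
      · rw [if_pos h, if_pos]
        tauto
      · rw [if_neg h, occ_cons hf, occ_cons hg]
        simp only [mem_insert, hab0, hab0', false_or]
        by_cases h1 : (a : ℕ) ∈ r <;> by_cases h2 : (a' : ℕ) ∈ r <;> simp [h1, h2, h] <;> ring
    rw [Finset.sum_congr rfl fun p _ => hterm p, Finset.sum_const, card_univ, Fintype.card_fin,
      nsmul_eq_mul, Nat.factorial_succ, Nat.cast_mul, mul_assoc]

theorem sum_split {J K : ℕ} (hJ : J ≤ K) (φ : Finset ℕ → ℝ) :
    ∑ r ∈ (range K).powerset, φ r =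
      ∑ o ∈ (Ico J K).powerset, ∑ s ∈ (range J).powerset, φ (s ∪ o) := by
  rw [← Finset.sum_product']
  refine Finset.sum_bij' (fun r _ => (r.filter (fun x => J ≤ x), r.filter (fun x => x < J)))
    (fun os _ => os.2 ∪ os.1) ?_ ?_ ?_ ?_ ?_
  · intro r hr
    simp only [mem_powerset] at hr
    simp only [mem_product, mem_powerset]
    constructor <;> intro x hx <;> rw [mem_filter] at hx
    · exact mem_Ico.2 ⟨hx.2, mem_range.1 (hr hx.1)⟩
    · exact mem_range.2 hx.2
  · intro os hos
    simp only [mem_product, mem_powerset] at hos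
    simp only [mem_powerset]
    intro x hx
    rw [Finset.mem_union] at hx
    rcases hx with h | h
    · exact mem_range.2 (lt_of_lt_of_le (mem_range.1 (hos.2 h)) hJ)
    · exact mem_range.2 (mem_Ico.1 (hos.1 h)).2
  · intro r _
    ext x
    simp only [Finset.mem_union, mem_filter]
    by_cases h : x < J
    · simp [h, not_le.2 h]
    · simp [h, not_lt.1 h]
  · intro os hos
    simp only [mem_product, mem_powerset] at hos
    have h1 : ∀ x ∈ os.1, J ≤ x := fun x hx => (mem_Ico.1 (hos.1 hx)).1
    have h2 : ∀ x ∈ os.2, x < J := fun x hx => mem_range.1 (hos.2 hx)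
    apply Prod.ext <;> ext x <;> simp only [mem_filter, Finset.mem_union]
    · exact ⟨fun ⟨h, hx⟩ => h.resolve_left fun h' => absurd (h2 x h') (not_lt.2 hx),
        fun h => ⟨Or.inr h, h1 x h⟩⟩
    · exact ⟨fun ⟨h, hx⟩ => h.resolve_right fun h' => absurd (h1 x h') (not_le.2 hx),
        fun h => ⟨Or.inl h, h2 x h⟩⟩
  · intro r _
    congr 1
    ext x
    simp only [Finset.mem_union, mem_filter]
    by_cases h : x < J
    · simp [h, not_le.2 h]
    · simp [h, not_lt.1 h]

theorem sum_remove (U : Finset ℕ) (φ : Finset ℕ → ℕ → ℝ) :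
    ∑ s ∈ U.powerset, ∑ a ∈ s, φ s a =
      ∑ a ∈ U, ∑ r ∈ U.powerset, if a ∈ r then 0 else φ (insert a r) a := by
  have h : ∀ a ∈ U, (∑ r ∈ U.powerset, if a ∈ r then 0 else φ (insert a r) a) =
      ∑ s ∈ U.powerset.filter (fun s => a ∈ s), φ s a := by
    intro a ha
    rw [Finset.sum_ite]
    simp only [Finset.sum_const_zero, zero_add]
    refine Finset.sum_bij' (fun r _ => insert a r) (fun s _ => s.erase a) ?_ ?_ ?_ ?_ ?_
    · intro r hr
      simp only [mem_filter, mem_powerset] at hr ⊢
      exact ⟨insert_subset ha hr.1, mem_insert_self a r⟩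
    · intro s hs
      simp only [mem_filter, mem_powerset] at hs ⊢
      exact ⟨(erase_subset a s).trans hs.1, notMem_erase a s⟩
    · intro r hr
      exact erase_insert (mem_filter.1 hr).2
    · intro s hs
      exact insert_erase (mem_filter.1 hs).2
    · intro r _; rfl
  rw [Finset.sum_congr rfl h]
  refine Finset.sum_comm' fun s a => ?_
  simp only [mem_powerset, mem_filter]
  exact ⟨fun hh => ⟨⟨hh.1, hh.2⟩, hh.1 hh.2⟩, fun hh => ⟨hh.1.1, hh.1.2⟩⟩

theorem fsign_union {J : ℕ} (r o : Finset ℕ) (ho : ∀ x ∈ o, J ≤ x) {a : ℕ} (ha : a < J) :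
    fsign (r ∪ o) a = fsign r a := by
  rw [fsign, fsign, Finset.filter_union, Finset.filter_false_of_mem (s := o)
    (fun x hx => by have := ho x hx; omega), Finset.union_empty]

theorem winForm_eq (S J : ℕ) (C : ℕ → ℝ) (w : ℕ → ℕ → ℕ → ℕ → ℝ)
    (G : ℕ → ℕ → ℕ → ℕ → ℕ → ℕ → ℝ) (u : ℕ → Finset ℕ → ℝ) :
    winForm S J C w G u =
      (∑ i ∈ range (S + 1), C i * ∑ s ∈ (range J).powerset, u i s * u i s)
      - (∑ i ∈ range (S + 1), ∑ a ∈ range J, ∑ i' ∈ range (S + 1), ∑ a' ∈ range J, w i a i' a' *
          ∑ r ∈ (range J).powerset, if a ∈ r ∨ a' ∈ r then 0 else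
            fsign r a * fsign r a' * (u i (insert a r) * u i' (insert a' r)))
      + ∑ i ∈ range (S + 1), ∑ a ∈ range J, ∑ b ∈ range J, ∑ i' ∈ range (S + 1), ∑ a' ∈ range J,
          ∑ b' ∈ range J, if a < b ∧ a' < b' then G i a b i' a' b' *
            ∑ r ∈ (range J).powerset, (if a ∈ r ∨ b ∈ r ∨ a' ∈ r ∨ b' ∈ r then 0 else
              fsign (insert b r) a * fsign r b * (fsign (insert b' r) a' * fsign r b') *
                (u i (insert a (insert b r)) * u i' (insert a' (insert b' r)))) else 0 := by
  unfold winForm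
  congr 1
  · congr 1
    · simp only [Finset.mul_sum, ← sq]
    · refine Finset.sum_congr rfl fun i _ => ?_
      rw [Finset.sum_comm (s := range J)]
      refine Finset.sum_congr rfl fun i' _ => ?_
      rw [sum_remove]
      refine Finset.sum_congr rfl fun a _ => ?_
      simp only [Finset.mul_sum]
      rw [Finset.sum_comm (s := range J)]
      refine Finset.sum_congr rfl fun r _ => ?_
      by_cases h1 : a ∈ r
      · simp [h1]
      simp only [h1, if_false, false_or, erase_insert h1, fsign_insert_self]
      refine Finset.sum_congr rfl fun a' _ => ?_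
      split_ifs <;> ring
  · refine Finset.sum_congr rfl fun i _ => ?_
    have hR : ∀ (φ : ℕ → ℕ → ℕ → ℕ → ℕ → ℝ),
        ∑ a ∈ range J, ∑ b ∈ range J, ∑ i' ∈ range (S + 1), ∑ a' ∈ range J, ∑ b' ∈ range J,
          φ a b i' a' b' = ∑ i' ∈ range (S + 1), ∑ a ∈ range J, ∑ b ∈ range J,
            ∑ a' ∈ range J, ∑ b' ∈ range J, φ a b i' a' b' := by
      intro φ
      refine (Finset.sum_congr rfl fun a _ => Finset.sum_comm).trans Finset.sum_comm
    rw [hR]
    refine Finset.sum_congr rfl fun i' _ => ?_
    rw [sum_remove]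
    refine Finset.sum_congr rfl fun a _ => ?_
    have e1 : (∑ r ∈ (range J).powerset, if a ∈ r then (0 : ℝ) else
        ∑ b ∈ insert a r, ∑ a' ∈ range J, ∑ b' ∈ range J,
          if a < b ∧ a' < b' ∧ a' ∉ ((insert a r).erase a).erase b ∧ b' ∉ ((insert a r).erase a).erase b then
            G i a b i' a' b' * (fsign (insert a r) a * fsign ((insert a r).erase a) b *
              (fsign (insert a' (insert b' (((insert a r).erase a).erase b))) a' *
                fsign (insert b' (((insert a r).erase a).erase b)) b')) *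
              u i (insert a r) * u i' (insert a' (insert b' (((insert a r).erase a).erase b))) else 0) =
        ∑ r ∈ (range J).powerset, ∑ b ∈ r, if a ∈ r then (0 : ℝ) else
          ∑ a' ∈ range J, ∑ b' ∈ range J,
          if a < b ∧ a' < b' ∧ a' ∉ r.erase b ∧ b' ∉ r.erase b then
            G i a b i' a' b' * (fsign r a * fsign r b *
              (fsign (insert a' (insert b' (r.erase b))) a' * fsign (insert b' (r.erase b)) b')) *
              u i (insert a r) * u i' (insert a' (insert b' (r.erase b))) else 0 := by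
      refine Finset.sum_congr rfl fun r _ => ?_
      by_cases h1 : a ∈ r
      · simp [h1]
      simp only [h1, if_false, erase_insert h1, fsign_insert_self, sum_insert h1, lt_irrefl,
        false_and, Finset.sum_const_zero, zero_add]
    rw [e1, sum_remove]
    refine Finset.sum_congr rfl fun b _ => ?_
    have hite : ∀ (c : Prop) [Decidable c] (T : Finset (Finset ℕ)) (φ : Finset ℕ → ℝ),
        (if c then ∑ r ∈ T, φ r else 0) = ∑ r ∈ T, if c then φ r else 0 := by
      intro c _ T φ
      split_ifs <;> simp
    simp only [Finset.mul_sum, hite]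
    refine Eq.trans ?_ ((Finset.sum_congr rfl fun a' _ => Finset.sum_comm).trans Finset.sum_comm).symm
    refine Finset.sum_congr rfl fun r _ => ?_
    by_cases h2 : b ∈ r
    · simp [h2]
    simp only [h2, if_false, false_or, mem_insert]
    by_cases hab : a = b ∨ a ∈ r
    · simp only [if_pos hab]
      refine (Finset.sum_eq_zero fun a' _ => Finset.sum_eq_zero fun b' _ => ?_).symm
      rcases hab with h | h
      · simp [h]
      · simp [h]
    push Not at hab
    simp only [hab.1, hab.2, false_or, if_false, erase_insert h2, fsign_insert_self]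
    refine Finset.sum_congr rfl fun a' _ => Finset.sum_congr rfl fun b' _ => ?_
    by_cases h : a < b ∧ a' < b'
    · simp only [h.1, h.2, true_and]
      split_ifs <;> first | ring1 | tauto
    · rw [if_neg h, if_neg]
      tauto

end Win

open Win in
/-- A nonnegative window operator gives an inequality between the marginals. -/
theorem window_marg {Q n S J : ℕ} (hS : S < 2 * Q - 1) (hJ : J ≤ Q + 1) {C : ℕ → ℝ}
    {w : ℕ → ℕ → ℕ → ℕ → ℝ} {G : ℕ → ℕ → ℕ → ℕ → ℕ → ℕ → ℝ}
    (hpos : ∀ u, 0 ≤ winForm S J C w G u) (X : Conf Q n → ℝ)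
    (hX : ∀ i, Antisym fun x => X (i, x)) :
    0 ≤ (∑ i : Fin (2 * Q - 1), if (i : ℕ) ≤ S then C i * marg0 X i i else 0)
      - (∑ i : Fin (2 * Q - 1), ∑ a : Fin (Q + 1), ∑ i' : Fin (2 * Q - 1), ∑ a' : Fin (Q + 1),
          if (i : ℕ) ≤ S ∧ (a : ℕ) < J ∧ (i' : ℕ) ≤ S ∧ (a' : ℕ) < J then
            w i a i' a' * marg1 X i a i' a' else 0)
      + ∑ i : Fin (2 * Q - 1), ∑ a : Fin (Q + 1), ∑ b : Fin (Q + 1),
        ∑ i' : Fin (2 * Q - 1), ∑ a' : Fin (Q + 1), ∑ b' : Fin (Q + 1),
          if (i : ℕ) ≤ S ∧ (a : ℕ) < (b : ℕ) ∧ (b : ℕ) < J ∧ (i' : ℕ) ≤ S ∧ (a' : ℕ) < (b' : ℕ) ∧ (b' : ℕ) < J then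
            G i a b i' a' b' * marg2 X i a b i' a' b' else 0 := by
  set Y : ℕ → (Fin n → Fin (Q + 1)) → ℝ := fun i x =>
    if h : i < 2 * Q - 1 then X (⟨i, h⟩, x) else 0
  have hY : ∀ i, Anti (Y i) := by
    intro i σ x
    simp only [Y]
    split_ifs with h
    · exact hX ⟨i, h⟩ σ x
    · simp
  have hYX : ∀ (i : Fin (2 * Q - 1)) x, Y i x = X (i, x) := fun i x => by simp [Y, i.isLt]
  set P : ℕ → Finset ℕ → ℝ := fun i t => occ (Y i) t
  set U := (range (Q + 1)).powerset
  have hsum : 0 ≤ ∑ o ∈ (Ico J (Q + 1)).powerset, winForm S J C w G (fun i s => P i (s ∪ o)) :=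
    Finset.sum_nonneg fun o _ => hpos _
  simp only [winForm_eq, Finset.sum_add_distrib, Finset.sum_sub_distrib] at hsum
  have hfac : (0 : ℝ) ≤ n.factorial := by positivity
  have hkey := mul_nonneg hfac hsum
  rw [mul_add, mul_sub] at hkey
  have hR0 : ∀ (f : ℕ → ℝ), ∑ i : Fin (2 * Q - 1), (if (i : ℕ) ≤ S then f i else 0) =
      ∑ i ∈ range (S + 1), f i := by
    intro f
    rw [Fin.sum_univ_eq_sum_range (fun i => if i ≤ S then f i else 0), ← Finset.sum_filter]
    exact Finset.sum_congr (by ext i; simp only [mem_filter, mem_range]; omega) fun _ _ => rfl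
  have hR1 : ∀ (f : ℕ → ℝ), ∑ a : Fin (Q + 1), (if (a : ℕ) < J then f a else 0) =
      ∑ a ∈ range J, f a := by
    intro f
    rw [Fin.sum_univ_eq_sum_range (fun a => if a < J then f a else 0), ← Finset.sum_filter]
    exact Finset.sum_congr (by ext i; simp only [mem_filter, mem_range]; omega) fun _ _ => rfl
  have hp : ∀ {a : ℕ}, a < J → ∀ r o : Finset ℕ, o ∈ (Ico J (Q + 1)).powerset →
      fsign (r ∪ o) a = fsign r a ∧ (a ∈ r ∪ o ↔ a ∈ r) := by
    intro a ha r o ho
    have ho' : ∀ x ∈ o, J ≤ x := fun x hx => (mem_Ico.1 (mem_powerset.1 ho hx)).1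
    refine ⟨fsign_union r o ho' ha, ?_⟩
    rw [Finset.mem_union]
    exact ⟨fun h => h.resolve_right fun h' => absurd (ho' a h') (not_le.2 ha), Or.inl⟩
  refine le_of_le_of_eq hkey ?_
  congr 1
  · congr 1
    · rw [Finset.sum_comm, Finset.mul_sum, ← hR0]
      refine Finset.sum_congr rfl fun i _ => ?_
      split_ifs with hi
      · rw [← Finset.mul_sum, ← sum_split hJ (fun r => P i r * P i r), mul_left_comm,
          ← inner_eq (hY i) (hY i)]
        simp only [marg0, hYX]
      · rfl
    · simp only [Finset.mul_sum (a := (n.factorial : ℝ))]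
      rw [Finset.sum_comm]
      simp only [Finset.sum_comm (s := (Ico J (Q + 1)).powerset)]
      simp only [← hR0, ← hR1]
      refine Finset.sum_congr rfl fun i _ => ?_
      by_cases hi : (i : ℕ) ≤ S
      swap; · simp [hi]
      rw [if_pos hi]
      refine Finset.sum_congr rfl fun a _ => ?_
      by_cases ha : (a : ℕ) < J
      swap; · simp [ha]
      rw [if_pos ha]
      refine Finset.sum_congr rfl fun i' _ => ?_
      by_cases hi' : (i' : ℕ) ≤ S
      swap; · simp [hi']
      rw [if_pos hi']
      refine Finset.sum_congr rfl fun a' _ => ?_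
      by_cases ha' : (a' : ℕ) < J
      swap; · simp [ha']
      rw [if_pos ha', if_pos ⟨hi, ha, hi', ha'⟩, ← Finset.mul_sum, ← Finset.mul_sum, mul_left_comm]
      congr 1
      have h := one_body (hY i) (hY i') a a'
      simp only [hYX] at h
      rw [marg1, h, sum_split hJ]
      refine congrArg _ (Finset.sum_congr rfl fun o ho => Finset.sum_congr rfl fun r _ => ?_)
      simp only [(hp ha r o ho).1, (hp ha r o ho).2, (hp ha' r o ho).1, (hp ha' r o ho).2,
        Finset.insert_union, P]
  · simp only [Finset.mul_sum (a := (n.factorial : ℝ))]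
    rw [Finset.sum_comm]
    simp only [Finset.sum_comm (s := (Ico J (Q + 1)).powerset)]
    simp only [← hR0, ← hR1]
    refine Finset.sum_congr rfl fun i _ => ?_
    by_cases hi : (i : ℕ) ≤ S
    swap; · simp [hi]
    rw [if_pos hi]
    refine Finset.sum_congr rfl fun a _ => ?_
    by_cases ha : (a : ℕ) < J
    swap
    · rw [if_neg ha]
      refine (Finset.sum_eq_zero fun b _ => Finset.sum_eq_zero fun i' _ =>
        Finset.sum_eq_zero fun a' _ => Finset.sum_eq_zero fun b' _ => if_neg ?_).symm
      omega
    rw [if_pos ha]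
    refine Finset.sum_congr rfl fun b _ => ?_
    by_cases hb : (b : ℕ) < J
    swap; · simp [hb]
    rw [if_pos hb]
    refine Finset.sum_congr rfl fun i' _ => ?_
    by_cases hi' : (i' : ℕ) ≤ S
    swap; · simp [hi']
    rw [if_pos hi']
    refine Finset.sum_congr rfl fun a' _ => ?_
    by_cases ha' : (a' : ℕ) < J
    swap
    · rw [if_neg ha']
      refine (Finset.sum_eq_zero fun b' _ => if_neg ?_).symm
      omega
    rw [if_pos ha']
    refine Finset.sum_congr rfl fun b' _ => ?_
    by_cases hb' : (b' : ℕ) < J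
    swap; · simp [hb']
    rw [if_pos hb']
    by_cases hlt : (a : ℕ) < b ∧ (a' : ℕ) < b'
    swap
    · simp only [if_neg hlt]
      rw [if_neg fun h => hlt ⟨h.2.1, h.2.2.2.2.1⟩]
      simp
    simp only [if_pos hlt]
    rw [if_pos ⟨hi, hlt.1, hb, hi', hlt.2, hb'⟩, ← Finset.mul_sum, ← Finset.mul_sum, mul_left_comm]
    congr 1
    have h := two_body (hY i) (hY i') a b a' b'
      (fun e => absurd hlt.1 (by rw [e]; exact lt_irrefl _))
      (fun e => absurd hlt.2 (by rw [e]; exact lt_irrefl _))
    simp only [hYX] at h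
    rw [marg2, h, sum_split hJ]
    refine congrArg _ (Finset.sum_congr rfl fun o ho => Finset.sum_congr rfl fun r _ => ?_)
    simp only [← Finset.insert_union, (hp ha (insert (b : ℕ) r) o ho).1,
      (hp ha' (insert (b' : ℕ) r) o ho).1, (hp hb r o ho).1, (hp hb' r o ho).1,
      (hp ha r o ho).2, (hp hb r o ho).2, (hp ha' r o ho).2, (hp hb' r o ho).2, P]

end Vale.Agent.P359
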