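import Vale.Agent.P359.Sums
import Vale.Agent.P359.PairLimit
import Vale.Agent.P359.Window

/-!
The key inequality for all large flux, from a window certificate.
-/

namespace Vale.Agent.P359

open Finset Matrix Filter Topology

/-- Finite flux version of `cov1Lim`. -/
noncomputable def cov1Q (Q S J : ℕ) (w : ℕ → ℕ → ℕ → ℕ → ℝ) (k : ℕ) : ℝ :=
  ∑ i ∈ range (S + 1), ∑ a ∈ range J, ∑ i' ∈ range (S + 1), ∑ a' ∈ range J,
    if i + a = i' + a' ∧ k ≤ i + a then
      w i a i' a' * (coup (2 * Q - 2) Q k (i + a) i a * coup (2 * Q - 2) Q k (i + a) i' a') else 0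

/-- Finite flux version of `cov2Lim`. -/
noncomputable def cov2Q (Q S J : ℕ) (G : ℕ → ℕ → ℕ → ℕ → ℕ → ℕ → ℝ) (L m m' : ℕ) : ℝ :=
  ∑ i ∈ range (S + 1), ∑ a ∈ range J, ∑ b ∈ range J,
  ∑ i' ∈ range (S + 1), ∑ a' ∈ range J, ∑ b' ∈ range J,
    if a < b ∧ a' < b' ∧ i + a + b = i' + a' + b' then
      G i a b i' a' b' * (pairVec Q L m i a b * pairVec Q L m' i' a' b') else 0

/-- Share of channel `k`. -/
noncomputable def rho (Q k : ℕ) : ℝ := (3 * (Q : ℝ) - 1 - 2 * k) / (2 * (Q : ℝ) - 1)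

/-- The defect of the one-fermion coverage at flux `Q`. -/
noncomputable def defect (Q S J : ℕ) (w : ℕ → ℕ → ℕ → ℕ → ℝ) : ℝ :=
  ∑ k ∈ range 30 \ {0, 1, 3}, ((k : ℝ) + 1) * max 0 (rho Q k * chanW Q k - cov1Q Q S J w k)

/-- The error of the two-fermion coverage at flux `Q`. -/
noncomputable def perr (Q S J : ℕ) (G : ℕ → ℕ → ℕ → ℕ → ℕ → ℕ → ℝ) : ℝ :=
  ∑ L ∈ Icc 1 (S + 2 * J), (((L : ℝ) + 1) ^ 6 * (((2 * L : ℕ) : ℝ) - 1) / (2 * (2 * (Q : ℝ) - 1)) +
    ∑ m ∈ (range (L + 1)).filter Odd, ∑ m' ∈ (range (L + 1)).filter Odd,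
      |cov2Q Q S J G L m m' - cov2Lim S J G L m m'| * ((L : ℝ) + 1) ^ 6)

/-- Majorant of the geometric tail. -/
noncomputable def tailF (k : ℕ) : ℝ := (2 * (k : ℝ) ^ 2 + 10 * k + 16) / 2 ^ k

theorem tail_le (K m : ℕ) :
    ∑ j ∈ range m, ((K + j : ℕ) : ℝ) * (((K + j : ℕ) : ℝ) + 1) / 2 ^ (K + j) ≤
      tailF K - tailF (K + m) := by
  induction m with
  | zero => simp
  | succ m ih =>
    rw [Finset.sum_range_succ, ← add_assoc K m 1]
    have h : ((K + m : ℕ) : ℝ) * (((K + m : ℕ) : ℝ) + 1) / 2 ^ (K + m) ≤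
        tailF (K + m) - tailF (K + m + 1) := by
      simp only [tailF, Nat.cast_add, Nat.cast_one, pow_succ]
      have hp : (0 : ℝ) < 2 ^ (K + m) := by positivity
      have hn : (0 : ℝ) ≤ ((K + m : ℕ) : ℝ) := Nat.cast_nonneg _
      push_cast at hn
      rw [div_sub_div _ _ hp.ne' (by positivity), div_le_div_iff₀ hp (by positivity)]
      nlinarith [mul_pos hp hp, mul_nonneg hn (mul_pos hp hp).le]
    linarith

theorem sum_imp_range {R S : ℕ} (h : S + 1 ≤ R) (f : ℕ → ℝ) :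
    ∑ i : Fin R, (if (i : ℕ) ≤ S then f i else 0) = ∑ i ∈ range (S + 1), f i := by
  rw [Fin.sum_univ_eq_sum_range (fun i => if i ≤ S then f i else 0), ← Finset.sum_filter]
  refine Finset.sum_congr ?_ fun _ _ => rfl
  ext i
  simp only [mem_filter, mem_range]
  omega

theorem sum_orb_range {R J : ℕ} (h : J ≤ R) (f : ℕ → ℝ) :
    ∑ a : Fin R, (if (a : ℕ) < J then f a else 0) = ∑ a ∈ range J, f a := by
  rw [Fin.sum_univ_eq_sum_range (fun a => if a < J then f a else 0), ← Finset.sum_filter]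
  refine Finset.sum_congr ?_ fun _ _ => rfl
  ext i
  simp only [mem_filter, mem_range]
  omega

variable {Q n : ℕ} {ι : Type} [Fintype ι] {e : ι → Conf Q n → ℝ}

theorem window_one (hQ : 4 ≤ Q) (he : InvFamily e) {S J : ℕ} (hSJ : S + J + 2 ≤ Q)
    (w : ℕ → ℕ → ℕ → ℕ → ℝ) :
    ∑ i : Imp Q, ∑ a : Orb Q, ∑ i' : Imp Q, ∑ a' : Orb Q,
      (if (i : ℕ) ≤ S ∧ (a : ℕ) < J ∧ (i' : ℕ) ≤ S ∧ (a' : ℕ) < J then
        w i a i' a' * M1 e (i, a) (i', a') else 0) =
      ∑ k ∈ range (S + J), gval e k * cov1Q Q S J w k := by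
  set F : ℕ → ℕ → ℕ → ℕ → ℝ := fun i a i' a' => if i + a = i' + a' then
    w i a i' a' * ∑ k ∈ range (i + a + 1),
      coup (2 * Q - 2) Q k (i + a) i a * coup (2 * Q - 2) Q k (i + a) i' a' * gval e k else 0
  have h1 : ∀ (i : Imp Q) (a : Orb Q) (i' : Imp Q) (a' : Orb Q),
      (if (i : ℕ) ≤ S ∧ (a : ℕ) < J ∧ (i' : ℕ) ≤ S ∧ (a' : ℕ) < J then
        w i a i' a' * M1 e (i, a) (i', a') else 0) =
      if (i : ℕ) ≤ S then if (a : ℕ) < J then if (i' : ℕ) ≤ S then if (a' : ℕ) < J then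
        F i a i' a' else 0 else 0 else 0 else 0 := by
    intro i a i' a'
    by_cases h : (i : ℕ) ≤ S ∧ (a : ℕ) < J ∧ (i' : ℕ) ≤ S ∧ (a' : ℕ) < J
    · obtain ⟨h1, h2, h3, h4⟩ := h
      rw [if_pos ⟨h1, h2, h3, h4⟩, if_pos h1, if_pos h2, if_pos h3, if_pos h4,
        M1_expand hQ he (i, a) (i', a') (by simp only [lev2]; omega) (by simp only [lev2]; omega)]
      simp only [F]
      by_cases hT : lev2 (i, a) = lev2 (i', a')
      · have hT' : (i : ℕ) + a = (i' : ℕ) + a' := hT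
        rw [if_pos hT, if_pos hT']
        rfl
      · have hT' : ¬ (i : ℕ) + a = (i' : ℕ) + a' := hT
        rw [if_neg hT, if_neg hT', mul_zero]
    · rw [if_neg h]
      split_ifs <;> first | rfl | (exfalso; apply h; refine ⟨?_, ?_, ?_, ?_⟩ <;> assumption)
  simp only [h1, Finset.sum_ite_irrel, Finset.sum_const_zero]
  refine Eq.trans (b := ∑ i ∈ range (S + 1), ∑ a ∈ range J, ∑ i' ∈ range (S + 1), ∑ a' ∈ range J,
    F i a i' a') ?_ ?_
  · simp only [← sum_imp_range (show S + 1 ≤ 2 * Q - 1 by omega),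
      ← sum_orb_range (show J ≤ Q + 1 by omega)]
  have h2 : ∀ k, gval e k * cov1Q Q S J w k = ∑ i ∈ range (S + 1), ∑ a ∈ range J,
      ∑ i' ∈ range (S + 1), ∑ a' ∈ range J, if k ≤ i + a then
        (if i + a = i' + a' then w i a i' a' *
          (coup (2 * Q - 2) Q k (i + a) i a * coup (2 * Q - 2) Q k (i + a) i' a' * gval e k) else 0)
        else 0 := by
    intro k
    simp only [cov1Q, Finset.mul_sum, mul_ite, mul_zero]
    refine Finset.sum_congr rfl fun i _ => Finset.sum_congr rfl fun a _ =>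
      Finset.sum_congr rfl fun i' _ => Finset.sum_congr rfl fun a' _ => ?_
    by_cases c1 : i + a = i' + a' <;> by_cases c2 : k ≤ i + a <;> simp [c1, c2] <;> ring
  simp only [h2]
  symm
  rw [Finset.sum_comm]; refine Finset.sum_congr rfl fun i hi => ?_
  rw [Finset.sum_comm]; refine Finset.sum_congr rfl fun a ha => ?_
  rw [Finset.sum_comm]; refine Finset.sum_congr rfl fun i' hi' => ?_
  rw [Finset.sum_comm]; refine Finset.sum_congr rfl fun a' ha' => ?_
  rw [mem_range] at hi ha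
  simp only [F, Finset.mul_sum]
  by_cases hT : i + a = i' + a'
  · simp only [if_pos hT]
    rw [← Finset.sum_filter]
    refine Finset.sum_congr ?_ fun _ _ => rfl
    ext k
    simp only [mem_filter, mem_range]
    omega
  · simp [if_neg hT]

theorem vec3_pairVec {L m : ℕ} {i : Imp Q} {a b : Orb Q} (hm : m ≤ L)
    (hL : L ≤ (i : ℕ) + a + b) :
    vec3 Q L m ((i : ℕ) + a + b) (i, (a, b)) = pairVec Q L m i a b := by
  simp only [vec3, pv, pairVec]
  by_cases h : m ≤ (a : ℕ) + b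
  · rw [if_pos h, if_pos ⟨hm, h, hL⟩]
  · rw [if_neg h, if_neg fun h' => h h'.2.1]

theorem window_two (hQ : 4 ≤ Q) (he : InvFamily e) {S J : ℕ} (hSJ : 4 * (S + 2 * J) ≤ Q)
    (G : ℕ → ℕ → ℕ → ℕ → ℕ → ℕ → ℝ) :
    ∑ i : Imp Q, ∑ a : Orb Q, ∑ b : Orb Q, ∑ i' : Imp Q, ∑ a' : Orb Q, ∑ b' : Orb Q,
      (if (i : ℕ) ≤ S ∧ (a : ℕ) < (b : ℕ) ∧ (b : ℕ) < J ∧ (i' : ℕ) ≤ S ∧ (a' : ℕ) < (b' : ℕ) ∧
          (b' : ℕ) < J then
        G i a b i' a' b' * M2 e (i, (a, b)) (i', (a', b')) else 0) =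
      ∑ L ∈ Icc 1 (S + 2 * J), ∑ m ∈ (range (L + 1)).filter Odd, ∑ m' ∈ (range (L + 1)).filter Odd,
        cov2Q Q S J G L m m' * bval e L m m' := by
  set F : ℕ → ℕ → ℕ → ℕ → ℕ → ℕ → ℝ := fun i a b i' a' b' =>
    if a < b ∧ a' < b' ∧ i + a + b = i' + a' + b' then
      ∑ L ∈ range (i + a + b + 1), ∑ m ∈ (range (L + 1)).filter Odd,
        ∑ m' ∈ (range (L + 1)).filter Odd,
          G i a b i' a' b' * (pairVec Q L m i a b * pairVec Q L m' i' a' b') * bval e L m m'
    else 0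
  have h1 : ∀ (i : Imp Q) (a b : Orb Q) (i' : Imp Q) (a' b' : Orb Q),
      (if (i : ℕ) ≤ S ∧ (a : ℕ) < (b : ℕ) ∧ (b : ℕ) < J ∧ (i' : ℕ) ≤ S ∧ (a' : ℕ) < (b' : ℕ) ∧
          (b' : ℕ) < J then
        G i a b i' a' b' * M2 e (i, (a, b)) (i', (a', b')) else 0) =
      if (i : ℕ) ≤ S then if (a : ℕ) < J then if (b : ℕ) < J then if (i' : ℕ) ≤ S then
        if (a' : ℕ) < J then if (b' : ℕ) < J then
        F i a b i' a' b' else 0 else 0 else 0 else 0 else 0 else 0 := by
    intro i a b i' a' b'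
    by_cases h : (i : ℕ) ≤ S ∧ (a : ℕ) < (b : ℕ) ∧ (b : ℕ) < J ∧ (i' : ℕ) ≤ S ∧ (a' : ℕ) < (b' : ℕ) ∧
        (b' : ℕ) < J
    · obtain ⟨h1, h2, h3, h4, h5, h6⟩ := h
      rw [if_pos ⟨h1, h2, h3, h4, h5, h6⟩, if_pos h1, if_pos (by omega), if_pos h3, if_pos h4,
        if_pos (by omega), if_pos h6,
        M2_expand hQ he (i, (a, b)) (i', (a', b')) (by simp only [lev3]; omega)
          (by simp only [lev3]; omega)]
      by_cases hU' : lev3 (i, (a, b)) = lev3 (i', (a', b'))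
      · have hU : (i : ℕ) + a + b = (i' : ℕ) + a' + b' := hU'
        rw [if_pos hU']
        simp only [F]
        rw [if_pos ⟨h2, h5, hU⟩, Finset.mul_sum]
        refine Finset.sum_congr rfl fun L hL => ?_
        rw [Finset.mul_sum]
        refine Finset.sum_congr rfl fun m hm => ?_
        rw [Finset.mul_sum]
        refine Finset.sum_congr rfl fun m' hm' => ?_
        simp only [mem_filter, mem_range, lev3] at hL hm hm'
        simp only [lev3]
        rw [vec3_pairVec (by omega) (by omega)]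
        conv_lhs => rw [hU, vec3_pairVec (by omega) (by omega)]
        ring
      · rw [if_neg hU', mul_zero]
        simp only [F]
        rw [if_neg fun hh => hU' hh.2.2]
    · rw [if_neg h]
      split_ifs with g1 g2 g3 g4 g5 g6 <;> try rfl
      simp only [F]
      rw [if_neg fun hh => h ⟨g1, hh.1, g3, g4, hh.2.1, g6⟩]
  simp only [h1, Finset.sum_ite_irrel, Finset.sum_const_zero]
  refine Eq.trans (b := ∑ i ∈ range (S + 1), ∑ a ∈ range J, ∑ b ∈ range J, ∑ i' ∈ range (S + 1),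
    ∑ a' ∈ range J, ∑ b' ∈ range J, F i a b i' a' b') ?_ ?_
  · simp only [← sum_imp_range (show S + 1 ≤ 2 * Q - 1 by omega),
      ← sum_orb_range (show J ≤ Q + 1 by omega)]
  symm
  simp only [cov2Q, Finset.sum_mul]
  have hswap : ∀ (H : ℕ → ℕ → ℕ → ℕ → ℝ) (r : Finset ℕ),
      ∑ L ∈ Icc 1 (S + 2 * J), ∑ m ∈ (range (L + 1)).filter Odd,
        ∑ m' ∈ (range (L + 1)).filter Odd, ∑ x ∈ r, H L m m' x =
      ∑ x ∈ r, ∑ L ∈ Icc 1 (S + 2 * J), ∑ m ∈ (range (L + 1)).filter Odd,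
        ∑ m' ∈ (range (L + 1)).filter Odd, H L m m' x := by
    intro H r
    rw [Finset.sum_comm (s := r)]
    refine Finset.sum_congr rfl fun L _ => ?_
    rw [Finset.sum_comm (s := r)]
    exact Finset.sum_congr rfl fun m _ => Finset.sum_comm
  rw [hswap]; refine Finset.sum_congr rfl fun i hi => ?_
  rw [hswap]; refine Finset.sum_congr rfl fun a ha => ?_
  rw [hswap]; refine Finset.sum_congr rfl fun b hb => ?_
  rw [hswap]; refine Finset.sum_congr rfl fun i' hi' => ?_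
  rw [hswap]; refine Finset.sum_congr rfl fun a' ha' => ?_
  rw [hswap]; refine Finset.sum_congr rfl fun b' hb' => ?_
  rw [mem_range] at hi ha hb
  simp only [F, ite_mul, zero_mul]
  by_cases hc : a < b ∧ a' < b' ∧ i + a + b = i' + a' + b'
  · simp only [if_pos hc]
    have hsub : ∀ (g : ℕ → ℝ), g 0 = 0 → (∀ L, i + a + b < L → g L = 0) →
        ∑ L ∈ Icc 1 (S + 2 * J), g L = ∑ L ∈ range (i + a + b + 1), g L := by
      intro g h0 hbig
      refine (Finset.sum_subset
        (Finset.subset_union_left (s₂ := range (i + a + b + 1))) ?_).trans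
        (Finset.sum_subset (Finset.subset_union_right (s₁ := Icc 1 (S + 2 * J))) ?_).symm
      · intro L hL hn
        simp only [Finset.mem_union, mem_Icc, mem_range] at hL hn
        rw [show L = 0 by omega, h0]
      · intro L hL hn
        simp only [Finset.mem_union, mem_Icc, mem_range] at hL hn
        exact hbig L (by omega)
    refine hsub _ ?_ ?_
    · simp [Finset.sum_filter]
    · intro L hL
      refine Finset.sum_eq_zero fun m _ => Finset.sum_eq_zero fun m' _ => ?_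
      rw [show pairVec Q L m i a b = 0 by simp only [pairVec]; rw [if_neg (by omega)]]
      ring
  · simp [if_neg hc]

/-- The certificate evaluated on a stable family. -/
theorem window_ineq (hQ : 4 ≤ Q) (he : InvFamily e) {S J : ℕ} {C : ℕ → ℝ}
    {w : ℕ → ℕ → ℕ → ℕ → ℝ} {G : ℕ → ℕ → ℕ → ℕ → ℕ → ℕ → ℝ} (hcert : WinCert S J C w G)
    (hSJ : 4 * (S + 2 * J) + 2 ≤ Q) :
    0 ≤ tval hQ e * (∑ i ∈ range (S + 1), C i) - ∑ k ∈ range (S + J), gval e k * cov1Q Q S J w k +
      ∑ L ∈ Icc 1 (S + 2 * J), ∑ m ∈ (range (L + 1)).filter Odd, ∑ m' ∈ (range (L + 1)).filter Odd,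
        cov2Q Q S J G L m m' * bval e L m m' := by
  have h := Finset.sum_nonneg fun j (_ : j ∈ (univ : Finset ι)) =>
    window_marg (S := S) (J := J) (by omega) (by omega) hcert.pos (e j) (he.allowed j).1
  rw [Finset.sum_add_distrib, Finset.sum_sub_distrib] at h
  rw [← window_one hQ he (by omega) w, ← window_two hQ he (by omega) G]
  have h0 : (∑ j, ∑ i : Imp Q, if (i : ℕ) ≤ S then C i * marg0 (e j) i i else 0) =
      tval hQ e * ∑ i ∈ range (S + 1), C i := by
    rw [Finset.sum_comm, Finset.mul_sum,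
      ← sum_imp_range (show S + 1 ≤ 2 * Q - 1 by omega) (fun i => tval hQ e * C i)]
    refine Finset.sum_congr rfl fun i _ => ?_
    split_ifs
    · rw [← Finset.mul_sum, ← M0_apply, M0_diag hQ he, mul_comm]
    · simp
  have h1 : (∑ j, ∑ i : Imp Q, ∑ a : Orb Q, ∑ i' : Imp Q, ∑ a' : Orb Q,
      if (i : ℕ) ≤ S ∧ (a : ℕ) < J ∧ (i' : ℕ) ≤ S ∧ (a' : ℕ) < J then
        w i a i' a' * marg1 (e j) i a i' a' else 0) =
      ∑ i : Imp Q, ∑ a : Orb Q, ∑ i' : Imp Q, ∑ a' : Orb Q,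
      if (i : ℕ) ≤ S ∧ (a : ℕ) < J ∧ (i' : ℕ) ≤ S ∧ (a' : ℕ) < J then
        w i a i' a' * M1 e (i, a) (i', a') else 0 := by
    rw [Finset.sum_comm]; refine Finset.sum_congr rfl fun i _ => ?_
    rw [Finset.sum_comm]; refine Finset.sum_congr rfl fun a _ => ?_
    rw [Finset.sum_comm]; refine Finset.sum_congr rfl fun i' _ => ?_
    rw [Finset.sum_comm]; refine Finset.sum_congr rfl fun a' _ => ?_
    rw [M1_apply, Finset.mul_sum]
    split_ifs <;> simp
  have h2 : (∑ j, ∑ i : Imp Q, ∑ a : Orb Q, ∑ b : Orb Q, ∑ i' : Imp Q, ∑ a' : Orb Q, ∑ b' : Orb Q,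
      if (i : ℕ) ≤ S ∧ (a : ℕ) < (b : ℕ) ∧ (b : ℕ) < J ∧ (i' : ℕ) ≤ S ∧ (a' : ℕ) < (b' : ℕ) ∧
          (b' : ℕ) < J then
        G i a b i' a' b' * marg2 (e j) i a b i' a' b' else 0) =
      ∑ i : Imp Q, ∑ a : Orb Q, ∑ b : Orb Q, ∑ i' : Imp Q, ∑ a' : Orb Q, ∑ b' : Orb Q,
      if (i : ℕ) ≤ S ∧ (a : ℕ) < (b : ℕ) ∧ (b : ℕ) < J ∧ (i' : ℕ) ≤ S ∧ (a' : ℕ) < (b' : ℕ) ∧
          (b' : ℕ) < J then
        G i a b i' a' b' * M2 e (i, (a, b)) (i', (a', b')) else 0 := by
    rw [Finset.sum_comm]; refine Finset.sum_congr rfl fun i _ => ?_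
    rw [Finset.sum_comm]; refine Finset.sum_congr rfl fun a _ => ?_
    rw [Finset.sum_comm]; refine Finset.sum_congr rfl fun b _ => ?_
    rw [Finset.sum_comm]; refine Finset.sum_congr rfl fun i' _ => ?_
    rw [Finset.sum_comm]; refine Finset.sum_congr rfl fun a' _ => ?_
    rw [Finset.sum_comm]; refine Finset.sum_congr rfl fun b' _ => ?_
    rw [M2_apply, Finset.mul_sum]
    split_ifs <;> simp
  rwa [h0, h1, h2] at h

theorem defect_tendsto (S J : ℕ) (w : ℕ → ℕ → ℕ → ℕ → ℝ) :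
    Tendsto (fun Q => defect Q S J w) atTop (𝓝 (∑ k ∈ range 30 \ {0, 1, 3},
      ((k : ℝ) + 1) * max 0 (3 / 2 * wLim k - cov1Lim S J w k))) := by
  refine tendsto_finsetSum _ fun k hk => ?_
  simp only [Finset.mem_sdiff, mem_insert, mem_singleton] at hk
  refine ((tendsto_const_nhds.max ((?_ : Tendsto (fun Q => rho Q k) atTop (𝓝 (3 / 2))).mul
    (chanW_limit (by omega)) |>.sub ?_))).const_mul _
  · have h0 : Tendsto (fun Q : ℕ => 3 / 2 + (1 / 2 - 2 * (k : ℝ)) / (2 * (Q : ℝ) - 1)) atTop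
        (𝓝 (3 / 2)) := by
      conv => arg 3; rw [← add_zero (3 / 2 : ℝ)]
      refine tendsto_const_nhds.add (tendsto_const_nhds.div_atTop ?_)
      exact tendsto_atTop_add_const_right _ _
        (tendsto_natCast_atTop_atTop.const_mul_atTop two_pos)
    refine h0.congr' ?_
    filter_upwards [eventually_ge_atTop 1] with Q hQ
    have : (1 : ℝ) ≤ Q := by exact_mod_cast hQ
    rw [rho, eq_div_iff (by linarith), add_mul, div_mul_cancel₀ _ (by linarith)]
    ring
  · unfold cov1Q cov1Lim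
    refine tendsto_finsetSum _ fun i _ => tendsto_finsetSum _ fun a _ =>
      tendsto_finsetSum _ fun i' _ => tendsto_finsetSum _ fun a' _ => ?_
    split_ifs
    · exact ((coupI_tendsto _ _ _ _).mul (coupI_tendsto _ _ _ _)).const_mul _
    · exact tendsto_const_nhds

theorem perr_tendsto (S J : ℕ) (G : ℕ → ℕ → ℕ → ℕ → ℕ → ℕ → ℝ) :
    Tendsto (fun Q => perr Q S J G) atTop (𝓝 0) := by
  rw [show (0 : ℝ) = ∑ L ∈ Icc 1 (S + 2 * J), (0 : ℝ) by simp]
  refine tendsto_finsetSum _ fun L _ => ?_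
  rw [show (0 : ℝ) = 0 + ∑ m ∈ (range (L + 1)).filter Odd,
    ∑ m' ∈ (range (L + 1)).filter Odd, (0 : ℝ) by simp]
  refine Tendsto.add ?_ (tendsto_finsetSum _ fun m _ => tendsto_finsetSum _ fun m' _ => ?_)
  · refine tendsto_const_nhds.div_atTop (Tendsto.const_mul_atTop two_pos ?_)
    exact tendsto_atTop_add_const_right _ _
      (tendsto_natCast_atTop_atTop.const_mul_atTop two_pos)
  · have h : Tendsto (fun Q => cov2Q Q S J G L m m') atTop (𝓝 (cov2Lim S J G L m m')) := by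
      unfold cov2Q cov2Lim
      refine tendsto_finsetSum _ fun i _ => tendsto_finsetSum _ fun a _ =>
        tendsto_finsetSum _ fun b _ => tendsto_finsetSum _ fun i' _ =>
        tendsto_finsetSum _ fun a' _ => tendsto_finsetSum _ fun b' _ => ?_
      split_ifs
      · exact ((pairVec_tendsto _ _ _ _ _).mul (pairVec_tendsto _ _ _ _ _)).const_mul _
      · exact tendsto_const_nhds
    simpa using ((h.sub tendsto_const_nhds).abs.mul_const (((L : ℝ) + 1) ^ 6) :
      Tendsto (fun Q => |cov2Q Q S J G L m m' - cov2Lim S J G L m m'| * ((L : ℝ) + 1) ^ 6) atTop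
        (𝓝 (|cov2Lim S J G L m m' - cov2Lim S J G L m m'| * ((L : ℝ) + 1) ^ 6)))

/-- The constant of the key inequality. -/
noncomputable def keyConst : ℝ := 9995 / 10000

theorem family_nonneg (hQ : 4 ≤ Q) (he : InvFamily e) {S J : ℕ} {C : ℕ → ℝ}
    {w : ℕ → ℕ → ℕ → ℕ → ℝ} {G : ℕ → ℕ → ℕ → ℕ → ℕ → ℕ → ℝ} (hcert : WinCert S J C w G)
    (hSJ : S + J ≤ 30) (hbig : 4 * (S + 2 * J) + 30 ≤ Q)
    (hdef : defect Q S J w ≤ (∑ k ∈ range 30 \ {0, 1, 3},
      ((k : ℝ) + 1) * max 0 (3 / 2 * wLim k - cov1Lim S J w k)) + 2 / 10000)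
    (herr : perr Q S J G ≤ 2 / 10000) :
    0 ≤ ftr e (keyOp Q n keyConst) := by
  have ht := tval_nonneg hQ e
  have hD : (0 : ℝ) < 2 * (Q : ℝ) - 1 := by
    have : (4 : ℝ) ≤ Q := by exact_mod_cast hQ
    linarith
  -- trace of the operator
  have hftr : ftr e (keyOp Q n keyConst) = keyConst * ((2 * (Q : ℝ) - 1) * tval hQ e) +
      ∑ j, fermEnergy (e j) - ∑ j, exchEnergy (e j) := by
    rw [ftr, ← card_family hQ he]
    simp only [keyOp_form]
    have h1 : ∀ j, confNormSq (e j) = 1 := fun j => by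
      rw [← he.norm j]; simp [confNormSq, dotProduct, sq]
    simp only [h1, mul_one, Finset.sum_sub_distrib, Finset.sum_add_distrib, Finset.sum_const,
      Finset.card_univ, nsmul_eq_mul]
    ring
  -- two fermions
  have hpair : ∑ L ∈ Icc 1 (S + 2 * J), ∑ m ∈ (range (L + 1)).filter Odd,
      ∑ m' ∈ (range (L + 1)).filter Odd, cov2Q Q S J G L m m' * bval e L m m' ≤
      (∑ j, fermEnergy (e j)) / (2 * (Q : ℝ) - 1) + tval hQ e * perr Q S J G := by
    have hf := ferm_sum hQ he (S + 2 * J) (by omega)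
    have hf' : ∑ L ∈ Icc 1 (S + 2 * J),
        (4 * (Q : ℝ) - 1 - 2 * L) / (2 * (2 * (Q : ℝ) - 1)) * bval e L 1 1 ≤
        (∑ j, fermEnergy (e j)) / (2 * (Q : ℝ) - 1) := by
      simp only [div_mul_eq_mul_div, ← Finset.sum_div]
      rw [div_le_div_iff₀ (by linarith) hD]
      nlinarith [hf]
    rw [perr, Finset.mul_sum]
    refine le_trans ?_ (add_le_add hf' le_rfl)
    rw [← Finset.sum_add_distrib]
    refine Finset.sum_le_sum fun L hL => ?_
    rw [mem_Icc] at hL
    have hb : ∀ m ∈ (range (L + 1)).filter Odd, ∀ m' ∈ (range (L + 1)).filter Odd,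
        cov2Q Q S J G L m m' * bval e L m m' ≤ cov2Lim S J G L m m' * bval e L m m' +
          tval hQ e * (|cov2Q Q S J G L m m' - cov2Lim S J G L m m'| * ((L : ℝ) + 1) ^ 6) := by
      intro m hm m' hm'
      simp only [mem_filter, mem_range] at hm hm'
      have h2 := bval_abs_le hQ he (L := L) (m := m) (m' := m') (by omega) (by omega) (by omega)
      have h3 := le_abs_self ((cov2Q Q S J G L m m' - cov2Lim S J G L m m') * bval e L m m')
      rw [abs_mul] at h3
      nlinarith [mul_le_mul_of_nonneg_left h2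
        (abs_nonneg (cov2Q Q S J G L m m' - cov2Lim S J G L m m'))]
    refine (Finset.sum_le_sum fun m hm => Finset.sum_le_sum fun m' hm' => hb m hm m' hm').trans ?_
    simp only [Finset.sum_add_distrib]
    have h11 := bval_form e L ((range (L + 1)).filter Odd) (cov2Lim S J G L)
      (fun v => hcert.cov2 L (by omega) v)
    have hb1 := le_trans (le_abs_self _) (bval_abs_le hQ he (L := L) (m := 1) (m' := 1)
      (by omega) hL.1 hL.1)
    have hr : bval e L 1 1 ≤ (4 * (Q : ℝ) - 1 - 2 * L) / (2 * (2 * (Q : ℝ) - 1)) * bval e L 1 1 +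
        tval hQ e * (((L : ℝ) + 1) ^ 6 * (((2 * L : ℕ) : ℝ) - 1) / (2 * (2 * (Q : ℝ) - 1))) := by
      have hL1 : (1 : ℝ) ≤ L := by exact_mod_cast hL.1
      push_cast
      rw [← sub_nonneg]
      have e1 : (4 * (Q : ℝ) - 1 - 2 * L) / (2 * (2 * (Q : ℝ) - 1)) * bval e L 1 1 +
          tval hQ e * (((L : ℝ) + 1) ^ 6 * (2 * (L : ℝ) - 1) / (2 * (2 * (Q : ℝ) - 1))) -
          bval e L 1 1 = (tval hQ e * ((L : ℝ) + 1) ^ 6 - bval e L 1 1) * (2 * (L : ℝ) - 1) /
            (2 * (2 * (Q : ℝ) - 1)) := by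
        have hne : 2 * (2 * (Q : ℝ) - 1) ≠ 0 := mul_ne_zero two_ne_zero hD.ne'
        rw [show (4 * (Q : ℝ) - 1 - 2 * L) = 2 * (2 * (Q : ℝ) - 1) - (2 * (L : ℝ) - 1) by ring]
        generalize 2 * (2 * (Q : ℝ) - 1) = D2 at hne ⊢
        field_simp
        ring
      rw [e1]
      exact div_nonneg (mul_nonneg (by linarith) (by linarith)) (by linarith)
    simp only [mul_add, Finset.mul_sum]
    linarith
  -- one fermion
  have hone : (∑ j, exchEnergy (e j)) / (2 * (Q : ℝ) - 1) - ∑ k ∈ range (S + J),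
      gval e k * cov1Q Q S J w k ≤ tval hQ e * (defect Q S J w + 12 * tailF 30) := by
    have hcov : ∀ k, S + J ≤ k → cov1Q Q S J w k = 0 := by
      intro k hk
      refine Finset.sum_eq_zero fun i hi => Finset.sum_eq_zero fun a ha =>
        Finset.sum_eq_zero fun i' _ => Finset.sum_eq_zero fun a' _ => if_neg ?_
      rw [mem_range] at hi ha
      omega
    have he1 : (∑ j, exchEnergy (e j)) / (2 * (Q : ℝ) - 1) =
        ∑ k ∈ range (Q + 1), rho Q k * chanW Q k * gval e k := by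
      rw [exch_sum hQ he, Finset.sum_div]
      exact Finset.sum_congr rfl fun k _ => by rw [rho]; ring
    have he2 : ∑ k ∈ range (S + J), gval e k * cov1Q Q S J w k =
        ∑ k ∈ range (Q + 1), gval e k * cov1Q Q S J w k :=
      Finset.sum_subset (Finset.range_subset_range.2 (by omega)) fun k _ hk => by
        rw [hcov k (by simpa using hk), mul_zero]
    rw [he1, he2, ← Finset.sum_sub_distrib,
      show Q + 1 = 30 + (Q + 1 - 30) by omega, Finset.sum_range_add, mul_add]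
    refine add_le_add ?_ ?_
    · rw [← Finset.sum_sdiff (show ({0, 1, 3} : Finset ℕ) ⊆ range 30 by decide),
        Finset.sum_eq_zero (s := ({0, 1, 3} : Finset ℕ)) (fun k hk => by
          rw [gval_null hQ he hk]; ring), add_zero, defect, Finset.mul_sum]
      refine Finset.sum_le_sum fun k hk => ?_
      simp only [Finset.mem_sdiff, mem_range] at hk
      have hg := gval_le hQ he (k := k) (by omega)
      have hg0 := gval_nonneg e k
      have hm0 := le_max_left 0 (rho Q k * chanW Q k - cov1Q Q S J w k)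
      have hm1 := le_max_right 0 (rho Q k * chanW Q k - cov1Q Q S J w k)
      nlinarith [mul_le_mul_of_nonneg_right hm1 hg0, mul_le_mul_of_nonneg_left hg hm0]
    · have hb : ∀ j ∈ range (Q + 1 - 30), rho Q (30 + j) * chanW Q (30 + j) * gval e (30 + j) -
          gval e (30 + j) * cov1Q Q S J w (30 + j) ≤ tval hQ e * (12 *
            (((30 + j : ℕ) : ℝ) * (((30 + j : ℕ) : ℝ) + 1) / 2 ^ (30 + j))) := by
        intro j hj
        rw [mem_range] at hj
        rw [hcov _ (by omega), mul_zero, sub_zero]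
        set k := 30 + j with hk
        have hkQ : (k : ℝ) ≤ Q := by exact_mod_cast (show k ≤ Q by omega)
        have hg := gval_le hQ he (k := k) (by omega)
        have hg0 := gval_nonneg e k
        have hw := chanW_bound hQ (show 2 ≤ k by omega) (show k ≤ Q by omega)
        have hk0 : (0 : ℝ) ≤ k := Nat.cast_nonneg _
        have hr0 : 0 ≤ rho Q k := div_nonneg (by
          have : (4 : ℝ) ≤ Q := by exact_mod_cast hQ
          linarith) hD.le
        have hr2 : rho Q k ≤ 2 := by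
          rw [rho, div_le_iff₀ hD]
          have : (4 : ℝ) ≤ Q := by exact_mod_cast hQ
          linarith
        calc rho Q k * chanW Q k * gval e k ≤ |rho Q k * chanW Q k * gval e k| := le_abs_self _
          _ = rho Q k * |chanW Q k| * gval e k := by
              rw [abs_mul, abs_mul, abs_of_nonneg hr0, abs_of_nonneg hg0]
          _ ≤ 2 * (6 * k / 2 ^ k) * (((k : ℝ) + 1) * tval hQ e) := by
              refine mul_le_mul (mul_le_mul hr2 hw (abs_nonneg _) (by norm_num)) hg hg0 ?_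
              positivity
          _ = _ := by ring
      refine (Finset.sum_le_sum hb).trans ?_
      rw [← Finset.mul_sum, ← Finset.mul_sum]
      refine mul_le_mul_of_nonneg_left (mul_le_mul_of_nonneg_left ?_ (by norm_num)) ht
      refine (tail_le 30 (Q + 1 - 30)).trans ?_
      have : 0 ≤ tailF (30 + (Q + 1 - 30)) := by unfold tailF; positivity
      linarith
  -- assembly
  have hwin := window_ineq hQ he hcert (by omega)
  have htail : 12 * tailF 30 ≤ 1 / 10000 := by norm_num [tailF]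
  have hsum : (∑ i ∈ range (S + 1), C i) + defect Q S J w + perr Q S J G + 12 * tailF 30 ≤
      keyConst := by
    have := hcert.cov1
    rw [keyConst]
    linarith
  have hfin : (∑ j, exchEnergy (e j)) / (2 * (Q : ℝ) - 1) ≤
      keyConst * tval hQ e + (∑ j, fermEnergy (e j)) / (2 * (Q : ℝ) - 1) := by
    nlinarith [mul_le_mul_of_nonneg_left hsum ht]
  rw [hftr]
  rw [← sub_nonneg] at hfin
  have : 0 ≤ (2 * (Q : ℝ) - 1) * (keyConst * tval hQ e +
      (∑ j, fermEnergy (e j)) / (2 * (Q : ℝ) - 1) -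
      (∑ j, exchEnergy (e j)) / (2 * (Q : ℝ) - 1)) := mul_nonneg hD.le hfin
  rw [mul_sub, mul_add, mul_div_cancel₀ _ hD.ne', mul_div_cancel₀ _ hD.ne'] at this
  linarith

/-- The key inequality at all large flux, given a window certificate. -/
theorem key_of_cert {S J : ℕ} {C : ℕ → ℝ} {w : ℕ → ℕ → ℕ → ℕ → ℝ}
    {G : ℕ → ℕ → ℕ → ℕ → ℕ → ℕ → ℝ} (hcert : WinCert S J C w G) (hSJ : S + J ≤ 30) :
    ∃ Q0 : ℕ, ∀ Q, Q0 ≤ Q → ∀ (n : ℕ) (X : Conf Q n → ℝ), Allowed X →
      exchEnergy X ≤ keyConst * confNormSq X + fermEnergy X := by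
  have h1 := (defect_tendsto S J w).eventually_le_const
    (lt_add_of_pos_right _ (show (0 : ℝ) < 2 / 10000 by norm_num))
  have h2 := (perr_tendsto S J G).eventually_le_const (show (0 : ℝ) < 2 / 10000 by norm_num)
  obtain ⟨Q0, hQ0⟩ := eventually_atTop.1 (h1.and h2)
  refine ⟨max Q0 (4 * (S + 2 * J) + 30), fun Q hQ n X hX => ?_⟩
  have hQ4 : 4 ≤ Q := by omega
  exact key_of_families hQ4 (sym_of_expand hQ4) keyConst (fun d e he =>
    family_nonneg hQ4 he hcert hSJ (by omega) (hQ0 Q (by omega)).1 (hQ0 Q (by omega)).2) X hX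

end Vale.Agent.P359
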