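import Vale.Agent.P359.Basic

/-!
Local operators on functions of configurations, through lenses.
-/

namespace Vale.Agent.P359

open Finset Matrix
open scoped Kronecker

/-- A coordinate of a configuration. -/
structure Lens (Z κ : Type*) where
  get : Z → κ
  put : Z → κ → Z
  get_put : ∀ z u, get (put z u) = u
  put_get : ∀ z, put z (get z) = z
  put_put : ∀ z u v, put (put z u) v = put z v

namespace Lens

variable {Z κ κ' : Type*}

/-- Two lenses address disjoint coordinates. -/
structure Disj (l : Lens Z κ) (l' : Lens Z κ') : Prop where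
  left : ∀ z u, l.get (l'.put z u) = l.get z
  right : ∀ z u, l'.get (l.put z u) = l'.get z
  comm : ∀ z u v, l.put (l'.put z v) u = l'.put (l.put z u) v

theorem Disj.symm {l : Lens Z κ} {l' : Lens Z κ'} (h : Disj l l') : Disj l' l :=
  ⟨h.right, h.left, fun z u v => (h.comm z v u).symm⟩

/-- The pair of two disjoint lenses. -/
def prod (l : Lens Z κ) (l' : Lens Z κ') (h : Disj l l') : Lens Z (κ × κ') where
  get z := (l.get z, l'.get z)
  put z u := l'.put (l.put z u.1) u.2
  get_put z u := by simp [h.left, l.get_put, l'.get_put]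
  put_get z := by simp [l.put_get, l'.put_get]
  put_put z u v := by simp [h.comm, l.put_put, l'.put_put]

theorem Disj.prod_right {κ'' : Type*} {l : Lens Z κ} {l₁ : Lens Z κ'} {l₂ : Lens Z κ''}
    (h : Disj l₁ l₂) (h1 : Disj l l₁) (h2 : Disj l l₂) : Disj l (Lens.prod l₁ l₂ h) where
  left z u := by simp [Lens.prod, h1.left, h2.left]
  right z u := by simp [Lens.prod, h1.right, h2.right]
  comm z u v := by simp [Lens.prod, h1.comm, h2.comm]

/-- The operator of a matrix on one coordinate. -/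
def op [Fintype κ] (l : Lens Z κ) (K : Matrix κ κ ℝ) : (Z → ℝ) →ₗ[ℝ] (Z → ℝ) where
  toFun X z := ∑ u, K (l.get z) u * X (l.put z u)
  map_add' X Y := by ext z; simp [mul_add, Finset.sum_add_distrib]
  map_smul' c X := by
    ext z
    simp only [Pi.smul_apply, smul_eq_mul, RingHom.id_apply, Finset.mul_sum]
    exact Finset.sum_congr rfl fun u _ => by ring

variable [Fintype κ] [Fintype κ']

theorem op_apply (l : Lens Z κ) (K : Matrix κ κ ℝ) (X : Z → ℝ) (z : Z) :
    l.op K X z = ∑ u, K (l.get z) u * X (l.put z u) := rfl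

theorem op_mul (l : Lens Z κ) (K K' : Matrix κ κ ℝ) (X : Z → ℝ) :
    l.op (K * K') X = l.op K (l.op K' X) := by
  ext z
  simp only [op_apply, l.get_put, l.put_put, Matrix.mul_apply, Finset.sum_mul, Finset.mul_sum]
  rw [Finset.sum_comm]
  exact Finset.sum_congr rfl fun u _ => Finset.sum_congr rfl fun v _ => by ring

theorem op_one [DecidableEq κ] (l : Lens Z κ) (X : Z → ℝ) : l.op 1 X = X := by
  ext z
  rw [op_apply, Finset.sum_eq_single (l.get z)]
  · simp [l.put_get]
  · intro u _ hu; simp [Matrix.one_apply_ne (Ne.symm hu)]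
  · simp

theorem op_add (l : Lens Z κ) (K K' : Matrix κ κ ℝ) : l.op (K + K') = l.op K + l.op K' := by
  ext X z; simp [op_apply, add_mul, Finset.sum_add_distrib]

theorem op_sub (l : Lens Z κ) (K K' : Matrix κ κ ℝ) : l.op (K - K') = l.op K - l.op K' := by
  ext X z; simp [op_apply, sub_mul, Finset.sum_sub_distrib]

theorem op_smul (l : Lens Z κ) (c : ℝ) (K : Matrix κ κ ℝ) : l.op (c • K) = c • l.op K := by
  ext X z; simp [op_apply, Finset.mul_sum, mul_assoc]

theorem op_comm {l : Lens Z κ} {l' : Lens Z κ'} (h : Disj l l') (K : Matrix κ κ ℝ)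
    (K' : Matrix κ' κ' ℝ) (X : Z → ℝ) : l.op K (l'.op K' X) = l'.op K' (l.op K X) := by
  ext z
  simp only [op_apply, Finset.mul_sum, h.left, h.right, h.comm]
  rw [Finset.sum_comm]
  exact Finset.sum_congr rfl fun u _ => Finset.sum_congr rfl fun v _ => by ring

theorem op_kron {l : Lens Z κ} {l' : Lens Z κ'} (h : Disj l l') (K : Matrix κ κ ℝ)
    (K' : Matrix κ' κ' ℝ) (X : Z → ℝ) :
    (l.prod l' h).op (K ⊗ₖ K') X = l.op K (l'.op K' X) := by
  ext z
  simp only [op_apply, Finset.mul_sum, Fintype.sum_prod_type, Lens.prod,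
    Matrix.kroneckerMap_apply, h.right]
  exact Finset.sum_congr rfl fun u _ => Finset.sum_congr rfl fun v _ => by ring

theorem op_sum_kron [DecidableEq κ] [DecidableEq κ'] {l : Lens Z κ} {l' : Lens Z κ'}
    (h : Disj l l') (K : Matrix κ κ ℝ) (K' : Matrix κ' κ' ℝ) :
    (l.prod l' h).op (K ⊗ₖ (1 : Matrix κ' κ' ℝ) + (1 : Matrix κ κ ℝ) ⊗ₖ K') = l.op K + l'.op K' := by
  refine LinearMap.ext fun X => ?_
  rw [op_add, LinearMap.add_apply, op_kron, op_kron, op_one, op_one, LinearMap.add_apply]

variable [Fintype Z]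

theorem op_adj (l : Lens Z κ) (K : Matrix κ κ ℝ) (X Y : Z → ℝ) :
    X ⬝ᵥ l.op K Y = l.op Kᵀ X ⬝ᵥ Y := by
  simp only [dotProduct, op_apply, Finset.mul_sum, Finset.sum_mul, Matrix.transpose_apply]
  rw [← Fintype.sum_prod_type (f := fun q : Z × κ => X q.1 * (K (l.get q.1) q.2 * Y (l.put q.1 q.2))),
    ← Fintype.sum_prod_type (f := fun q : Z × κ => K q.2 (l.get q.1) * X (l.put q.1 q.2) * Y q.1)]
  refine Fintype.sum_equiv
    { toFun := fun q => (l.put q.1 q.2, l.get q.1)
      invFun := fun q => (l.put q.1 q.2, l.get q.1)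
      left_inv := fun q => by simp [l.put_put, l.put_get, l.get_put]
      right_inv := fun q => by simp [l.put_put, l.put_get, l.get_put] } _ _ fun q => ?_
  simp only [Equiv.coe_fn_mk, l.put_put, l.put_get, l.get_put]
  ring

/-- A rank one local operator is a Gram product. -/
theorem op_outer [DecidableEq κ] (l : Lens Z κ) (o : κ) (v v' : κ → ℝ) (X Y : Z → ℝ) :
    X ⬝ᵥ l.op (vecMulVec v v') Y =
      l.op (vecMulVec (Pi.single o 1) v) X ⬝ᵥ l.op (vecMulVec (Pi.single o 1) v') Y := by
  have h : vecMulVec v v' = (vecMulVec (Pi.single o 1) v)ᵀ * vecMulVec (Pi.single o 1) v' := by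
    rw [Matrix.transpose_vecMulVec, Matrix.vecMulVec_mul_vecMulVec]
    simp
  rw [h, op_mul, op_adj, Matrix.transpose_transpose]

end Lens

end Vale.Agent.P359
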