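import Vale.Agent.P359.Expansion
import Vale.Agent.P359.ChanExch

/-!
The pair states of relative momentum one and the pair projection.
-/

namespace Vale.Agent.P359

open Finset Matrix
open scoped Kronecker ComplexConjugate

namespace Pr

theorem nsq_one {n : ℕ} : ∀ M : ℕ, M ≤ 2 * n →
    ((n : ℝ) + 1) * Cpl.nsq (n + 1) (n + 1) 1 (M : ℤ) = 2 * ((2 * n).choose M : ℝ) := by
  intro M
  induction M with
  | zero =>
    intro _
    have hz : ∀ i b, i + b ≠ 1 → Cpl.rawZ (n + 1) (n + 1) 1 ((0 : ℕ) : ℤ) i b = 0 := by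
      intro i b h
      by_contra hne
      have := Cpl.rawZ_support hne
      omega
    rw [Cpl.nsq, Cpl.ip, ← Finset.sum_product',
      ← Finset.sum_subset (s₁ := {(1, 0), (0, 1)}) (by
        intro p hp
        simp only [Finset.mem_insert, Finset.mem_singleton] at hp
        rcases hp with rfl | rfl <;> simp)
      (fun p _ hp => by
        rw [hz p.1 p.2 (fun h => hp (by
          simp only [Finset.mem_insert, Finset.mem_singleton, Prod.ext_iff]
          omega)), mul_zero]),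
      Finset.sum_pair (by simp)]
    simp only [Nat.cast_zero, Chn.rawZ_top (show 1 ≤ n + 1 by omega) (show 1 ≤ n + 1 by omega)
      (show 1 + 0 = 1 from rfl), Chn.rawZ_top (show 1 ≤ n + 1 by omega) (show 1 ≤ n + 1 by omega)
      (show 0 + 1 = 1 from rfl), pow_zero, pow_one, Nat.choose_zero_right, Nat.choose_self,
      Nat.choose_one_right, Nat.cast_one, mul_one, one_mul]
    push_cast
    have h := Real.sq_sqrt (show (0 : ℝ) ≤ (n : ℝ) + 1 by positivity)
    have : Real.sqrt ((n : ℝ) + 1) ≠ 0 := (Real.sqrt_pos.2 (by positivity)).ne'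
    field_simp
    rw [h]
    ring
  | succ M ih =>
    intro hM
    have h := Cpl.nsq_rec (A := n + 1) (B := n + 1) (k := 1) (by omega) (by omega) (M : ℤ)
    have h2 := Cpl.choose_rec (2 * n) M
    push_cast at h h2
    have hM' : (M : ℝ) + 1 ≠ 0 := by positivity
    refine mul_left_cancel₀ hM' ?_
    rw [show ((M + 1 : ℕ) : ℤ) = (M : ℤ) + 1 by push_cast; ring]
    linear_combination ((n : ℝ) + 1) * h + (2 * (n : ℝ) - M) * ih (by omega) - 2 * h2

end Pr

/-- The pair states are the first channel of two equal spins. -/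
theorem phi_eq_coup {Q M a b : ℕ} (hQ : 2 ≤ Q) (hM : M < 2 * Q - 1) :
    phi Q M a b = -coup Q Q 1 (M + 1) a b := by
  obtain ⟨n, rfl⟩ : ∃ n, Q = n + 1 := ⟨Q - 1, by omega⟩
  have hn : (0 : ℝ) < (n : ℝ) + 1 := by positivity
  have hd : (0 : ℝ) < ((2 * n).choose M : ℝ) := by exact_mod_cast Nat.choose_pos (by omega)
  have h := Pr.nsq_one (n := n) M (by omega)
  rw [Chn.phi_eq_raw, Cpl.coup_eq, show ((M + 1 : ℕ) : ℤ) - (1 : ℕ) = (M : ℤ) by push_cast; ring,
    show Cpl.nsq (n + 1) (n + 1) 1 (M : ℤ) =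
      2 * ((n : ℝ) + 1) * ((2 * n).choose M : ℝ) / ((n : ℝ) + 1) ^ 2 by
      field_simp
      linear_combination h,
    Real.sqrt_div' _ (sq_nonneg _), Real.sqrt_sq hn.le, inv_div]
  ring

/-- Exchange changes the sign of a pair state. -/
theorem phi_antisym (Q M a b : ℕ) : phi Q M b a = -phi Q M a b := by
  unfold phi
  by_cases h : a + b = M + 1 ∧ a ≤ Q ∧ b ≤ Q
  · rw [if_pos h, if_pos ⟨by omega, h.2.2, h.2.1⟩, mul_comm ((Q.choose b : ℝ))]
    ring
  · rw [if_neg h, if_neg fun e => h ⟨by omega, e.2.2, e.2.1⟩, neg_zero]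

/-- Orthonormality of the pair states. -/
theorem phi_orth {Q M M' : ℕ} (hQ : 2 ≤ Q) (hM : M < 2 * Q - 1) (hM' : M' < 2 * Q - 1) :
    ∑ a : Fin (Q + 1), ∑ b : Fin (Q + 1), phi Q M a b * phi Q M' a b = if M = M' then 1 else 0 := by
  simp only [phi_eq_coup hQ hM, phi_eq_coup hQ hM', neg_mul_neg]
  have h := coup_orth (A := Q) (B := Q) (k := 1) (k' := 1) (T := M + 1) (T' := M' + 1) (by omega)
    (by omega) (by omega) (by omega) (by omega) (by omega) (by omega) (by omega)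
  rw [Fin.sum_univ_eq_sum_range
    (fun a => ∑ b : Fin (Q + 1), coup Q Q 1 (M + 1) a b * coup Q Q 1 (M' + 1) a b) (Q + 1)]
  rw [Finset.sum_congr rfl fun i _ => Fin.sum_univ_eq_sum_range
    (fun b => coup Q Q 1 (M + 1) i b * coup Q Q 1 (M' + 1) i b) (Q + 1)]
  rw [h]
  simp

theorem proj1_sym (Q : ℕ) (p q : Fin (Q + 1) × Fin (Q + 1)) : proj1 Q p q = proj1 Q q p := by
  simp [proj1, mul_comm]

/-- The pair projection is idempotent. -/
theorem proj1_idem {Q : ℕ} (hQ : 2 ≤ Q) (p q : Fin (Q + 1) × Fin (Q + 1)) :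
    ∑ r, proj1 Q p r * proj1 Q r q = proj1 Q p q := by
  simp only [proj1, Finset.sum_mul_sum]
  rw [Finset.sum_comm]
  refine Finset.sum_congr rfl fun M _ => ?_
  rw [Finset.sum_comm, Finset.sum_eq_single M]
  · rw [Finset.sum_congr rfl (fun r _ => show phi Q M p.1 p.2 * phi Q M r.1 r.2 *
      (phi Q M r.1 r.2 * phi Q M q.1 q.2) = phi Q M p.1 p.2 * phi Q M q.1 q.2 *
        (phi Q M r.1 r.2 * phi Q M r.1 r.2) by ring), ← Finset.mul_sum, Fintype.sum_prod_type,
      phi_orth hQ M.isLt M.isLt, if_pos rfl, mul_one]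
  · intro M' _ hne
    rw [Finset.sum_congr rfl (fun r _ => show phi Q M p.1 p.2 * phi Q M r.1 r.2 *
      (phi Q M' r.1 r.2 * phi Q M' q.1 q.2) = phi Q M p.1 p.2 * phi Q M' q.1 q.2 *
        (phi Q M r.1 r.2 * phi Q M' r.1 r.2) by ring), ← Finset.mul_sum, Fintype.sum_prod_type,
      phi_orth hQ M.isLt M'.isLt, if_neg fun e => hne (Fin.ext e.symm), mul_zero]
  · simp

namespace Pr

/-- A real two-level function as a complex vector on pairs. -/
noncomputable def cvec (Q : ℕ) (g : ℕ → ℕ → ℝ) : Fin (Q + 1) × Fin (Q + 1) → ℂ :=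
  fun p => (g p.1 p.2 : ℂ)

theorem pairSum_mulVec {Q : ℕ} (A : Matrix (Fin (Q + 1)) (Fin (Q + 1)) ℂ)
    (f : Fin (Q + 1) × Fin (Q + 1) → ℂ) (p : Fin (Q + 1) × Fin (Q + 1)) :
    (pairSum A *ᵥ f) p = (∑ j, A p.1 j * f (j, p.2)) + ∑ c, A p.2 c * f (p.1, c) := by
  rw [pairSum, Matrix.add_mulVec, Pi.add_apply]
  simp only [Matrix.mulVec, dotProduct, Fintype.sum_prod_type, Matrix.kroneckerMap_apply,
    Matrix.one_apply]
  congr 1
  · refine Finset.sum_congr rfl fun j _ => ?_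
    simp [mul_ite, ite_mul]
  · rw [Finset.sum_comm]
    refine Finset.sum_congr rfl fun c _ => ?_
    simp [ite_mul]

theorem pairSum_conj {Q : ℕ} (A : Matrix (Fin (Q + 1)) (Fin (Q + 1)) ℂ) :
    (pairSum A)ᴴ = pairSum Aᴴ := by
  simp [pairSum, Matrix.conjTranspose_kronecker]

theorem down_row {Q : ℕ} (i : Fin (Q + 1)) (g : ℕ → ℝ) :
    ∑ j, spinDown Q i j * (g j : ℂ) =
      ((if 1 ≤ (i : ℕ) ∧ (i : ℕ) ≤ Q then lad Q ((i : ℕ) - 1) * g ((i : ℕ) - 1) else 0 : ℝ) : ℂ) := by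
  have hi := i.isLt
  rcases Nat.eq_zero_or_pos (i : ℕ) with h | h
  · rw [if_neg (by omega)]
    simp only [spinDown, h]
    simp
  · rw [if_pos ⟨h, by omega⟩, Finset.sum_eq_single ⟨(i : ℕ) - 1, by omega⟩]
    · rw [spinDown, if_pos (by simp only; omega)]
      simp [lad]
    · intro j _ hj
      rw [spinDown, if_neg (fun e => hj (Fin.ext (by simp only; omega))), zero_mul]
    · simp

theorem up_row {Q : ℕ} (i : Fin (Q + 1)) (g : ℕ → ℝ) :
    ∑ j, (spinDown Q)ᴴ i j * (g j : ℂ) =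
      ((if (i : ℕ) < Q then lad Q (i : ℕ) * g ((i : ℕ) + 1) else 0 : ℝ) : ℂ) := by
  have hi := i.isLt
  simp only [Matrix.conjTranspose_apply]
  by_cases h : (i : ℕ) < Q
  · rw [if_pos h, Finset.sum_eq_single ⟨(i : ℕ) + 1, by omega⟩]
    · rw [spinDown, if_pos rfl]
      simp [lad]
    · intro j _ hj
      rw [spinDown, if_neg (fun e => hj (Fin.ext e)), star_zero, zero_mul]
    · simp
  · rw [if_neg h]
    simp only [Complex.ofReal_zero]
    refine Finset.sum_eq_zero fun j _ => ?_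
    have := j.isLt
    rw [spinDown, if_neg (by omega), star_zero, zero_mul]

theorem down_cvec {Q : ℕ} (g : ℕ → ℕ → ℝ) :
    pairSum (spinDown Q) *ᵥ cvec Q g = cvec Q (lower2 Q Q g) := by
  funext p
  rw [pairSum_mulVec]
  simp only [cvec, lower2]
  rw [down_row p.1 (fun j => g j p.2), down_row p.2 (fun c => g p.1 c)]
  push_cast
  rfl

theorem up_cvec {Q : ℕ} (g : ℕ → ℕ → ℝ) :
    pairSum (spinDown Q)ᴴ *ᵥ cvec Q g = cvec Q (raise2 Q Q g) := by
  funext p
  rw [pairSum_mulVec]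
  simp only [cvec, raise2]
  rw [up_row p.1 (fun j => g j p.2), up_row p.2 (fun c => g p.1 c)]
  push_cast
  rfl

theorem z_cvec {Q : ℕ} (g : ℕ → ℕ → ℝ) :
    pairSum (spinZ Q) *ᵥ cvec Q g = cvec Q fun a b => ((Q : ℝ) - a - b) * g a b := by
  funext p
  rw [pairSum_mulVec, Finset.sum_eq_single p.1 (fun j _ hj => by
      rw [spinZ, Matrix.diagonal_apply_ne _ hj.symm, zero_mul]) (by simp),
    Finset.sum_eq_single p.2 (fun j _ hj => by
      rw [spinZ, Matrix.diagonal_apply_ne _ hj.symm, zero_mul]) (by simp)]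
  simp only [spinZ, Matrix.diagonal_apply_eq, cvec]
  push_cast
  ring

theorem casimir_cvec {Q : ℕ} (g : ℕ → ℕ → ℝ) :
    pairCasimir Q *ᵥ cvec Q g = cvec Q fun a b => ((Q : ℝ) - a - b) ^ 2 * g a b +
      (1 / 2) * (raise2 Q Q (lower2 Q Q g) a b + lower2 Q Q (raise2 Q Q g) a b) := by
  rw [pairCasimir, spinSq, pairSum_conj, Matrix.add_mulVec, Matrix.smul_mulVec, Matrix.add_mulVec,
    ← Matrix.mulVec_mulVec, ← Matrix.mulVec_mulVec, ← Matrix.mulVec_mulVec, z_cvec, z_cvec,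
    down_cvec, up_cvec, up_cvec, down_cvec]
  funext p
  simp only [cvec, Pi.add_apply, Pi.smul_apply, smul_eq_mul]
  push_cast
  ring

theorem lower2_smul (A B : ℕ) (s : ℝ) (f : ℕ → ℕ → ℝ) (a b : ℕ) :
    lower2 A B (fun i j => s * f i j) a b = s * lower2 A B f a b := by
  simp only [lower2]
  split_ifs <;> ring

theorem raise2_smul (A B : ℕ) (s : ℝ) (f : ℕ → ℕ → ℝ) (a b : ℕ) :
    raise2 A B (fun i j => s * f i j) a b = s * raise2 A B f a b := by
  simp only [raise2]
  split_ifs <;> ring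

theorem casimir_coup {Q k T : ℕ} (hk : k ≤ Q) (h1 : k ≤ T) (h2 : T + k ≤ 2 * Q) :
    pairCasimir Q *ᵥ cvec Q (coup Q Q k T) =
      ((((Q : ℝ) - k) * ((Q : ℝ) - k + 1) : ℝ) : ℂ) • cvec Q (coup Q Q k T) := by
  rw [casimir_cvec]
  funext p
  simp only [cvec, Pi.smul_apply, smul_eq_mul]
  rw [← Complex.ofReal_mul, Complex.ofReal_inj]
  set a := (p.1 : ℕ)
  set b := (p.2 : ℕ)
  set m : ℝ := (T : ℝ) - k with hm
  set N : ℝ := 2 * (Q : ℝ) - 2 * k with hN
  have hlr : raise2 Q Q (lower2 Q Q (coup Q Q k T)) a b = (m + 1) * (N - m) * coup Q Q k T a b := by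
    rcases Nat.lt_or_ge (T + k) (Q + Q) with hT | hT
    · rw [funext fun i => funext fun j => coup_lower (A := Q) (B := Q) hk hk h1 hT i j,
        raise2_smul, coup_raise hk hk h1 hT, ← mul_assoc, lad, Real.mul_self_sqrt]
      · rw [hm, hN, Nat.cast_sub h1, Nat.cast_sub (by omega : 2 * k ≤ Q + Q)]
        push_cast
        ring
      · refine mul_nonneg (by positivity) (sub_nonneg.2 ?_)
        exact_mod_cast (show T - k ≤ Q + Q - 2 * k by omega)
    · obtain rfl : T = Q + Q - k := by omega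
      rw [funext fun i => funext fun j => coup_bot (A := Q) (B := Q) hk hk i j,
        show N - m = 0 by rw [hm, hN, Nat.cast_sub (by omega : k ≤ Q + Q)]; push_cast; ring]
      simp [raise2]
  have hrl : lower2 Q Q (raise2 Q Q (coup Q Q k T)) a b = m * (N - m + 1) * coup Q Q k T a b := by
    rcases eq_or_lt_of_le h1 with rfl | hT
    · rw [funext fun i => funext fun j => coup_top (A := Q) (B := Q) hk hk i j, hm, sub_self]
      simp [lower2]
    · obtain ⟨T', rfl⟩ : ∃ T', T = T' + 1 := ⟨T - 1, by omega⟩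
      rw [funext fun i => funext fun j =>
          coup_raise (A := Q) (B := Q) hk hk (show k ≤ T' by omega) (by omega) i j,
        lower2_smul, coup_lower hk hk (by omega) (by omega), ← mul_assoc, lad, Real.mul_self_sqrt]
      · rw [hm, hN, Nat.cast_sub (by omega : k ≤ T'), Nat.cast_sub (by omega : 2 * k ≤ Q + Q)]
        push_cast
        ring
      · refine mul_nonneg (by positivity) (sub_nonneg.2 ?_)
        exact_mod_cast (show T' - k ≤ Q + Q - 2 * k by omega)
  rw [hlr, hrl]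
  by_cases hs : a + b = T
  · rw [hm, hN, ← hs]
    push_cast
    ring
  · rw [coup_support fun e => hs e.1]
    ring

theorem casimir_isHermitian (Q : ℕ) : (pairCasimir Q).IsHermitian := by
  have hz : (spinZ Q)ᴴ = spinZ Q := by
    rw [spinZ, Matrix.diagonal_conjTranspose]
    congr 1
    funext i
    simp
  rw [Matrix.IsHermitian, pairCasimir, spinSq, Matrix.conjTranspose_add, Matrix.conjTranspose_smul,
    Matrix.conjTranspose_add, Matrix.conjTranspose_mul, Matrix.conjTranspose_mul,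
    Matrix.conjTranspose_mul]
  simp only [pairSum_conj, Matrix.conjTranspose_conjTranspose, hz]
  norm_num

theorem mem_pairSpace {Q : ℕ} (z : EuclideanSpace ℂ (Fin (Q + 1) × Fin (Q + 1))) :
    z ∈ pairSpace Q ↔ pairCasimir Q *ᵥ z.ofLp = (((Q : ℂ) - 1) * (Q : ℂ)) • z.ofLp :=
  Iff.rfl

theorem pairSpace_orth {Q k T : ℕ} (hQ : 2 ≤ Q) (hk : k ≤ Q) (hk1 : k ≠ 1) (h1 : k ≤ T) (h2 : T + k ≤ 2 * Q)
    {z : EuclideanSpace ℂ (Fin (Q + 1) × Fin (Q + 1))} (hz : z ∈ pairSpace Q) :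
    cvec Q (coup Q Q k T) ⬝ᵥ z.ofLp = 0 := by
  set c := cvec Q (coup Q Q k T) with hc
  set lk : ℝ := ((Q : ℝ) - k) * ((Q : ℝ) - k + 1) with hlk
  have hcs : star c = c := funext fun p => by simp [hc, cvec]
  have hv : c ᵥ* pairCasimir Q = ((lk : ℝ) : ℂ) • c := by
    have h := congrArg star (casimir_coup hk h1 h2)
    rw [Matrix.star_mulVec, (casimir_isHermitian Q).eq, star_smul, ← hc, hcs] at h
    rwa [Complex.star_def, Complex.conj_ofReal] at h
  have e := Matrix.dotProduct_mulVec c (pairCasimir Q) z.ofLp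
  rw [(mem_pairSpace z).1 hz, hv, dotProduct_smul, smul_dotProduct, smul_eq_mul, smul_eq_mul] at e
  have hne : ((lk : ℝ) : ℂ) - ((Q : ℂ) - 1) * (Q : ℂ) ≠ 0 := by
    rw [show ((lk : ℝ) : ℂ) - ((Q : ℂ) - 1) * (Q : ℂ) =
      (((1 - (k : ℝ)) * (2 * Q - k) : ℝ) : ℂ) by rw [hlk]; push_cast; ring, Complex.ofReal_ne_zero]
    refine mul_ne_zero (sub_ne_zero.2 ?_) (sub_ne_zero.2 ?_)
    · exact_mod_cast hk1.symm
    · exact_mod_cast (show 2 * Q ≠ k by omega)
  have h0 : (((lk : ℝ) : ℂ) - ((Q : ℂ) - 1) * (Q : ℂ)) * (c ⬝ᵥ z.ofLp) = 0 := by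
    rw [sub_mul, e, sub_self]
  exact (mul_eq_zero.1 h0).resolve_left hne

theorem phi_mem {Q M : ℕ} (hQ : 2 ≤ Q) (hM : M < 2 * Q - 1) :
    pairCasimir Q *ᵥ cvec Q (phi Q M) = (((Q : ℂ) - 1) * (Q : ℂ)) • cvec Q (phi Q M) := by
  have e : cvec Q (phi Q M) = (-1 : ℂ) • cvec Q (coup Q Q 1 (M + 1)) := by
    funext p
    simp [cvec, phi_eq_coup hQ hM]
  rw [e, Matrix.mulVec_smul, casimir_coup (by omega) (by omega) (by omega), smul_comm]
  congr 1
  push_cast
  ring

end Pr

open Pr in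
/-- The pair projection in terms of the pair states. -/
theorem pairProj_eq {Q : ℕ} (hQ : 2 ≤ Q) :
    ∀ p q, pairProj Q p q = ((proj1 Q p q : ℝ) : ℂ) := by
  intro p q
  set w : EuclideanSpace ℂ (Fin (Q + 1) × Fin (Q + 1)) :=
    WithLp.toLp 2 fun p => ((proj1 Q p q : ℝ) : ℂ) with hw
  have hmem : w ∈ pairSpace Q := by
    rw [mem_pairSpace]
    have e : w.ofLp = ∑ M : Fin (2 * Q - 1),
        ((phi Q M q.1 q.2 : ℝ) : ℂ) • cvec Q (phi Q M) := by
      funext r
      simp [hw, proj1, cvec, mul_comm]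
    rw [e, Matrix.mulVec_sum, Finset.smul_sum]
    refine Finset.sum_congr rfl fun M _ => ?_
    rw [Matrix.mulVec_smul, phi_mem hQ M.isLt, smul_comm]
  have horth : ∀ z ∈ pairSpace Q, inner ℂ (EuclideanSpace.single q (1 : ℂ) - w) z = 0 := by
    intro z hz
    rw [inner_sub_left, EuclideanSpace.inner_single_left, map_one, one_mul, sub_eq_zero]
    have hres : ∀ x, (if q = x then (1 : ℂ) else 0) =
        ∑ s ∈ (range (min Q Q + 1)).sigma (fun k => Icc k (Q + Q - k)),
          cvec Q (coup Q Q s.1 s.2) q * cvec Q (coup Q Q s.1 s.2) x := by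
      intro x
      have h := congrArg (fun r : ℝ => (r : ℂ)) (coup_resolve (A := Q) (B := Q) rfl rfl q x)
      simp only [vec2] at h
      push_cast at h
      rw [apply_ite (Complex.ofReal)] at h
      simpa [cvec] using h.symm
    have h1 : z q = ∑ s ∈ (range (min Q Q + 1)).sigma (fun k => Icc k (Q + Q - k)),
        cvec Q (coup Q Q s.1 s.2) q * (cvec Q (coup Q Q s.1 s.2) ⬝ᵥ z.ofLp) := by
      simp only [dotProduct, Finset.mul_sum, ← mul_assoc]
      rw [Finset.sum_comm]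
      simp only [← Finset.sum_mul, ← hres]
      simp
    rw [h1, Finset.sum_sigma, Finset.sum_eq_single 1 (fun k hk hk1 => Finset.sum_eq_zero fun T hT => by
        rw [Finset.mem_range] at hk
        rw [Finset.mem_Icc] at hT
        rw [pairSpace_orth hQ (by omega) hk1 hT.1 (by omega) hz, mul_zero])
      (fun h => absurd (Finset.mem_range.2 (by omega)) h)]
    simp only [PiLp.inner_apply, RCLike.inner_apply, hw, Complex.conj_ofReal, proj1,
      Complex.ofReal_sum, Complex.ofReal_mul, map_sum, map_mul, Finset.mul_sum]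
    rw [Finset.sum_comm (γ := Fin (Q + 1) × Fin (Q + 1)),
      Fin.sum_univ_eq_sum_range (fun M => ∑ x : Fin (Q + 1) × Fin (Q + 1),
        z x * ((phi Q M x.1 x.2 : ℂ) * (phi Q M q.1 q.2 : ℂ))) (2 * Q - 1)]
    refine Finset.sum_nbij' (fun T => T - 1) (fun M => M + 1) ?_ ?_ ?_ ?_ ?_
    · intro T hT; simp only [Finset.mem_coe, Finset.mem_Icc, Finset.mem_range] at hT ⊢; omega
    · intro T hT; simp only [Finset.mem_coe, Finset.mem_Icc, Finset.mem_range] at hT ⊢; omega
    · intro T hT; simp only [Finset.mem_coe, Finset.mem_Icc, Finset.mem_range] at hT ⊢; omega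
    · intro T hT; simp only [Finset.mem_coe, Finset.mem_Icc, Finset.mem_range] at hT ⊢; omega
    · intro T hT
      rw [Finset.mem_Icc] at hT
      simp only [dotProduct, Finset.mul_sum, cvec, phi_eq_coup hQ (show T - 1 < 2 * Q - 1 by omega),
        show T - 1 + 1 = T by omega, Complex.ofReal_neg]
      refine Finset.sum_congr rfl fun x _ => by ring
  rw [pairProj, projEntry, Submodule.eq_starProjection_of_mem_of_inner_eq_zero hmem horth]

end Vale.Agent.P359
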