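import Vale.Agent.P359.ReduceForm
import Vale.Agent.P359.Chan
import Vale.Agent.P359.Pair
import Vale.Agent.P359.Kernel

/-!
P359, reduction: the gap of the pair Hamiltonian follows from the impurity inequality.
-/

namespace Vale.Agent.P359

open Finset
open scoped ComplexConjugate

namespace Red

variable {N n Q : ℕ}

/-- Orthonormality of the pair states, as used here. -/
def PairOrth (Q : ℕ) : Prop :=
  ∀ M M' : Fin (2 * Q - 1),
    ∑ a : Fin (Q + 1), ∑ b : Fin (Q + 1), phi Q M a b * phi Q M' a b = if M = M' then 1 else 0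

theorem sum4_comm {A B C D : Type*} [Fintype A] [Fintype B] [Fintype C] [Fintype D]
    (g : A → B → C → D → ℝ) :
    ∑ a, ∑ b, ∑ c, ∑ d, g a b c d = ∑ c, ∑ d, ∑ a, ∑ b, g a b c d :=
  calc ∑ a, ∑ b, ∑ c, ∑ d, g a b c d
      = ∑ a, ∑ c, ∑ b, ∑ d, g a b c d := sum_congr rfl fun a _ => sum_comm
    _ = ∑ c, ∑ a, ∑ b, ∑ d, g a b c d := sum_comm
    _ = ∑ c, ∑ a, ∑ d, ∑ b, g a b c d :=
        sum_congr rfl fun c _ => sum_congr rfl fun a _ => sum_comm
    _ = ∑ c, ∑ d, ∑ a, ∑ b, g a b c d := sum_congr rfl fun c _ => sum_comm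

theorem exch_def (M M' : Fin (2 * Q - 1)) (c b : Fin (Q + 1)) :
    exch Q (M, c) (M', b) = 2 * ∑ a : Fin (Q + 1), phi Q M a b * phi Q M' a c := rfl

theorem first_part (horth : PairOrth Q) (f : (Fin (n + 2) → Fin (Q + 1)) → ℝ)
    (M : Fin (2 * Q - 1)) (r : Fin n → Fin (Q + 1)) :
    ∑ a : Fin (Q + 1), ∑ b : Fin (Q + 1), phi Q M a b * pairT 0 (Fin.succ 0) f (two a b r) = contr f (M, r) := by
  calc ∑ a : Fin (Q + 1), ∑ b : Fin (Q + 1), phi Q M a b * pairT 0 (Fin.succ 0) f (two a b r)
      = ∑ M' : Fin (2 * Q - 1), (∑ a : Fin (Q + 1), ∑ b : Fin (Q + 1),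
          phi Q M a b * phi Q M' a b) * contr f (M', r) := by
        simp only [pairT_first, mul_sum, sum_mul]
        conv_rhs => rw [sum_comm]
        refine sum_congr rfl fun a _ => ?_
        conv_rhs => rw [sum_comm]
        exact sum_congr rfl fun b _ => sum_congr rfl fun M' _ => by ring
    _ = contr f (M, r) := by simp [horth M]

theorem exch_part_zero {f : (Fin (n + 2) → Fin (Q + 1)) → ℝ} (hf : Antisym f)
    (M : Fin (2 * Q - 1)) (r : Fin n → Fin (Q + 1)) (p : Fin n) :
    ∑ a : Fin (Q + 1), ∑ b : Fin (Q + 1), phi Q M a b * pairT 0 p.succ.succ f (two a b r) =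
      -(1 / 2) * ∑ M', ∑ b, exch Q (M, r p) (M', b) * contr f (M', Function.update r p b) := by
  have hT : ∀ a b, pairT 0 p.succ.succ f (two a b r) =
      -∑ M' : Fin (2 * Q - 1), phi Q M' a (r p) * contr f (M', Function.update r p b) := by
    intro a b
    unfold pairT contr
    rw [← sum_neg_distrib]
    simp only [update_two_zero, update_two_succ, proj1, mul_sum, sum_mul, Fin.cons_zero,
      Fin.cons_succ, ← sum_neg_distrib]
    conv_rhs => rw [sum_comm]
    refine sum_congr rfl fun a' _ => ?_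
    conv_rhs => rw [sum_comm]
    refine sum_congr rfl fun c _ => sum_congr rfl fun M' _ => ?_
    rw [swap_one_succ hf p a' b c r]
    ring
  simp only [hT, exch_def, mul_neg, mul_sum, sum_mul, sum_neg_distrib, neg_mul, neg_inj]
  conv_lhs => rw [sum_comm]
  conv_lhs => enter [2, b]; rw [sum_comm]
  conv_lhs => rw [sum_comm]
  refine sum_congr rfl fun M' _ => sum_congr rfl fun b _ => sum_congr rfl fun a _ => ?_
  ring

theorem exch_part_one {f : (Fin (n + 2) → Fin (Q + 1)) → ℝ} (hf : Antisym f)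
    (M : Fin (2 * Q - 1)) (r : Fin n → Fin (Q + 1)) (p : Fin n) :
    ∑ a : Fin (Q + 1), ∑ b : Fin (Q + 1), phi Q M a b * pairT (Fin.succ 0) p.succ.succ f (two a b r) =
      -(1 / 2) * ∑ M', ∑ b, exch Q (M, r p) (M', b) * contr f (M', Function.update r p b) := by
  rw [← exch_part_zero hf M r p, sum_comm]
  refine sum_congr rfl fun b _ => sum_congr rfl fun a _ => ?_
  have e : pairT (Fin.succ 0) p.succ.succ f (two a b r)
      = -pairT 0 p.succ.succ f (two b a r) := by
    unfold pairT
    simp only [update_two_zero, update_two_one, update_two_succ, Fin.cons_zero, Fin.cons_succ,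
      ← sum_neg_distrib]
    refine sum_congr rfl fun c _ => sum_congr rfl fun d _ => ?_
    rw [swap_zero_one hf a c]
    ring
  rw [e, phi_swap Q M (b : ℕ) (a : ℕ)]
  ring

theorem ferm_part (f : (Fin (n + 2) → Fin (Q + 1)) → ℝ) (M : Fin (2 * Q - 1))
    (r : Fin n → Fin (Q + 1)) (p q : Fin n) :
    ∑ a : Fin (Q + 1), ∑ b : Fin (Q + 1), phi Q M a b * pairT p.succ.succ q.succ.succ f (two a b r) =
      ∑ c, ∑ d, proj1 Q (r p, r q) (c, d) *
        contr f (M, Function.update (Function.update r p c) q d) := by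
  unfold pairT contr
  simp only [update_two_succ, mul_sum, Fin.cons_succ]
  rw [sum4_comm]
  exact sum_congr rfl fun c _ => sum_congr rfl fun d _ => sum_congr rfl fun a _ =>
    sum_congr rfl fun b _ => by ring

theorem contr_hop (horth : PairOrth Q) {f : (Fin (n + 2) → Fin (Q + 1)) → ℝ} (hf : Antisym f)
    (M : Fin (2 * Q - 1)) (r : Fin n → Fin (Q + 1)) :
    contr (hop f) (M, r) = contr f (M, r) +
      ((∑ p, ∑ q, if p < q then ∑ c, ∑ d, proj1 Q (r p, r q) (c, d) *
          contr f (M, Function.update (Function.update r p c) q d) else 0) -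
        ∑ p, ∑ M', ∑ b, exch Q (M, r p) (M', b) * contr f (M', Function.update r p b)) := by
  have h1 : contr (hop f) (M, r) =
      (∑ a : Fin (Q + 1), ∑ b : Fin (Q + 1), phi Q M a b * pairT 0 (Fin.succ 0) f (two a b r)) +
      ((∑ p : Fin n, ∑ a : Fin (Q + 1), ∑ b : Fin (Q + 1), phi Q M a b * pairT 0 p.succ.succ f (two a b r)) +
        (∑ p : Fin n, ∑ a : Fin (Q + 1), ∑ b : Fin (Q + 1), phi Q M a b * pairT (Fin.succ 0) p.succ.succ f (two a b r)) +
        ∑ p : Fin n, ∑ q : Fin n, if p < q then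
          ∑ a : Fin (Q + 1), ∑ b : Fin (Q + 1), phi Q M a b * pairT p.succ.succ q.succ.succ f (two a b r) else 0) := by
    simp only [contr, hop_two, mul_add, mul_sum, mul_ite, mul_zero, sum_add_distrib]
    congr 1
    congr 1
    · congr 1
      · conv_rhs => rw [sum_comm]
        exact sum_congr rfl fun a _ => sum_comm
      · conv_rhs => rw [sum_comm]
        exact sum_congr rfl fun a _ => sum_comm
    · calc ∑ a : Fin (Q + 1), ∑ b : Fin (Q + 1), ∑ p : Fin n, ∑ q : Fin n,
            (if p < q then phi Q M a b * pairT p.succ.succ q.succ.succ f (two a b r) else 0)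
          = ∑ ab : Fin (Q + 1) × Fin (Q + 1), ∑ pq : Fin n × Fin n,
            (if pq.1 < pq.2 then phi Q M ab.1 ab.2 *
              pairT pq.1.succ.succ pq.2.succ.succ f (two ab.1 ab.2 r) else 0) := by
            simp only [Fintype.sum_prod_type]
        _ = _ := by
            rw [sum_comm, Fintype.sum_prod_type]
            refine sum_congr rfl fun p _ => sum_congr rfl fun q _ => ?_
            split_ifs with h <;> simp [h, Fintype.sum_prod_type]
  rw [h1, first_part horth]
  simp only [exch_part_zero hf, exch_part_one hf, ferm_part, ← mul_sum]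
  ring

theorem impurity_identity (horth : PairOrth Q) {f : (Fin (n + 2) → Fin (Q + 1)) → ℝ}
    (hf : Antisym f) :
    ∑ z, contr f z * contr (hop f) z =
      confNormSq (contr f) + (fermEnergy (contr f) - exchEnergy (contr f)) := by
  rw [confNormSq, fermEnergy, exchEnergy, Fintype.sum_prod_type, Fintype.sum_prod_type]
  simp only [contr_hop horth hf, mul_add, mul_sub, sum_add_distrib, sum_sub_distrib, sq]

theorem triple_cycle {A : Type*} [Fintype A] (g : A → A → A → ℝ) :
    ∑ a, ∑ b, ∑ c, g b c a = ∑ a, ∑ b, ∑ c, g a b c := by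
  rw [sum_comm]
  exact sum_congr rfl fun b _ => sum_comm

theorem allowed_contr (horth : PairOrth Q) (hQ : 4 ≤ Q) {f : (Fin (n + 2) → Fin (Q + 1)) → ℝ}
    (hf : Antisym f) : Allowed (contr f) := by
  refine ⟨contr_antisym hf, fun k hk T h1 h2 p r => ?_⟩
  have hk' : k = 0 ∨ k = 1 ∨ k = 3 := by simpa using hk
  obtain ⟨v, hv⟩ : ∃ v : Fin (2 * Q - 1) → Fin (Q + 1) → ℝ,
      v = fun (M : Fin (2 * Q - 1)) (c : Fin (Q + 1)) => coup (2 * Q - 2) Q k T (M : ℕ) (c : ℕ) := ⟨_, rfl⟩
  have hfix : ∀ M c, ∑ M', ∑ b, exch Q (M, c) (M', b) * v M' b = v M c := by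
    intro M c
    have h := exch_coup hQ (by omega) h1 h2 (M, c)
    rw [chanW_null hQ hk', one_mul, Fintype.sum_prod_type] at h
    subst hv
    exact h
  suffices ∑ M, ∑ c, v M c * contr f (M, Function.update r p c) = 0 by
    subst hv; exact this
  obtain ⟨F, hF⟩ : ∃ F : Fin (Q + 1) → Fin (Q + 1) → Fin (Q + 1) → ℝ,
      F = fun a b c => f (two a b (Function.update r p c)) := ⟨_, rfl⟩
  have hFc : ∀ a b c, F b c a = F a b c := by
    intro a b c
    simp only [hF]
    rw [swap_one_succ hf p b c a r, swap_zero_one hf b a (Function.update r p c), neg_neg]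
  obtain ⟨w, hw⟩ : ∃ w : Fin (Q + 1) → Fin (Q + 1) → Fin (Q + 1) → ℝ,
      w = fun (a b c : Fin (Q + 1)) => ∑ M, v M c * phi Q M a b := ⟨_, rfl⟩
  have hS : ∑ M, ∑ c, v M c * contr f (M, Function.update r p c)
      = ∑ a, ∑ b, ∑ c, w a b c * F a b c := by
    rw [← triple_cycle fun a b c => w a b c * F a b c,
      show (∑ a, ∑ b, ∑ c, w b c a * F b c a) = ∑ c, ∑ a, ∑ b, w a b c * F a b c from rfl,
      sum_comm]
    refine sum_congr rfl fun c _ => ?_
    simp only [hw, hF, contr, mul_sum, sum_mul]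
    rw [sum_comm]
    refine sum_congr rfl fun a _ => ?_
    rw [sum_comm]
    exact sum_congr rfl fun b _ => sum_congr rfl fun M _ => by ring
  have hn : ∑ a, ∑ b, ∑ c, w a b c * w a b c = ∑ M, ∑ c, v M c * v M c := by
    rw [← triple_cycle fun a b c => w a b c * w a b c,
      show (∑ a, ∑ b, ∑ c, w b c a * w b c a) = ∑ c, ∑ a, ∑ b, w a b c * w a b c from rfl]
    conv_rhs => rw [sum_comm]
    refine sum_congr rfl fun c _ => ?_
    calc ∑ a, ∑ b, w a b c * w a b c
        = ∑ M : Fin (2 * Q - 1), ∑ M' : Fin (2 * Q - 1), v M c * v M' c *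
            ∑ a : Fin (Q + 1), ∑ b : Fin (Q + 1), phi Q M a b * phi Q M' a b := by
          simp only [hw, mul_sum, sum_mul]
          rw [sum4_comm, sum_comm]
          exact sum_congr rfl fun M _ => sum_congr rfl fun M' _ => sum_congr rfl fun a _ =>
            sum_congr rfl fun b _ => by ring
      _ = _ := by simp [horth _]
  have hx : ∑ a, ∑ b, ∑ c, w a b c * w c a b = -(1 / 2) * ∑ M, ∑ c, v M c * v M c := by
    calc ∑ a, ∑ b, ∑ c, w a b c * w c a b
        = ∑ M, ∑ c, v M c * (-(1 / 2) * ∑ M', ∑ b, exch Q (M, c) (M', b) * v M' b) := by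
          simp only [hw, exch_def, mul_sum, sum_mul]
          calc ∑ a : Fin (Q + 1), ∑ b : Fin (Q + 1), ∑ c : Fin (Q + 1), ∑ M' : Fin (2 * Q - 1),
                ∑ M : Fin (2 * Q - 1), v M c * phi Q M a b * (v M' b * phi Q M' c a)
              = ∑ c : Fin (Q + 1), ∑ a : Fin (Q + 1), ∑ b : Fin (Q + 1), ∑ M' : Fin (2 * Q - 1),
                ∑ M : Fin (2 * Q - 1), v M c * phi Q M a b * (v M' b * phi Q M' c a) :=
                ((sum_congr rfl fun a _ => sum_comm).trans sum_comm)
            _ = ∑ c : Fin (Q + 1), ∑ M : Fin (2 * Q - 1), ∑ M' : Fin (2 * Q - 1),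
                ∑ b : Fin (Q + 1), ∑ a : Fin (Q + 1),
                  v M c * phi Q M a b * (v M' b * phi Q M' c a) := by
                refine sum_congr rfl fun c _ => ?_
                rw [sum_comm]
                conv_rhs => enter [2, M]; rw [sum_comm]
                conv_rhs => rw [sum_comm]
                refine sum_congr rfl fun b _ => ?_
                conv_rhs => enter [2, M]; rw [sum_comm]
                conv_rhs => rw [sum_comm]
                exact sum_congr rfl fun a _ => sum_comm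
            _ = _ := by
                rw [sum_comm]
                refine sum_congr rfl fun M _ => sum_congr rfl fun c _ => sum_congr rfl fun M' _ =>
                  sum_congr rfl fun b _ => sum_congr rfl fun a _ => ?_
                rw [phi_swap Q M' (a : ℕ) (c : ℕ)]
                ring
      _ = _ := by
          simp only [hfix, mul_sum]
          exact sum_congr rfl fun M _ => sum_congr rfl fun c _ => by ring
  have hzero : ∀ a b c, w a b c + w b c a + w c a b = 0 := by
    have e1 : ∑ a, ∑ b, ∑ c, w b c a * w b c a = ∑ a, ∑ b, ∑ c, w a b c * w a b c :=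
      triple_cycle fun a b c => w a b c * w a b c
    have e2 : ∑ a, ∑ b, ∑ c, w c a b * w c a b = ∑ a, ∑ b, ∑ c, w a b c * w a b c :=
      (triple_cycle fun a b c => w c a b * w c a b).symm
    have e3 : ∑ a, ∑ b, ∑ c, w b c a * w a b c = ∑ a, ∑ b, ∑ c, w a b c * w c a b :=
      triple_cycle fun a b c => w a b c * w c a b
    have e4 : ∑ a, ∑ b, ∑ c, w c a b * w b c a = ∑ a, ∑ b, ∑ c, w a b c * w c a b :=
      (triple_cycle fun a b c => w c a b * w b c a).symm
    have hsq : ∑ a, ∑ b, ∑ c, (w a b c + w b c a + w c a b) ^ 2 = 0 := by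
      have : ∀ a b c, (w a b c + w b c a + w c a b) ^ 2 =
          w a b c * w a b c + w b c a * w b c a + w c a b * w c a b +
            2 * (w b c a * w a b c) + 2 * (w a b c * w c a b) + 2 * (w c a b * w b c a) := by
        intros; ring
      simp only [this, sum_add_distrib, ← mul_sum, e1, e2, e4, e3, hn, hx]
      ring
    intro a b c
    have h1 := (sum_eq_zero_iff_of_nonneg fun a _ => sum_nonneg fun b _ => sum_nonneg fun c _ =>
      sq_nonneg _).1 hsq a (mem_univ a)
    have h2 := (sum_eq_zero_iff_of_nonneg fun b _ => sum_nonneg fun c _ => sq_nonneg _).1 h1 b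
      (mem_univ b)
    exact pow_eq_zero_iff two_ne_zero |>.1
      ((sum_eq_zero_iff_of_nonneg fun c _ => sq_nonneg _).1 h2 c (mem_univ c))
  have e5 : ∑ a, ∑ b, ∑ c, w b c a * F b c a = ∑ a, ∑ b, ∑ c, w a b c * F a b c :=
    triple_cycle fun a b c => w a b c * F a b c
  have e6 : ∑ a, ∑ b, ∑ c, w c a b * F c a b = ∑ a, ∑ b, ∑ c, w a b c * F a b c :=
    (triple_cycle fun a b c => w c a b * F c a b).symm
  have h3 : ∑ a, ∑ b, ∑ c, (w a b c + w b c a + w c a b) * F a b c = 0 := by
    simp [hzero]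
  have e7 : ∀ a b c, F c a b = F a b c := fun a b c => (hFc c a b).symm
  simp only [add_mul, sum_add_distrib] at h3
  simp only [hFc] at e5
  simp only [e7] at e6
  rw [e5, e6] at h3
  rw [hS]
  linarith

theorem range_gap {E : Type*} [NormedAddCommGroup E] [InnerProductSpace ℝ E] [FiniteDimensional ℝ E]
    (T : E →ₗ[ℝ] E) (hT : T.IsSymmetric) (hpos : ∀ x, 0 ≤ inner ℝ x (T x)) {γ : ℝ} (hγ : 0 ≤ γ)
    (hsq : ∀ x, γ * inner ℝ x (T x) ≤ inner ℝ (T x) (T x)) {x : E}
    (hx : ∀ k, T k = 0 → inner ℝ k x = 0) : γ * inner ℝ x x ≤ inner ℝ x (T x) := by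
  have hr : x ∈ LinearMap.range T := by
    rw [← Submodule.orthogonal_orthogonal (LinearMap.range T), hT.orthogonal_range,
      Submodule.mem_orthogonal]
    exact fun k hk => hx k hk
  obtain ⟨y, rfl⟩ := hr
  have h := hpos (T y - γ • y)
  have h1 := hsq y
  simp only [map_sub, map_smul, inner_sub_left, inner_sub_right, real_inner_smul_left,
    real_inner_smul_right] at h
  rw [← hT y (T y)] at h
  nlinarith [mul_le_mul_of_nonneg_left h1 hγ]

/-- Real antisymmetric amplitudes. -/
def antiSub (N Q : ℕ) : Submodule ℝ (EuclideanSpace ℝ (Fin N → Fin (Q + 1))) where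
  carrier := {v | Antisym fun x => v x}
  zero_mem' σ x := by simp
  add_mem' hv hw σ x := by
    have h1 := hv σ x
    have h2 := hw σ x
    simp only [PiLp.add_apply] at h1 h2 ⊢
    rw [h1, h2, mul_add]
  smul_mem' c v hv σ x := by
    have h1 := hv σ x
    simp only [PiLp.smul_apply, smul_eq_mul] at h1 ⊢
    rw [h1]
    ring

theorem hop_add (f g : (Fin N → Fin (Q + 1)) → ℝ) (x : Fin N → Fin (Q + 1)) :
    hop (f + g) x = hop f x + hop g x := by
  simp only [hop, pairT, Pi.add_apply, mul_add, sum_add_distrib, ← ite_add_ite, add_zero]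
  rw [← sum_add_distrib]
  refine sum_congr rfl fun i _ => ?_
  rw [← sum_add_distrib]
  exact sum_congr rfl fun j _ => by split_ifs <;> simp

theorem hop_smul (c : ℝ) (f : (Fin N → Fin (Q + 1)) → ℝ) (x : Fin N → Fin (Q + 1)) :
    hop (c • f) x = c * hop f x := by
  simp only [hop, pairT, Pi.smul_apply, smul_eq_mul, mul_sum, mul_ite, mul_zero]
  exact sum_congr rfl fun i _ => sum_congr rfl fun j _ => by
    split_ifs
    · exact sum_congr rfl fun a _ => sum_congr rfl fun b _ => by ring
    · rfl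

/-- The Hamiltonian on real antisymmetric amplitudes. -/
noncomputable def hopLin (N Q : ℕ) : antiSub N Q →ₗ[ℝ] antiSub N Q where
  toFun v := ⟨WithLp.toLp 2 (hop fun x => v.1 x), hop_antisym v.2⟩
  map_add' v w := Subtype.ext (PiLp.ext fun x => by
    exact hop_add (fun x => v.1 x) (fun x => w.1 x) x)
  map_smul' c v := Subtype.ext (PiLp.ext fun x => by
    exact hop_smul c (fun x => v.1 x) x)

theorem inner_antiSub (v w : antiSub N Q) : inner ℝ v w = ∑ x, v.1 x * w.1 x := by
  rw [Submodule.coe_inner, PiLp.inner_apply]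
  exact sum_congr rfl fun x _ => by simp [mul_comm]

theorem real_gap {c : ℝ} (hc : c ≤ 1) (hQ : 4 ≤ Q) (horth : PairOrth Q)
    (himp : ∀ X : Conf Q n → ℝ, Allowed X → exchEnergy X ≤ c * confNormSq X + fermEnergy X)
    {f : (Fin (n + 2) → Fin (Q + 1)) → ℝ} (hf : Antisym f)
    (hker : ∀ k : (Fin (n + 2) → Fin (Q + 1)) → ℝ, Antisym k → (∀ x, hop k x = 0) →
      ∑ x, k x * f x = 0) :
    (1 - c) * ∑ x, f x * f x ≤ ∑ x, f x * hop f x := by
  have hsym : (hopLin (n + 2) Q).IsSymmetric := by
    intro v w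
    rw [inner_antiSub, inner_antiSub]
    simp only [hopLin, LinearMap.coe_mk, AddHom.coe_mk]
    rw [show ∑ x, hop (fun x => v.1 x) x * w.1 x = ∑ x, w.1 x * hop (fun x => v.1 x) x from
      sum_congr rfl fun x _ => mul_comm _ _, hop_form w.2 v.2, hop_form v.2 w.2]
    exact congrArg _ (sum_congr rfl fun z _ => mul_comm _ _)
  have hpos : ∀ v : antiSub (n + 2) Q, 0 ≤ inner ℝ v (hopLin (n + 2) Q v) := by
    intro v
    rw [inner_antiSub]
    simp only [hopLin, LinearMap.coe_mk, AddHom.coe_mk]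
    rw [hop_form v.2 v.2]
    exact mul_nonneg pairCount_pos.le (sum_nonneg fun z _ => mul_self_nonneg _)
  have hsq : ∀ v : antiSub (n + 2) Q, (1 - c) * inner ℝ v (hopLin (n + 2) Q v) ≤
      inner ℝ (hopLin (n + 2) Q v) (hopLin (n + 2) Q v) := by
    intro v
    rw [← hsym (hopLin (n + 2) Q v) v, real_inner_comm v (hopLin (n + 2) Q (hopLin (n + 2) Q v)),
      inner_antiSub, inner_antiSub]
    simp only [hopLin, LinearMap.coe_mk, AddHom.coe_mk]
    rw [hop_form v.2 v.2, hop_form v.2 (hop_antisym v.2), impurity_identity horth v.2]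
    have h := himp _ (allowed_contr horth hQ v.2)
    have hn : ∑ z, contr (fun x => v.1 x) z * contr (fun x => v.1 x) z =
        confNormSq (contr fun x => v.1 x) := sum_congr rfl fun z _ => (sq _).symm
    rw [hn]
    nlinarith [pairCount_pos (n := n)]
  have h := range_gap (hopLin (n + 2) Q) hsym hpos (sub_nonneg.2 hc) hsq
    (x := ⟨WithLp.toLp 2 f, hf⟩) fun k hk => by
      rw [inner_antiSub]
      exact hker _ k.2 fun x => congrArg (fun u : antiSub (n + 2) Q => u.1 x) hk
  rw [inner_antiSub, inner_antiSub] at h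
  exact h

theorem energy_split (hP : ∀ p q, pairProj Q p q = ((proj1 Q p q : ℝ) : ℂ))
    (Φ : (Fin N → Fin (Q + 1)) → ℂ) :
    energy N Q Φ = (∑ x, (Φ x).re * hop (fun x => (Φ x).re) x) +
      ∑ x, (Φ x).im * hop (fun x => (Φ x).im) x := by
  simp only [energy, hP, Complex.re_sum, Complex.mul_re, Complex.conj_re, Complex.conj_im, neg_mul,
    sub_neg_eq_add, sum_add_distrib]
  congr 1 <;>
  · refine sum_congr rfl fun x _ => ?_
    congr 1
    simp only [hop, pairT, Complex.re_sum, Complex.im_sum]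
    refine sum_congr rfl fun i _ => sum_congr rfl fun j _ => ?_
    split_ifs <;> simp [Complex.re_sum, Complex.im_sum]

theorem antisym_re {Φ : (Fin N → Fin (Q + 1)) → ℂ} (h : Antisym Φ) :
    Antisym fun x => (Φ x).re := fun σ x => by
  simp only [h σ x, Complex.mul_re, Complex.intCast_re, Complex.intCast_im, zero_mul, sub_zero]

theorem antisym_im {Φ : (Fin N → Fin (Q + 1)) → ℂ} (h : Antisym Φ) :
    Antisym fun x => (Φ x).im := fun σ x => by
  simp only [h σ x, Complex.mul_im, Complex.intCast_re, Complex.intCast_im, zero_mul, add_zero]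

end Red

open Red in
/-- The gap follows from the impurity inequality. -/
theorem gap_of_impurity {N Q : ℕ} (hN : 3 ≤ N) (hQ : 4 ≤ Q) {c : ℝ} (hc : c < 1)
    (himp : ∀ X : Conf Q (N - 2) → ℝ, Allowed X →
      exchEnergy X ≤ c * confNormSq X + fermEnergy X)
    (Ψ : (Fin N → Fin (Q + 1)) → ℂ) (hΨ : Antisym Ψ ∧ Ψ ≠ 0)
    (hker : ∀ Φ, Antisym Φ → energy N Q Φ = 0 → ∃ t : ℂ, Φ = t • Ψ)
    (h0 : energy N Q Ψ = 0) :
    ∀ Φ, Antisym Φ → (1 - c) * (normSqV Φ - ‖∑ x, conj (Ψ x) * Φ x‖ ^ 2 / normSqV Ψ) ≤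
      energy N Q Φ := by
  have hP : ∀ p q, pairProj Q p q = ((proj1 Q p q : ℝ) : ℂ) := pairProj_eq (by omega)
  have horth : PairOrth Q := fun M M' => by
    rw [phi_orth (by omega) M.2 M'.2]
    simp [Fin.ext_iff]
  obtain ⟨n, rfl⟩ : ∃ n, N = n + 2 := ⟨N - 2, by omega⟩
  intro Φ hΦ
  obtain ⟨hΨa, hΨ0⟩ := hΨ
  obtain ⟨s, hs⟩ : ∃ s : ℝ, s = normSqV Ψ := ⟨_, rfl⟩
  have hspos : 0 < s := by
    obtain ⟨x, hx⟩ := Function.ne_iff.1 hΨ0
    rw [hs, normSqV]
    exact sum_pos' (fun y _ => sq_nonneg _) ⟨x, mem_univ x, by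
      have : 0 < ‖Ψ x‖ := norm_pos_iff.2 hx
      positivity⟩
  have hss : ∑ x, conj (Ψ x) * Ψ x = (s : ℂ) := by
    rw [hs, normSqV]
    push_cast
    exact sum_congr rfl fun x _ => Complex.conj_mul' _
  obtain ⟨u, hu⟩ : ∃ u : ℂ, u = ∑ x, conj (Ψ x) * Φ x := ⟨_, rfl⟩
  obtain ⟨t, ht⟩ : ∃ t : ℂ, t = u / s := ⟨_, rfl⟩
  obtain ⟨R, hR⟩ : ∃ R : (Fin (n + 2) → Fin (Q + 1)) → ℂ, R = fun x => Φ x - t * Ψ x :=
    ⟨_, rfl⟩
  have hRa : Antisym R := fun σ x => by
    simp only [hR]
    rw [hΦ σ x, hΨa σ x]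
    ring
  have hsc : (s : ℂ) ≠ 0 := Complex.ofReal_ne_zero.2 hspos.ne'
  have horthR : ∑ x, conj (Ψ x) * R x = 0 := by
    simp only [hR, mul_sub, sum_sub_distrib, ← hu]
    rw [show (∑ x, conj (Ψ x) * (t * Ψ x)) = t * (s : ℂ) by
      rw [← hss, mul_sum]; exact sum_congr rfl fun x _ => by ring, ht, div_mul_cancel₀ _ hsc,
      sub_self]
  have hK := pairCount_pos (n := n)
  have hcz : ∀ z, contr (fun x => (Ψ x).re) z = 0 ∧ contr (fun x => (Ψ x).im) z = 0 := by
    have h := h0
    rw [energy_split hP, hop_form (antisym_re hΨa) (antisym_re hΨa),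
      hop_form (antisym_im hΨa) (antisym_im hΨa), ← mul_add, mul_eq_zero] at h
    have h' := h.resolve_left hK.ne'
    rw [← sum_add_distrib, sum_eq_zero_iff_of_nonneg fun z _ =>
      add_nonneg (mul_self_nonneg _) (mul_self_nonneg _)] at h'
    intro z
    exact (mul_self_add_mul_self_eq_zero).1 (h' z (mem_univ z))
  have hER : energy (n + 2) Q R = energy (n + 2) Q Φ := by
    have hre : ∀ z, contr (fun x => (R x).re) z = contr (fun x => (Φ x).re) z := by
      intro z
      have e : contr (fun x => (R x).re) z - contr (fun x => (Φ x).re) z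
          = t.im * contr (fun x => (Ψ x).im) z - t.re * contr (fun x => (Ψ x).re) z := by
        simp only [contr, hR, mul_sum, ← sum_sub_distrib, Complex.sub_re, Complex.mul_re]
        exact sum_congr rfl fun a _ => sum_congr rfl fun b _ => by ring
      rw [(hcz z).1, (hcz z).2] at e
      linarith
    have him : ∀ z, contr (fun x => (R x).im) z = contr (fun x => (Φ x).im) z := by
      intro z
      have h1 := (hcz z).1
      have h2 := (hcz z).2
      have e : contr (fun x => (R x).im) z - contr (fun x => (Φ x).im) z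
          = -(t.re * contr (fun x => (Ψ x).im) z) - t.im * contr (fun x => (Ψ x).re) z := by
        simp only [contr, hR, mul_sum, ← sum_sub_distrib, ← sum_neg_distrib, Complex.sub_im,
          Complex.mul_im]
        exact sum_congr rfl fun a _ => sum_congr rfl fun b _ => by ring
      rw [h1, h2] at e
      linarith
    rw [energy_split hP, energy_split hP, hop_form (antisym_re hRa) (antisym_re hRa),
      hop_form (antisym_im hRa) (antisym_im hRa), hop_form (antisym_re hΦ) (antisym_re hΦ),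
      hop_form (antisym_im hΦ) (antisym_im hΦ)]
    simp only [hre, him]
  have hperp : ∀ k : (Fin (n + 2) → Fin (Q + 1)) → ℝ, Antisym k → (∀ x, hop k x = 0) →
      (∑ x, k x * (R x).re = 0) ∧ ∑ x, k x * (R x).im = 0 := by
    intro k hk hk0
    obtain ⟨t', ht'⟩ := hker (fun x => (k x : ℂ)) (fun σ x => by simp [hk σ x]) (by
      rw [energy_split hP]
      simp [hk0])
    have h : ∑ x, (k x : ℂ) * R x = 0 := by
      have : ∀ x, (k x : ℂ) * R x = conj t' * (conj (Ψ x) * R x) := by
        intro x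
        have hx := congrFun ht' x
        rw [← Complex.conj_ofReal (k x), hx, Pi.smul_apply, smul_eq_mul, map_mul]
        ring
      simp only [this, ← mul_sum, horthR, mul_zero]
    constructor
    · have := congrArg Complex.re h
      simpa [Complex.re_sum] using this
    · have := congrArg Complex.im h
      simpa [Complex.im_sum] using this
  have h1 := real_gap hc.le hQ horth himp (antisym_re hRa) fun k hk hk0 => (hperp k hk hk0).1
  have h2 := real_gap hc.le hQ horth himp (antisym_im hRa) fun k hk hk0 => (hperp k hk hk0).2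
  have hnorm : normSqV Φ - ‖u‖ ^ 2 / s =
      (∑ x, (R x).re * (R x).re) + ∑ x, (R x).im * (R x).im := by
    rw [← sum_add_distrib]
    have hRR : ∑ x, conj (R x) * R x = ∑ x, conj (Φ x) * Φ x - conj u * u / (s : ℂ) := by
      have e : ∀ x, conj (R x) * R x = conj (Φ x) * R x - conj t * (conj (Ψ x) * R x) := by
        intro x
        simp only [hR, map_sub, map_mul]
        ring
      simp only [e, sum_sub_distrib, ← mul_sum, horthR, mul_zero, sub_zero]
      simp only [hR, mul_sub, sum_sub_distrib]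
      congr 1
      rw [show (∑ x, conj (Φ x) * (t * Ψ x)) = t * ∑ x, conj (Φ x) * Ψ x by
        rw [mul_sum]; exact sum_congr rfl fun x _ => by ring]
      have : conj u = ∑ x, conj (Φ x) * Ψ x := by
        simp only [hu, map_sum, map_mul, Complex.conj_conj]
        exact sum_congr rfl fun x _ => mul_comm _ _
      rw [← this, ht]
      ring
    have h := congrArg Complex.re hRR
    simp only [Complex.conj_mul', Complex.sub_re, Complex.re_sum, ← Complex.ofReal_pow,
      Complex.ofReal_re, ← Complex.ofReal_div] at h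
    rw [normSqV, ← h]
    exact sum_congr rfl fun x _ => by rw [Complex.sq_norm, Complex.normSq_apply]
  rw [← hs, ← hu, ← hER, hnorm, energy_split hP, mul_add]
  exact add_le_add h1 h2

/-- The gap at the Laughlin flux follows from the impurity inequality. -/
theorem laughlin_gap_of_impurity {N : ℕ} (hN : 3 ≤ N) {c : ℝ} (hc : c < 1)
    (himp : ∀ X : Conf (3 * (N - 1)) (N - 2) → ℝ, Allowed X →
      exchEnergy X ≤ c * confNormSq X + fermEnergy X) :
    laughlin N ≠ 0 ∧ ∀ Φ, Antisym Φ →
      (1 - c) * (normSqV Φ - ‖∑ x, conj (laughlin N x) * Φ x‖ ^ 2 / normSqV (laughlin N)) ≤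
        energy N (3 * (N - 1)) Φ :=
  ⟨laughlin_ne_zero, gap_of_impurity hN (by omega) hc himp (laughlin N)
    ⟨laughlin_antisym, laughlin_ne_zero⟩ (kernel_unique_energy (pairProj_eq (by omega)))
    (laughlin_energy_zero (pairProj_eq (by omega)))⟩

end Vale.Agent.P359
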