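import Vale.Agent.P359.Key
import Vale.Agent.P359.Kernel
import Vale.Agent.P359.Reduce
import Vale.Agent.P359.Pair

/-!
The uniform gap from a window certificate.
-/

namespace Vale.Agent.P359

open scoped ComplexConjugate

/-- A window certificate gives a gap above the Laughlin vector, uniform in the particle number. -/
theorem gap_of_cert {S J : ℕ} {C : ℕ → ℝ} {w : ℕ → ℕ → ℕ → ℕ → ℝ}
    {G : ℕ → ℕ → ℕ → ℕ → ℕ → ℕ → ℝ} (hcert : WinCert S J C w G) (hSJ : S + J ≤ 30) :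
    ∃ δ : ℝ, 0 < δ ∧ ∃ N₀ : ℕ, ∀ N, N₀ ≤ N → laughlin N ≠ 0 ∧
      ∀ Φ : (Fin N → Fin (3 * (N - 1) + 1)) → ℂ, Antisym Φ →
        δ * (normSqV Φ - ‖∑ x, conj (laughlin N x) * Φ x‖ ^ 2 / normSqV (laughlin N)) ≤
          energy N (3 * (N - 1)) Φ := by
  obtain ⟨Q0, hQ0⟩ := key_of_cert hcert hSJ
  refine ⟨1 - keyConst, by norm_num [keyConst], max 3 (Q0 + 1), fun N hN => ?_⟩
  exact laughlin_gap_of_impurity (by omega) (by norm_num [keyConst])
    (fun X hX => hQ0 _ (by omega) _ X hX)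

end Vale.Agent.P359
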