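import Vale.Agent.P359.Invariant

/-!
The marginal forms of a stable family and their symmetries, bounds and channel sums.
-/

namespace Vale.Agent.P359

open Finset Matrix
open scoped Kronecker

variable {Q n : ℕ} {J : Type} [Fintype J]

/-- The marginal form of the impurity. -/
noncomputable def M0 (e : J → Conf Q n → ℝ) : Matrix (Imp Q) (Imp Q) ℝ := mform e (lI Q n)

/-- The marginal form of impurity and one fermion. -/
noncomputable def M1 (e : J → Conf Q n → ℝ) : Matrix (Imp Q × Orb Q) (Imp Q × Orb Q) ℝ :=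
  sform e univ (fun p : Fin n => l01 Q p)

/-- The marginal form of impurity and two fermions, in order. -/
noncomputable def M2 (e : J → Conf Q n → ℝ) :
    Matrix (Imp Q × (Orb Q × Orb Q)) (Imp Q × (Orb Q × Orb Q)) ℝ :=
  sform e univ (fun pq : OPair n => l011 Q pq.2)

theorem sform_comm {Z κ P : Type*} [Fintype Z] [Fintype κ] [DecidableEq κ] {e : J → Z → ℝ}
    {s : Finset P} {l : P → Lens Z κ} {L : Matrix κ κ ℝ} {B B' : (Z → ℝ) →ₗ[ℝ] (Z → ℝ)}
    (hB : Stable e B) (hB' : Stable e B') (hadj : ∀ X Y, X ⬝ᵥ B Y = B' X ⬝ᵥ Y)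
    (hloc : ∀ p ∈ s, LocalAt (l p) L B) : L * sform e s l = sform e s l * L := by
  rw [sform, Matrix.mul_sum, Matrix.sum_mul]
  exact Finset.sum_congr rfl fun p hp => mform_comm hB hB' hadj (hloc p hp)

theorem Jlev_adj (X Y : Conf Q n → ℝ) : X ⬝ᵥ Jlev Q n Y = Jlev Q n X ⬝ᵥ Y := by
  refine (Jop_adj _ _ X Y).trans ?_
  simp [Jlev, levM, diagonal_transpose]

theorem Jlow_adj (X Y : Conf Q n → ℝ) : X ⬝ᵥ Jlow Q n Y = Jhigh Q n X ⬝ᵥ Y := Jop_adj _ _ X Y

variable {e : J → Conf Q n → ℝ}

theorem M0_invar (he : InvFamily e) :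
    Invar (lowM (2 * Q - 2) (2 * Q - 1)) (fun i : Imp Q => (i : ℕ)) (M0 e) where
  symm := by ext u u'; exact mform_symm e _ u' u
  comm := mform_comm he.low he.high Jlow_adj (local_I _ _)
  graded := (graded_iff (fun i : Imp Q => (i : ℕ)) (M0 e)).1
    (mform_comm he.lev he.lev Jlev_adj (local_I _ _))

theorem M1_invar (he : InvFamily e) : Invar (low2I Q) lev2 (M1 e) where
  symm := sform_symm e _ _
  comm := sform_comm (s := univ) (l := fun p : Fin n => l01 Q p) he.low he.high Jlow_adj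
    (fun p _ => local_01 _ _ p)
  graded := by
    refine (graded_iff lev2 (M1 e)).1 ?_
    rw [← sum2_lev]
    exact sform_comm (s := univ) (l := fun p : Fin n => l01 Q p) he.lev he.lev Jlev_adj
      (fun p _ => local_01 _ _ p)

theorem M2_invar (he : InvFamily e) : Invar (low3M Q) lev3 (M2 e) where
  symm := sform_symm e _ _
  comm := sform_comm (s := univ) (l := fun pq : OPair n => l011 Q pq.2) he.low he.high Jlow_adj
    (fun pq _ => local_011 _ _ pq.2)
  graded := by
    refine (graded_iff lev3 (M2 e)).1 ?_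
    rw [← sum3_lev]
    exact sform_comm (s := univ) (l := fun pq : OPair n => l011 Q pq.2) he.lev he.lev Jlev_adj
      (fun pq _ => local_011 _ _ pq.2)

theorem dot_single {Z κ : Type*} [Fintype Z] [Fintype κ] [DecidableEq κ] (l : Lens Z κ)
    (u u' : κ) (X : Z → ℝ) :
    X ⬝ᵥ l.op (Matrix.single u u' 1) X = ∑ z, if l.get z = u then X z * X (l.put z u') else 0 := by
  simp only [dotProduct, Lens.op_apply, Matrix.single, Matrix.of_apply, ite_mul, one_mul, zero_mul,
    ite_and, Finset.mul_sum, mul_ite, mul_zero]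
  refine Finset.sum_congr rfl fun z _ => ?_
  by_cases h : l.get z = u <;> simp [h, Ne.symm, eq_comm]

theorem M0_apply (e : J → Conf Q n → ℝ) (i i' : Imp Q) :
    M0 e i i' = ∑ j, marg0 (e j) i i' := by
  refine Finset.sum_congr rfl fun j _ => ?_
  rw [dot_single]
  simp only [marg0, lI, Fintype.sum_prod_type]
  rw [Finset.sum_eq_single i]
  · simp
  · intro b _ hb; simp [hb]
  · simp

theorem M1_apply (e : J → Conf Q n → ℝ) (i : Imp Q) (a : Orb Q) (i' : Imp Q) (a' : Orb Q) :
    M1 e (i, a) (i', a') = ∑ j, marg1 (e j) i a i' a' := by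
  simp only [M1, sform, Matrix.sum_apply, mform, dot_single]
  rw [Finset.sum_comm]
  refine Finset.sum_congr rfl fun j _ => Finset.sum_congr rfl fun p _ => ?_
  simp only [Fintype.sum_prod_type, l01, Lens.prod, lI, lF, Prod.mk.injEq]
  rw [Finset.sum_eq_single i]
  · simp
  · intro b _ hb; simp [hb]
  · simp

theorem M2_apply (e : J → Conf Q n → ℝ) (i : Imp Q) (a b : Orb Q) (i' : Imp Q) (a' b' : Orb Q) :
    M2 e (i, (a, b)) (i', (a', b')) = ∑ j, marg2 (e j) i a b i' a' b' := by
  simp only [M2, sform, Matrix.sum_apply, mform, dot_single]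
  rw [Finset.sum_comm]
  refine Finset.sum_congr rfl fun j _ => ?_
  have inner : ∀ pq : OPair n, (∑ z : Conf Q n, if (l011 Q pq.2).get z = (i, (a, b)) then
      e j z * e j ((l011 Q pq.2).put z (i', (a', b'))) else 0) =
      ∑ x : Fin n → Orb Q, if pq.1.1 ≠ pq.1.2 ∧ x pq.1.1 = a ∧ x pq.1.2 = b then
        e j (i, x) * e j (i', Function.update (Function.update x pq.1.1 a') pq.1.2 b') else 0 := by
    intro pq
    simp only [Fintype.sum_prod_type, l011, l11, Lens.prod, lI, lF, Prod.mk.injEq]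
    rw [Finset.sum_eq_single i]
    · simp [pq.2]
    · intro c _ hc; simp [hc]
    · simp
  simp only [inner, marg2]
  conv_rhs => rw [← Fintype.sum_prod_type']
  refine Finset.sum_bij_ne_zero (fun pq _ _ => pq.1) (fun _ _ _ => mem_univ _) ?_ ?_ (fun _ _ _ => rfl)
  · intro a _ _ b _ _ hab; exact Subtype.ext hab
  · intro pq _ hne
    by_cases hpq : pq.1 = pq.2
    · exact absurd (by simp [hpq]) hne
    · exact ⟨⟨pq, hpq⟩, mem_univ _, hne, rfl⟩

/-- The common diagonal value of the impurity marginal. -/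
noncomputable def tval (hQ : 4 ≤ Q) (e : J → Conf Q n → ℝ) : ℝ :=
  M0 e ⟨0, by omega⟩ ⟨0, by omega⟩

theorem M0_diag (hQ : 4 ≤ Q) (he : InvFamily e) (i : Imp Q) : M0 e i i = tval hQ e := by
  obtain ⟨i, hi⟩ := i
  induction i with
  | zero => rfl
  | succ i ih =>
    rw [← ih (by omega)]
    have h := congrFun (congrFun (M0_invar he).comm ⟨i + 1, hi⟩) ⟨i, by omega⟩
    simp only [Matrix.mul_apply] at h
    rw [Finset.sum_eq_single ⟨i, by omega⟩, Finset.sum_eq_single ⟨i + 1, hi⟩] at h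
    · simp only [lowM, if_true] at h
      refine mul_left_cancel₀ (lad_ne (show i < 2 * Q - 2 by omega)) ?_
      linarith [h, mul_comm (lad (2 * Q - 2) i) (M0 e ⟨i + 1, hi⟩ ⟨i + 1, hi⟩)]
    · intro b _ hb
      have : ¬ (b : ℕ) = i + 1 := fun h' => hb (Fin.ext h')
      simp [lowM, this]
    · simp
    · intro b _ hb
      have : ¬ i + 1 = (b : ℕ) + 1 := fun h' => hb (Fin.ext (by simp only; omega))
      simp only [lowM, if_neg this, zero_mul, mul_zero]
    · simp

theorem card_family (hQ : 4 ≤ Q) (he : InvFamily e) :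
    (Fintype.card J : ℝ) = (2 * (Q : ℝ) - 1) * tval hQ e := by
  have h1 : ∑ i, M0 e i i = (Fintype.card J : ℝ) := by
    simp only [M0_apply]
    rw [Finset.sum_comm, Finset.sum_congr rfl (fun j _ => show ∑ i, marg0 (e j) i i = 1 from ?_)]
    · simp
    · rw [← he.norm j]
      simp [marg0, dotProduct, Fintype.sum_prod_type]
  rw [← h1, Finset.sum_congr rfl (fun i _ => M0_diag hQ he i), Finset.sum_const, Finset.card_univ,
    Fintype.card_fin, nsmul_eq_mul, Nat.cast_sub (by omega)]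
  push_cast
  ring

theorem tval_nonneg (hQ : 4 ≤ Q) (e : J → Conf Q n → ℝ) : 0 ≤ tval hQ e := by
  rw [tval, M0_apply]
  exact Finset.sum_nonneg fun j _ => Finset.sum_nonneg fun x _ => mul_self_nonneg _

theorem antisym_coll {N R : ℕ} {X : (Fin N → Fin (R + 1)) → ℝ} (h : Antisym X) {x : Fin N → Fin (R + 1)}
    {p q : Fin N} (hpq : p ≠ q) (hx : x p = x q) : X x = 0 := by
  have h' := h (Equiv.swap p q) x
  have e : x ∘ (Equiv.swap p q) = x := by
    funext r
    rcases eq_or_ne r p with h1 | h1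
    · subst h1; simp [hx]
    · rcases eq_or_ne r q with h2 | h2
      · subst h2; simp [hx]
      · simp [Equiv.swap_apply_of_ne_of_ne h1 h2]
  rw [e, Equiv.Perm.sign_swap hpq] at h'
  push_cast at h'
  linarith

theorem M1_diag_le (hQ : 4 ≤ Q) (he : InvFamily e) (u : Imp Q × Orb Q) :
    M1 e u u ≤ tval hQ e := by
  obtain ⟨i, a⟩ := u
  rw [M1_apply, ← M0_diag hQ he i, M0_apply]
  refine Finset.sum_le_sum fun j _ => ?_
  simp only [marg1, marg0]
  rw [Finset.sum_comm]
  refine Finset.sum_le_sum fun x _ => ?_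
  by_cases h0 : e j (i, x) = 0
  · simp [h0]
  have huniq : ∀ p q, x p = a → x q = a → p = q := fun p q hp hq =>
    by_contra fun hne => h0 (antisym_coll ((he.allowed j).1 i) hne (hp.trans hq.symm))
  by_cases hp : ∃ p, x p = a
  · obtain ⟨p, hp⟩ := hp
    rw [Finset.sum_eq_single p, if_pos hp, ← hp, Function.update_eq_self]
    · intro q _ hq; rw [if_neg fun h => hq (huniq q p h hp)]
    · simp
  · push Not at hp
    simp only [hp, if_false, Finset.sum_const_zero]
    exact mul_self_nonneg _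

theorem M2_diag_le (hQ : 4 ≤ Q) (he : InvFamily e) (u : Imp Q × (Orb Q × Orb Q)) :
    M2 e u u ≤ tval hQ e := by
  obtain ⟨i, a, b⟩ := u
  rw [M2_apply, ← M0_diag hQ he i, M0_apply]
  refine Finset.sum_le_sum fun j _ => ?_
  simp only [marg2, marg0]
  rw [← Fintype.sum_prod_type', Finset.sum_comm]
  refine Finset.sum_le_sum fun x _ => ?_
  by_cases h0 : e j (i, x) = 0
  · simp [h0]
  have huniq : ∀ {c : Orb Q} p q, x p = c → x q = c → p = q := fun p q hp hq =>
    by_contra fun hne => h0 (antisym_coll ((he.allowed j).1 i) hne (hp.trans hq.symm))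
  by_cases hp : ∃ pq : Fin n × Fin n, pq.1 ≠ pq.2 ∧ x pq.1 = a ∧ x pq.2 = b
  · obtain ⟨pq, hne, hpa, hqb⟩ := hp
    rw [Finset.sum_eq_single pq, if_pos ⟨hne, hpa, hqb⟩, ← hpa, ← hqb, Function.update_eq_self,
      Function.update_eq_self]
    · intro r _ hr
      rw [if_neg fun h => hr (Prod.ext (huniq r.1 pq.1 h.2.1 hpa) (huniq r.2 pq.2 h.2.2 hqb))]
    · simp
  · rw [Finset.sum_eq_zero fun r _ => if_neg fun h => hp ⟨r, h⟩]
    exact mul_self_nonneg _

/-- Bilinear bound for a positive form with bounded diagonal. -/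
theorem form_bound {ι : Type*} [Fintype ι] [DecidableEq ι] {M : Matrix ι ι ℝ}
    (hs : Mᵀ = M) (hp : ∀ v : ι → ℝ, 0 ≤ v ⬝ᵥ (M *ᵥ v)) {t : ℝ} (ht : ∀ u, M u u ≤ t)
    (v v' : ι → ℝ) : |v ⬝ᵥ (M *ᵥ v')| ≤ t * ((∑ u, |v u|) * ∑ u, |v' u|) := by
  have hent : ∀ u u', |M u u'| ≤ t := by
    intro u u'
    have h1 := hp (Pi.single u 1 + Pi.single u' 1)
    have h2 := hp (Pi.single u 1 - Pi.single u' 1)
    have hsy : M u' u = M u u' := congrFun (congrFun hs u) u'
    simp only [mulVec_add, mulVec_sub, add_dotProduct, sub_dotProduct, dotProduct_add,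
      dotProduct_sub, mulVec_single, single_dotProduct, one_mul, Pi.smul_apply, Matrix.col_apply,
      MulOpposite.op_one, one_smul, hsy] at h1 h2
    rw [abs_le]
    constructor <;> linarith [ht u, ht u']
  simp only [dotProduct, mulVec, Finset.mul_sum, Finset.sum_mul]
  rw [Finset.sum_comm (γ := ι)]
  refine (Finset.abs_sum_le_sum_abs _ _).trans (Finset.sum_le_sum fun u _ => ?_)
  refine (Finset.abs_sum_le_sum_abs _ _).trans (Finset.sum_le_sum fun u' _ => ?_)
  rw [abs_mul, abs_mul]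
  nlinarith [mul_le_mul_of_nonneg_right (hent u' u) (mul_nonneg (abs_nonneg (v u')) (abs_nonneg (v' u))),
    mul_le_mul_of_nonneg_right (hent u u') (mul_nonneg (abs_nonneg (v u)) (abs_nonneg (v' u')))]

end Vale.Agent.P359
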