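import Vale.Agent.P359.Basic

/-!
P359, reduction part one: the quadratic forms of the pair Hamiltonian on real antisymmetric
amplitudes, expressed by the contraction of the first two particles.
-/

namespace Vale.Agent.P359

open Finset

namespace Red

variable {N n Q : ℕ}

theorem phi_swap (Q M a b : ℕ) : phi Q M b a = -phi Q M a b := by
  unfold phi
  by_cases h : a + b = M + 1 ∧ a ≤ Q ∧ b ≤ Q
  · rw [if_pos h, if_pos ⟨by omega, h.2.2, h.2.1⟩, mul_comm (Q.choose b : ℝ)]
    ring
  · rw [if_neg h, if_neg fun e => h ⟨by omega, e.2.2, e.2.1⟩, neg_zero]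

theorem proj1_swap (a b c d : Fin (Q + 1)) : proj1 Q (b, a) (d, c) = proj1 Q (a, b) (c, d) := by
  simp only [proj1]
  exact sum_congr rfl fun M _ => by
    rw [phi_swap Q M (a : ℕ) (b : ℕ), phi_swap Q M (c : ℕ) (d : ℕ)]; ring

/-- The pair term at the slots `i, j`. -/
noncomputable def pairT (i j : Fin N) (f : (Fin N → Fin (Q + 1)) → ℝ) (x : Fin N → Fin (Q + 1)) :
    ℝ :=
  ∑ a, ∑ b, proj1 Q (x i, x j) (a, b) * f (Function.update (Function.update x i a) j b)

/-- The Hamiltonian on real amplitudes. -/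
noncomputable def hop (f : (Fin N → Fin (Q + 1)) → ℝ) (x : Fin N → Fin (Q + 1)) : ℝ :=
  ∑ i, ∑ j, if i < j then pairT i j f x else 0

theorem pairT_swap {i j : Fin N} (h : i ≠ j) (f : (Fin N → Fin (Q + 1)) → ℝ)
    (x : Fin N → Fin (Q + 1)) : pairT i j f x = pairT j i f x := by
  unfold pairT
  rw [sum_comm]
  refine sum_congr rfl fun b _ => sum_congr rfl fun a _ => ?_
  rw [proj1_swap (x j) (x i) b a, Function.update_comm h]

theorem pairT_perm (σ : Equiv.Perm (Fin N)) (i j : Fin N) {f : (Fin N → Fin (Q + 1)) → ℝ}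
    (hf : Antisym f) (x : Fin N → Fin (Q + 1)) :
    pairT i j f (x ∘ σ) = ((Equiv.Perm.sign σ : ℤ) : ℝ) * pairT (σ i) (σ j) f x := by
  unfold pairT
  simp only [mul_sum, Function.comp_apply]
  refine sum_congr rfl fun a _ => sum_congr rfl fun b _ => ?_
  rw [← Function.update_comp_eq_of_injective x σ.injective i a,
    ← Function.update_comp_eq_of_injective _ σ.injective j b, hf σ]
  ring

theorem two_hop (f : (Fin N → Fin (Q + 1)) → ℝ) (x : Fin N → Fin (Q + 1)) :
    2 * hop f x = ∑ i, ∑ j, if i ≠ j then pairT i j f x else 0 := by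
  rw [two_mul]
  nth_rw 2 [hop]
  rw [sum_comm, hop, ← sum_add_distrib]
  refine sum_congr rfl fun i _ => ?_
  rw [← sum_add_distrib]
  refine sum_congr rfl fun j _ => ?_
  rcases lt_trichotomy i j with h | h | h
  · rw [if_pos h, if_neg (lt_asymm h), if_pos h.ne, add_zero]
  · simp [h]
  · rw [if_neg (lt_asymm h), if_pos h, if_pos h.ne', zero_add, pairT_swap h.ne]

theorem hop_antisym {f : (Fin N → Fin (Q + 1)) → ℝ} (hf : Antisym f) : Antisym (hop f) := by
  intro σ x
  have h : 2 * hop f (x ∘ σ) = ((Equiv.Perm.sign σ : ℤ) : ℝ) * (2 * hop f x) := by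
    rw [two_hop, two_hop, mul_sum]
    refine Fintype.sum_equiv σ _ _ fun i => ?_
    rw [mul_sum]
    refine Fintype.sum_equiv σ _ _ fun j => ?_
    rw [pairT_perm σ i j hf]
    simp [mul_ite, σ.injective.ne_iff]
  linarith

/-- Configurations with the first two particles shown. -/
abbrev two (a b : Fin (Q + 1)) (r : Fin n → Fin (Q + 1)) : Fin (n + 2) → Fin (Q + 1) :=
  Fin.cons a (Fin.cons b r)

theorem update_two_zero (a b c : Fin (Q + 1)) (r : Fin n → Fin (Q + 1)) :
    Function.update (two a b r) 0 c = two c b r := Fin.update_cons_zero _ _ _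

theorem update_two_one (a b c : Fin (Q + 1)) (r : Fin n → Fin (Q + 1)) :
    Function.update (two a b r) (Fin.succ 0) c = two a c r := by
  rw [two, ← Fin.cons_update, Fin.update_cons_zero]

theorem update_two_succ (a b c : Fin (Q + 1)) (r : Fin n → Fin (Q + 1)) (p : Fin n) :
    Function.update (two a b r) p.succ.succ c = two a b (Function.update r p c) := by
  rw [two, two, ← Fin.cons_update, ← Fin.cons_update]

theorem sum_two (g : (Fin (n + 2) → Fin (Q + 1)) → ℝ) :
    ∑ x, g x = ∑ r : Fin n → Fin (Q + 1), ∑ a, ∑ b, g (two a b r) := by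
  rw [← Equiv.sum_comp (Fin.consEquiv fun _ : Fin (n + 2) => Fin (Q + 1)), Fintype.sum_prod_type]
  conv_rhs => rw [sum_comm]
  refine sum_congr rfl fun a _ => ?_
  rw [← Equiv.sum_comp (Fin.consEquiv fun _ : Fin (n + 1) => Fin (Q + 1)), Fintype.sum_prod_type,
    sum_comm]
  rfl

theorem hop_two (f : (Fin (n + 2) → Fin (Q + 1)) → ℝ) (x : Fin (n + 2) → Fin (Q + 1)) :
    hop f x = pairT 0 (Fin.succ 0) f x +
      ((∑ p : Fin n, pairT 0 p.succ.succ f x) + (∑ p : Fin n, pairT (Fin.succ 0) p.succ.succ f x) +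
        ∑ p : Fin n, ∑ q : Fin n, if p < q then pairT p.succ.succ q.succ.succ f x else 0) := by
  unfold hop
  simp [Fin.sum_univ_succ, Fin.succ_lt_succ_iff, Fin.succ_pos]
  ring

/-- The contraction of the first two particles with the pair states. -/
noncomputable def contr (f : (Fin (n + 2) → Fin (Q + 1)) → ℝ) (z : Conf Q n) : ℝ :=
  ∑ a : Fin (Q + 1), ∑ b : Fin (Q + 1), phi Q z.1 (a : ℕ) (b : ℕ) * f (two a b z.2)

theorem pairT_first (f : (Fin (n + 2) → Fin (Q + 1)) → ℝ) (a b : Fin (Q + 1))
    (r : Fin n → Fin (Q + 1)) :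
    pairT 0 (Fin.succ 0) f (two a b r) = ∑ M : Fin (2 * Q - 1), phi Q M a b * contr f (M, r) := by
  unfold pairT contr
  simp only [update_two_zero, update_two_one, proj1, mul_sum, sum_mul, Fin.cons_zero, Fin.cons_succ]
  conv_rhs => rw [sum_comm]
  refine sum_congr rfl fun c _ => ?_
  conv_rhs => rw [sum_comm]
  exact sum_congr rfl fun d _ => sum_congr rfl fun M _ => by ring

/-- The number of pairs. -/
noncomputable def pairCount (N : ℕ) : ℝ :=
  ((univ : Finset (Fin N × Fin N)).filter fun p => p.1 < p.2).card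

theorem pair_form {A B : (Fin (n + 2) → Fin (Q + 1)) → ℝ} (hA : Antisym A) (hB : Antisym B)
    {i j : Fin (n + 2)} (hij : i ≠ j) :
    ∑ x, A x * pairT i j B x = ∑ z, contr A z * contr B z := by
  have h01 : (0 : Fin (n + 2)) ≠ Fin.succ 0 := (Fin.succ_ne_zero _).symm
  obtain ⟨σ, h0, h1⟩ : ∃ σ : Equiv.Perm (Fin (n + 2)), σ 0 = i ∧ σ (Fin.succ 0) = j := by
    refine ⟨(Equiv.swap (Equiv.swap 0 i (Fin.succ 0)) j) * Equiv.swap 0 i, ?_, ?_⟩
    · rw [Equiv.Perm.mul_apply, Equiv.swap_apply_left]
      refine Equiv.swap_apply_of_ne_of_ne (fun e => ?_) hij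
      have := congrArg (Equiv.swap (0 : Fin (n + 2)) i) e
      rw [Equiv.swap_apply_self, Equiv.swap_apply_right] at this
      exact h01 this
    · rw [Equiv.Perm.mul_apply, Equiv.swap_apply_left]
  have hsub : ∑ x, A x * pairT i j B x = ∑ y, A y * pairT 0 (Fin.succ 0) B y := by
    refine Fintype.sum_equiv (Equiv.arrowCongr σ.symm (Equiv.refl _)) _ _ fun x => ?_
    show A x * pairT i j B x = A (x ∘ σ) * pairT 0 (Fin.succ 0) B (x ∘ σ)
    rw [hA σ x, pairT_perm σ 0 (Fin.succ 0) hB, h0, h1]
    rcases Int.units_eq_one_or (Equiv.Perm.sign σ) with h | h <;> simp [h]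
  rw [hsub, sum_two, Fintype.sum_prod_type]
  conv_rhs => rw [sum_comm]
  refine sum_congr rfl fun r _ => ?_
  simp only [pairT_first, mul_sum]
  conv_rhs => simp only [contr, sum_mul]
  conv_rhs => rw [sum_comm]
  refine sum_congr rfl fun a _ => ?_
  conv_rhs => rw [sum_comm]
  exact sum_congr rfl fun b _ => sum_congr rfl fun M _ => by simp only [contr]; ring

theorem hop_form {A B : (Fin (n + 2) → Fin (Q + 1)) → ℝ} (hA : Antisym A) (hB : Antisym B) :
    ∑ x, A x * hop B x = pairCount (n + 2) * ∑ z, contr A z * contr B z := by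
  unfold hop
  simp only [mul_sum, mul_ite, mul_zero]
  rw [sum_comm]
  simp only [sum_comm (s := (univ : Finset (Fin (n + 2) → Fin (Q + 1))))]
  rw [← mul_sum, pairCount, card_filter, Nat.cast_sum, sum_mul, Fintype.sum_prod_type]
  refine sum_congr rfl fun i _ => sum_congr rfl fun j _ => ?_
  by_cases h : i < j
  · simp only [if_pos h]
    rw [pair_form hA hB h.ne]
    simp
  · simp [h]

theorem pairCount_pos : 0 < pairCount (n + 2) := by
  refine Nat.cast_pos.2 (card_pos.2 ⟨(0, Fin.succ 0), ?_⟩)
  simp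

theorem antisym_swap {R : Type*} [Ring R] {f : (Fin N → Fin (Q + 1)) → R} (hf : Antisym f)
    {i j : Fin N} (h : i ≠ j) (x : Fin N → Fin (Q + 1)) : f (x ∘ Equiv.swap i j) = -f x := by
  rw [hf, Equiv.Perm.sign_swap h]
  simp

theorem swap_one_succ {f : (Fin (n + 2) → Fin (Q + 1)) → ℝ} (hf : Antisym f) (p : Fin n)
    (a b c : Fin (Q + 1)) (r : Fin n → Fin (Q + 1)) :
    f (two a b (Function.update r p c)) = -f (two a c (Function.update r p b)) := by
  have hne : (Fin.succ 0 : Fin (n + 2)) ≠ p.succ.succ := fun e =>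
    (Fin.succ_ne_zero p) (Fin.succ_injective _ e).symm
  have h := antisym_swap hf hne (two a c (Function.update r p b))
  rw [← h]
  congr 1
  ext k
  refine congrArg Fin.val ?_
  induction k using Fin.cases with
  | zero =>
    rw [Function.comp_apply, Equiv.swap_apply_of_ne_of_ne (Fin.succ_ne_zero _).symm
      (Fin.succ_ne_zero _).symm]
    simp [two, -Fin.cons_update]
  | succ k =>
    induction k using Fin.cases with
    | zero => rw [Function.comp_apply, Equiv.swap_apply_left]; simp [two, -Fin.cons_update]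
    | succ k =>
      rcases eq_or_ne k p with rfl | hk
      · rw [Function.comp_apply, Equiv.swap_apply_right]
        simp [two, -Fin.cons_update]
      · rw [Function.comp_apply, Equiv.swap_apply_of_ne_of_ne
          (fun e => Fin.succ_ne_zero k (Fin.succ_injective _ e))
          (fun e => hk (Fin.succ_injective _ (Fin.succ_injective _ e)))]
        simp [two, Function.update_of_ne hk, -Fin.cons_update]

theorem swap_zero_one {f : (Fin (n + 2) → Fin (Q + 1)) → ℝ} (hf : Antisym f)
    (a b : Fin (Q + 1)) (r : Fin n → Fin (Q + 1)) : f (two a b r) = -f (two b a r) := by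
  have hne : (0 : Fin (n + 2)) ≠ Fin.succ 0 := (Fin.succ_ne_zero _).symm
  rw [← antisym_swap hf hne (two b a r)]
  congr 1
  ext k
  refine congrArg Fin.val ?_
  induction k using Fin.cases with
  | zero => rw [Function.comp_apply, Equiv.swap_apply_left]; simp [two]
  | succ k =>
    induction k using Fin.cases with
    | zero => rw [Function.comp_apply, Equiv.swap_apply_right]; simp [two]
    | succ k =>
      rw [Function.comp_apply, Equiv.swap_apply_of_ne_of_ne (Fin.succ_ne_zero _)
        (fun e => Fin.succ_ne_zero k (Fin.succ_injective _ e))]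
      simp [two]

/-- Antisymmetry of the contraction in the remaining particles. -/
theorem contr_antisym {f : (Fin (n + 2) → Fin (Q + 1)) → ℝ} (hf : Antisym f) (M : Fin (2 * Q - 1)) :
    Antisym fun r => contr f (M, r) := by
  intro σ r
  let τ : Equiv.Perm (Fin (n + 2)) :=
    Equiv.Perm.decomposeFin.symm (0, Equiv.Perm.decomposeFin.symm (0, σ))
  have hs : Equiv.Perm.sign τ = Equiv.Perm.sign σ := by
    simp [τ, Equiv.Perm.decomposeFin.symm_sign]
  have hc : ∀ a b, two a b (r ∘ σ) = two a b r ∘ τ := by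
    intro a b
    funext k
    induction k using Fin.cases with
    | zero => simp [τ, two, Equiv.Perm.decomposeFin_symm_apply_zero]
    | succ k =>
      induction k using Fin.cases with
      | zero =>
        simp [τ, two, Equiv.Perm.decomposeFin_symm_apply_succ,
          Equiv.Perm.decomposeFin_symm_apply_zero]
      | succ k => simp [τ, two, Equiv.Perm.decomposeFin_symm_apply_succ]
  simp only [contr, hc, hf τ, hs, mul_sum]
  exact sum_congr rfl fun a _ => sum_congr rfl fun b _ => by ring

end Red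

end Vale.Agent.P359
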