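import Vale.Agent.P359.Marginals
import Vale.Agent.P359.Expansion
import Vale.Agent.P359.Chan
import Vale.Agent.P359.Pair

/-!
Channel sums of the marginal forms.
-/

namespace Vale.Agent.P359

open Finset Matrix
open scoped Kronecker

variable {Q n : ℕ} {J : Type} [Fintype J] {e : J → Conf Q n → ℝ}

/-- Weight of channel `k` in the one-fermion marginal. -/
noncomputable def gval (e : J → Conf Q n → ℝ) (k : ℕ) : ℝ :=
  cv Q k k ⬝ᵥ (M1 e *ᵥ cv Q k k)

/-- Block `L` of the two-fermion marginal. -/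
noncomputable def bval (e : J → Conf Q n → ℝ) (L m m' : ℕ) : ℝ :=
  vec3 Q L m L ⬝ᵥ (M2 e *ᵥ vec3 Q L m' L)

theorem imp_pos (hQ : 4 ≤ Q) : 0 < 2 * Q - 1 := by omega

theorem gval_nonneg (e : J → Conf Q n → ℝ) (k : ℕ) : 0 ≤ gval e k := sform_nonneg _ _ _ _

theorem gval_null (hQ : 4 ≤ Q) (he : InvFamily e) {k : ℕ} (hk : k ∈ ({0, 1, 3} : Finset ℕ)) :
    gval e k = 0 := by
  have hk' : k ≤ 3 := by
    simp only [Finset.mem_insert, Finset.mem_singleton] at hk; omega
  have o : Imp Q × Orb Q := (⟨0, imp_pos hQ⟩, 0)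
  rw [gval, M1, sform_mulVec]
  refine Finset.sum_eq_zero fun p _ => ?_
  rw [mform_gram e _ o]
  refine Finset.sum_eq_zero fun j _ => ?_
  have h := ((allowed_iff o (e j)).1 (he.allowed j)).2 k hk k le_rfl (by omega) p
  rw [nullOp] at h
  rw [h, zero_dotProduct]

theorem gval_le (hQ : 4 ≤ Q) (he : InvFamily e) {k : ℕ} (hk : k ≤ Q) :
    gval e k ≤ ((k : ℝ) + 1) * tval hQ e := by
  have h := (le_abs_self _).trans (form_bound (sform_symm e _ _) (sform_nonneg e _ _)
    (M1_diag_le hQ he) (cv Q k k) (cv Q k k))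
  refine h.trans ?_
  rw [mul_comm ((k : ℝ) + 1)]
  refine mul_le_mul_of_nonneg_left ?_ (tval_nonneg hQ e)
  set s : Finset (Imp Q × Orb Q) := univ.filter (fun u => lev2 u = k)
  have hs : ∀ u, u ∉ s → cv Q k k u = 0 := fun u hu => by
    exact coup_support fun h => hu (mem_filter.2 ⟨mem_univ _, h.1⟩)
  have hsum : ∑ u, |cv Q k k u| = ∑ u ∈ s, |cv Q k k u| :=
    (Finset.sum_subset (subset_univ s) fun u _ hu => by rw [hs u hu, abs_zero]).symm
  have hsq : ∑ u ∈ s, |cv Q k k u| ^ 2 = 1 := by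
    have h1 := coup_dot (A := 2 * Q - 2) (B := Q) (D := 2 * Q - 1) (E := Q + 1) (by omega) rfl
      (show k ≤ 2 * Q - 2 by omega) hk (show k ≤ 2 * Q - 2 by omega) hk le_rfl (by omega) le_rfl
      (by omega : k + k ≤ 2 * Q - 2 + Q)
    rw [if_pos ⟨rfl, rfl⟩] at h1
    rw [← h1, dotProduct, ← Finset.sum_subset (subset_univ s) fun u _ hu => by
      show cv Q k k u * cv Q k k u = 0
      rw [hs u hu, zero_mul]]
    exact Finset.sum_congr rfl fun u _ => by rw [sq_abs, sq]
  have hcard : (s.card : ℝ) ≤ (k : ℝ) + 1 := by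
    have : s.card ≤ (range (k + 1)).card := by
      refine Finset.card_le_card_of_injOn (fun u => (u.2 : ℕ)) (fun u hu => ?_) (fun u hu v hv huv => ?_)
      · have hu' : (u.1 : ℕ) + (u.2 : ℕ) = k := (mem_filter.1 (Finset.mem_coe.1 hu)).2
        simp only [coe_range, Set.mem_Iio]
        omega
      · have hu' : (u.1 : ℕ) + (u.2 : ℕ) = k := (mem_filter.1 (Finset.mem_coe.1 hu)).2
        have hv' : (v.1 : ℕ) + (v.2 : ℕ) = k := (mem_filter.1 (Finset.mem_coe.1 hv)).2
        simp only at huv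
        exact Prod.ext (Fin.ext (by omega)) (Fin.ext huv)
    rw [card_range] at this
    exact_mod_cast this
  rw [hsum, ← sq]
  refine (sq_sum_le_card_mul_sum_sq (s := s) (f := fun u => |cv Q k k u|)).trans ?_
  rw [hsq, mul_one]
  exact hcard

/-- The channel expansion of the exchange as rank one sums. -/
theorem exchM_eq (hQ : 4 ≤ Q) :
    exchM Q = ∑ k ∈ range (Q + 1),
      chanW Q k • ∑ T ∈ Icc k (2 * Q - 2 + Q - k), vecMulVec (cv Q k T) (cv Q k T) := by
  ext u x
  simp only [Matrix.sum_apply, Matrix.smul_apply, vecMulVec_apply, smul_eq_mul, Finset.mul_sum]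
  rw [exchM, Matrix.of_apply, exch_expand hQ u x, show 2 * Q - 2 + Q = 3 * Q - 2 by omega]
  exact Finset.sum_congr rfl fun k _ => Finset.sum_congr rfl fun T _ => by rw [← mul_assoc]; rfl

theorem projM_eq (hQ : 4 ≤ Q) :
    projM Q = ∑ T ∈ Icc 1 (Q + Q - 1),
      vecMulVec (vec2 (coup Q Q 1 T)) (vec2 (coup Q Q 1 T) : Orb Q × Orb Q → ℝ) := by
  ext u x
  simp only [projM, Matrix.of_apply, proj1, Matrix.sum_apply, vecMulVec_apply, vec2]
  refine Finset.sum_bij (fun (M : Fin (2 * Q - 1)) _ => (M : ℕ) + 1) ?_ ?_ ?_ ?_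
  · intro M _; simp only [mem_Icc]; omega
  · intro a _ b _ h; exact Fin.ext (by omega)
  · intro T hT
    simp only [mem_Icc] at hT
    exact ⟨⟨T - 1, by omega⟩, mem_univ _, by simp only; omega⟩
  · intro M _
    rw [phi_eq_coup (by omega) M.isLt, phi_eq_coup (by omega) M.isLt, neg_mul_neg]

theorem sym_of_expand (hQ : 4 ≤ Q) : Sym Q := by
  have hch : ∀ k, k ≤ Q → Chain (low2I Q) lev2 k (2 * Q - 2 + Q - k)
      (fun T => lad (2 * Q - 2 + Q - 2 * k) (T - k)) (fun T => cv Q k T) :=
    fun k hk => chain2 (by omega) rfl (by omega) hk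
  refine ⟨⟨?_, ?_, ?_⟩, ⟨?_, ?_, ?_⟩⟩
  · rw [exchM_eq hQ]
    simp only [transpose_sum, transpose_smul, transpose_vecMulVec]
  · rw [exchM_eq hQ, Matrix.mul_sum, Matrix.sum_mul]
    refine Finset.sum_congr rfl fun k hk => ?_
    rw [mem_range] at hk
    rw [Matrix.mul_smul, Matrix.smul_mul, (hch k (by omega)).proj_comm
      (chain2_last (by omega) rfl (by omega) (by omega)) (by omega)]
  · intro u u' hne
    rw [exchM_eq hQ]
    simp only [Matrix.sum_apply, Matrix.smul_apply, vecMulVec_apply]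
    refine Finset.sum_eq_zero fun k _ => ?_
    rw [Finset.sum_eq_zero (fun T _ => ?_), smul_zero]
    by_cases hu : cv Q k T u = 0
    · rw [hu, zero_mul]
    · rw [mul_eq_zero]
      refine Or.inr (coup_support fun h => hne ?_)
      have h' : lev2 u = T := by
        by_contra h''
        exact hu (coup_support fun h => h'' h.1)
      exact h'.trans h.1.symm
  · rw [projM_eq hQ]
    simp only [transpose_sum, transpose_vecMulVec]
  · rw [projM_eq hQ]
    exact (chain2 (A := Q) (B := Q) (k := 1) rfl rfl (by omega) (by omega)).proj_comm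
      (chain2_last rfl rfl (by omega) (by omega)) (by omega)
  · intro u u' hne
    rw [projM_eq hQ]
    simp only [Matrix.sum_apply, vecMulVec_apply]
    refine Finset.sum_eq_zero fun T _ => ?_
    by_cases hu : (vec2 (coup Q Q 1 T) : Orb Q × Orb Q → ℝ) u = 0
    · rw [hu, zero_mul]
    · rw [mul_eq_zero]
      refine Or.inr (coup_support fun h => hne ?_)
      have h' : lev2 u = T := by
        by_contra h''
        exact hu (coup_support fun h => h'' h.1)
      exact h'.trans h.1.symm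

theorem vecMulVec_pair {ι : Type*} [Fintype ι] (v v' : ι → ℝ) (M : Matrix ι ι ℝ) :
    ∑ u, ∑ u', vecMulVec v v' u u' * M u u' = v ⬝ᵥ (M *ᵥ v') := by
  simp only [dotProduct, mulVec, vecMulVec_apply, Finset.mul_sum]
  exact Finset.sum_congr rfl fun u _ => Finset.sum_congr rfl fun u' _ => by ring

/-- The exchange energy of a stable family in the channels. -/
theorem exch_sum (hQ : 4 ≤ Q) (he : InvFamily e) :
    ∑ j, exchEnergy (e j) =
      ∑ k ∈ range (Q + 1), (3 * (Q : ℝ) - 1 - 2 * k) * chanW Q k * gval e k := by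
  simp only [exchEnergy_eq, exchOp, LinearMap.sum_apply, dotProduct_sum]
  rw [sform_pair e univ (fun p : Fin n => l01 Q p) (exchM Q), exchM_eq hQ]
  simp only [Matrix.sum_apply, Matrix.smul_apply, smul_eq_mul, Finset.sum_mul, Finset.mul_sum]
  refine (Finset.sum_congr rfl fun u _ => Finset.sum_comm).trans (Finset.sum_comm.trans ?_)
  refine Finset.sum_congr rfl fun k hk => ?_
  refine (Finset.sum_congr rfl fun u _ => Finset.sum_comm).trans (Finset.sum_comm.trans ?_)
  rw [mem_range] at hk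
  have hch : Chain (low2I Q) lev2 k (2 * Q - 2 + Q - k)
      (fun T => lad (2 * Q - 2 + Q - 2 * k) (T - k)) (fun T => cv Q k T) :=
    chain2 (by omega) rfl (by omega) (by omega)
  have hT : ∀ T ∈ Icc k (2 * Q - 2 + Q - k),
      (∑ u, ∑ u', chanW Q k * vecMulVec (cv Q k T) (cv Q k T) u u' * M1 e u u') =
        chanW Q k * gval e k := by
    intro T hT
    rw [mem_Icc] at hT
    simp only [mul_assoc, ← Finset.mul_sum, vecMulVec_pair]
    exact congrArg _ (hch.pair_same hch (M1_invar he) hT.1 hT.2)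
  refine (Finset.sum_congr rfl hT).trans ?_
  rw [Finset.sum_const, Nat.card_Icc, nsmul_eq_mul,
    show (2 * Q - 2 + Q - k + 1 - k : ℕ) = 3 * Q - 1 - 2 * k by omega, Nat.cast_sub (by omega),
    Nat.cast_sub (by omega)]
  push_cast
  ring

theorem fermOp_pairs (X : Conf Q n → ℝ) :
    2 * fermEnergy X = ∑ pq : OPair n, X ⬝ᵥ (l11 Q pq.2).op (projM Q) X := by
  have hsw : ∀ pq : OPair n, (l11 Q pq.2).op (projM Q) X =
      (l11 Q (Ne.symm pq.2)).op (projM Q) X := by
    intro pq
    ext z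
    rw [Lens.op_apply, Lens.op_apply]
    refine Fintype.sum_equiv (Equiv.prodComm _ _) _ _ fun u => ?_
    simp only [l11, Lens.prod, lF, Equiv.prodComm_apply, Prod.swap, projM, Matrix.of_apply, proj1,
      Function.update_comm pq.2]
    congr 1
    refine Finset.sum_congr rfl fun M _ => ?_
    have hs : ∀ a b : ℕ, phi Q M b a = -phi Q M a b := by
      intro a b
      simp only [phi, Nat.add_comm b a, and_comm (a := b ≤ Q)]
      split_ifs
      · rw [mul_comm (Q.choose b : ℝ)]; ring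
      · simp
    rw [hs (z.2 pq.1.1) (z.2 pq.1.2), hs u.1 u.2, neg_mul_neg]
  have hsplit := (Finset.sum_filter_add_sum_filter_not univ (fun pq : OPair n => pq.1.1 < pq.1.2)
    (fun pq => X ⬝ᵥ (l11 Q pq.2).op (projM Q) X)).symm
  rw [hsplit, fermEnergy_eq, fermOp, LinearMap.sum_apply, dotProduct_sum, two_mul]
  congr 1
  refine Finset.sum_bij (fun pq _ => (⟨(pq.1.2, pq.1.1), Ne.symm pq.2⟩ : OPair n)) ?_ ?_ ?_ ?_
  · intro pq hpq
    simp only [mem_filter, mem_univ, true_and] at hpq ⊢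
    exact not_lt.2 hpq.le
  · intro a _ b _ h
    simp only [Subtype.mk.injEq, Prod.mk.injEq] at h
    exact Subtype.ext (Prod.ext h.2 h.1)
  · intro b hb
    simp only [mem_filter, mem_univ, true_and, not_lt] at hb
    exact ⟨⟨(b.1.2, b.1.1), Ne.symm b.2⟩, by simpa using lt_of_le_of_ne hb (Ne.symm b.2), rfl⟩
  · intro pq _
    rw [hsw pq]

/-- The embedding of impurity and pair centre into impurity and two fermions. -/
noncomputable def cmMap (Q : ℕ) : Matrix (Imp Q × (Orb Q × Orb Q)) (Imp Q × Imp Q) ℝ :=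
  fun u x => if u.1 = x.1 then phi Q x.2 u.2.1 u.2.2 else 0

theorem cmMap_proj (Q : ℕ) :
    cmMap Q * (cmMap Q)ᵀ = (1 : Matrix (Imp Q) (Imp Q) ℝ) ⊗ₖ projM Q := by
  ext u x
  simp only [Matrix.mul_apply, Fintype.sum_prod_type, cmMap, Matrix.transpose_apply, ite_mul,
    mul_ite, zero_mul, mul_zero, Finset.sum_ite_irrel, Finset.sum_const_zero, Finset.sum_ite_eq,
    Finset.mem_univ, if_true]
  simp [Matrix.one_apply, projM, proj1, eq_comm]

theorem cmMap_vec (hQ : 4 ≤ Q) (k T : ℕ) (hk : k ≤ T) :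
    cmMap Q *ᵥ (vec2 (coup (2 * Q - 2) (2 * Q - 2) k T)) =
      fun u => -vec3 Q (k + 1) 1 (T + 1) u := by
  ext u
  obtain ⟨i, a, b⟩ := u
  simp only [mulVec, dotProduct, Fintype.sum_prod_type, cmMap, ite_mul, zero_mul,
    Finset.sum_ite_irrel, Finset.sum_const_zero, Finset.sum_ite_eq, Finset.mem_univ, if_true,
    vec2, vec3, pv, show k + 1 - 1 = k by omega, show T + 1 - 1 = T by omega, mul_one]
  by_cases hab : 1 ≤ (a : ℕ) + b ∧ (a : ℕ) + b ≤ 2 * Q - 1
  · rw [if_pos hab.1, Finset.sum_eq_single ⟨(a : ℕ) + b - 1, by omega⟩]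
    · rw [phi_eq_coup (by omega) (by simp only; omega)]
      simp only [show (a : ℕ) + b - 1 + 1 = (a : ℕ) + b by omega]
      ring
    · intro M _ hM
      rw [phi, if_neg, zero_mul]
      exact fun h => hM (Fin.ext (by simp only; omega))
    · simp
  · rw [Finset.sum_eq_zero fun M _ => by
      have := M.isLt
      rw [phi, if_neg (by omega), zero_mul]]
    split_ifs with h
    · rw [coup_out (k := 1) (by omega) (by omega) (by omega), mul_zero, neg_zero]
    · rw [neg_zero]

/-- The fermion energy dominates the blocks with pair channel one. -/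
theorem ferm_sum (hQ : 4 ≤ Q) (he : InvFamily e) (Lmax : ℕ) (hL : Lmax ≤ Q) :
    ∑ L ∈ Icc 1 Lmax, (4 * (Q : ℝ) - 1 - 2 * L) * bval e L 1 1 ≤ 2 * ∑ j, fermEnergy (e j) := by
  have hop : ∀ (pq : OPair n) (X : Conf Q n → ℝ), (l11 Q pq.2).op (projM Q) X =
      (l011 Q pq.2).op ((1 : Matrix (Imp Q) (Imp Q) ℝ) ⊗ₖ projM Q) X := by
    intro pq X
    rw [l011, Lens.op_kron, Lens.op_one]
  have hs : 2 * ∑ j, fermEnergy (e j) =
      ∑ u, ∑ u', (cmMap Q * (cmMap Q)ᵀ) u u' * M2 e u u' := by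
    rw [cmMap_proj, M2, ← sform_pair, Finset.mul_sum]
    exact Finset.sum_congr rfl fun j _ => by
      rw [fermOp_pairs]; exact Finset.sum_congr rfl fun pq _ => by rw [hop]
  set N : Matrix (Imp Q × Imp Q) (Imp Q × Imp Q) ℝ := (cmMap Q)ᵀ * M2 e * cmMap Q
  have htr : ∑ u, ∑ u', (cmMap Q * (cmMap Q)ᵀ) u u' * M2 e u u' = N.trace := by
    have hs' : ∀ u u', M2 e u u' = M2 e u' u := fun u u' =>
      congrFun (congrFun (M2_invar he).symm u') u
    simp only [N]
    rw [Matrix.mul_assoc, Matrix.trace_mul_comm, Matrix.mul_assoc, Matrix.trace]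
    simp only [Matrix.diag, Matrix.mul_apply (M := M2 e)]
    refine Finset.sum_congr rfl fun u _ => Finset.sum_congr rfl fun u' _ => ?_
    rw [mul_comm, hs' u u']
    congr 1
    simp only [Matrix.mul_apply, Matrix.transpose_apply]
    exact Finset.sum_congr rfl fun x _ => mul_comm _ _
  set s := (range (2 * Q - 1)).sigma (fun k => Icc k (2 * Q - 2 + (2 * Q - 2) - k))
  set v : (_ : ℕ) × ℕ → Imp Q × Imp Q → ℝ := fun p => vec2 (coup (2 * Q - 2) (2 * Q - 2) p.1 p.2)
  have hres : ∀ x y, ∑ p ∈ s, v p x * v p y = if x = y then 1 else 0 := by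
    intro x y
    have h := coup_resolve (A := 2 * Q - 2) (B := 2 * Q - 2) (D := 2 * Q - 1) (E := 2 * Q - 1)
      (by omega) (by omega) x y
    rwa [Nat.min_self, show 2 * Q - 2 + 1 = 2 * Q - 1 by omega] at h
  have htr2 : N.trace = ∑ p ∈ s, v p ⬝ᵥ (N *ᵥ v p) := by
    have : ∀ p, v p ⬝ᵥ (N *ᵥ v p) = ∑ x, ∑ y, (v p x * v p y) * N x y := fun p => by
      simp only [dotProduct, mulVec, Finset.mul_sum]
      exact Finset.sum_congr rfl fun x _ => Finset.sum_congr rfl fun y _ => by ring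
    simp only [this]
    rw [Finset.sum_comm]
    refine Finset.sum_congr rfl fun x _ => ?_
    rw [Finset.sum_comm, Finset.sum_eq_single x]
    · rw [← Finset.sum_mul, hres, if_pos rfl, one_mul]; rfl
    · intro y _ hy
      rw [← Finset.sum_mul, hres, if_neg (Ne.symm hy), zero_mul]
    · simp
  have hval : ∀ p ∈ s, v p ⬝ᵥ (N *ᵥ v p) =
      vec3 Q (p.1 + 1) 1 (p.2 + 1) ⬝ᵥ (M2 e *ᵥ vec3 Q (p.1 + 1) 1 (p.2 + 1)) := by
    intro p hp
    simp only [s, mem_sigma, mem_range, mem_Icc] at hp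
    rw [← mulVec_mulVec, ← mulVec_mulVec, dotProduct_mulVec, ← mulVec_transpose,
      Matrix.transpose_transpose, cmMap_vec hQ p.1 p.2 hp.2.1]
    have hneg : (fun u => -vec3 Q (p.1 + 1) 1 (p.2 + 1) u) = -vec3 Q (p.1 + 1) 1 (p.2 + 1) := rfl
    rw [hneg, mulVec_neg, dotProduct_neg, neg_dotProduct, neg_neg]
  rw [hs, htr, htr2, Finset.sum_congr rfl hval, Finset.sum_sigma]
  have hstep : ∀ L ∈ Icc 1 Lmax, (4 * (Q : ℝ) - 1 - 2 * L) * bval e L 1 1 =
      ∑ T ∈ Icc (L - 1) (2 * Q - 2 + (2 * Q - 2) - (L - 1)),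
        vec3 Q (L - 1 + 1) 1 (T + 1) ⬝ᵥ (M2 e *ᵥ vec3 Q (L - 1 + 1) 1 (T + 1)) := by
    intro L hL'
    rw [mem_Icc] at hL'
    have hch := chain3 (Q := Q) (L := L) (m := 1) (by omega) (by omega) hL'.1 (by omega) (by omega)
    rw [show L - 1 + 1 = L by omega]
    have : ∀ T ∈ Icc (L - 1) (2 * Q - 2 + (2 * Q - 2) - (L - 1)),
        vec3 Q L 1 (T + 1) ⬝ᵥ (M2 e *ᵥ vec3 Q L 1 (T + 1)) = bval e L 1 1 := by
      intro T hT
      rw [mem_Icc] at hT
      exact hch.pair_same hch (M2_invar he) (by omega) (by omega)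
    rw [Finset.sum_congr rfl this, Finset.sum_const, Nat.card_Icc, nsmul_eq_mul,
      show (2 * Q - 2 + (2 * Q - 2) - (L - 1) + 1 - (L - 1) : ℕ) = 4 * Q - 1 - 2 * L by omega,
      Nat.cast_sub (by omega), Nat.cast_sub (by omega)]
    push_cast
    ring
  rw [Finset.sum_congr rfl hstep]
  refine le_of_eq_of_le ?_ (Finset.sum_le_sum_of_subset_of_nonneg (s := range Lmax)
    (Finset.range_subset_range.2 (by omega)) fun k _ _ => Finset.sum_nonneg fun T _ =>
      sform_nonneg _ _ _ _)
  refine Finset.sum_bij (fun L _ => L - 1) ?_ ?_ ?_ (fun L _ => rfl)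
  · intro L hL'; simp only [mem_Icc] at hL'; simp only [mem_range]; omega
  · intro a ha b hb h; simp only [mem_Icc] at ha hb; omega
  · intro k hk; simp only [mem_range] at hk; exact ⟨k + 1, by simp only [mem_Icc]; omega, rfl⟩

theorem M1_expand (hQ : 4 ≤ Q) (he : InvFamily e) (u u' : Imp Q × Orb Q)
    (h : lev2 u + 2 ≤ Q) (h' : lev2 u' + 2 ≤ Q) :
    M1 e u u' = if lev2 u = lev2 u' then
      ∑ k ∈ range (lev2 u + 1), cv Q k (lev2 u) u * cv Q k (lev2 u) u' * gval e k else 0 := by
  split_ifs with hT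
  · set T := lev2 u
    have hr : ∀ w x : Imp Q × Orb Q, lev2 w = T →
        ∑ k ∈ range (T + 1), cv Q k T w * cv Q k T x = if w = x then 1 else 0 := by
      intro w x hw
      have hr := coup_resolve_level (A := 2 * Q - 2) (B := Q) (by omega) rfl w x (by omega) (by omega)
      rwa [hw] at hr
    rw [form_expand (range (T + 1)) (range (T + 1)) (fun k => cv Q k T) (M1 e) u u'
      (fun x => hr u x rfl) (fun x => hr u' x hT.symm)]
    refine Finset.sum_congr rfl fun k hk => ?_
    rw [mem_range] at hk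
    have hch : ∀ a, a ≤ T → Chain (low2I Q) lev2 a ((fun a => 2 * Q - 2 + Q - a) a)
        ((fun a T => lad (2 * Q - 2 + Q - 2 * a) (T - a)) a) ((fun a T => cv Q a T) a) :=
      fun a ha => chain2 (by omega) rfl (by omega) (by omega)
    rw [Finset.sum_eq_single k]
    · congr 1
      exact (hch k (by omega)).pair_same (hch k (by omega)) (M1_invar he) (by omega)
        (by simp only; omega)
    · intro k' hk' hne
      rw [mem_range] at hk'
      have := pair_family (top := fun a => 2 * Q - 2 + Q - a)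
        (c := fun a T => lad (2 * Q - 2 + Q - 2 * a) (T - a)) (v := fun a T => cv Q a T)
        (v' := fun a T => cv Q a T) (hch k (by omega)) (hch k' (by omega)) (M1_invar he)
        (T := T) (T' := T) (by omega) (by omega) (by omega) (by omega)
      rw [this, if_neg (fun hh => hne hh.1.symm), mul_zero]
    · simp [hk]
  · exact (M1_invar he).graded u u' hT

theorem bval_even (he : InvFamily e) {L m : ℕ} (hm : ¬Odd m) (m' : ℕ) : bval e L m m' = 0 := by
  rw [bval, M2, sform_mulVec]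
  refine Finset.sum_eq_zero fun pq _ => ?_
  rcases isEmpty_or_nonempty (Imp Q × (Orb Q × Orb Q)) with h | h
  · simp [dotProduct]
  set o := Classical.arbitrary (Imp Q × (Orb Q × Orb Q))
  rw [mform_gram e _ o]
  refine Finset.sum_eq_zero fun j _ => ?_
  have hz : (l011 Q pq.2).op (vecMulVec (Pi.single o 1) (vec3 Q L m L)) (e j) = 0 := by
    ext z
    simp only [Lens.op_apply, vecMulVec_apply, mul_assoc, ← Finset.mul_sum, Pi.zero_apply]
    refine mul_eq_zero.2 (Or.inr ?_)
    have hanti : ∀ u : Imp Q × (Orb Q × Orb Q),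
        vec3 Q L m L (u.1, (u.2.2, u.2.1)) * e j ((l011 Q pq.2).put z (u.1, (u.2.2, u.2.1))) =
          -(vec3 Q L m L u * e j ((l011 Q pq.2).put z u)) := by
      intro u
      have hev : Even m := Nat.not_odd_iff_even.1 hm
      rw [vec3_swap, hev.neg_one_pow, one_mul]
      have hx := (he.allowed j).1 u.1 (Equiv.swap pq.1.1 pq.1.2)
        (Function.update (Function.update z.2 pq.1.1 u.2.1) pq.1.2 u.2.2)
      rw [Equiv.Perm.sign_swap pq.2] at hx
      have e1 : Function.update (Function.update z.2 pq.1.1 u.2.1) pq.1.2 u.2.2 ∘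
          Equiv.swap pq.1.1 pq.1.2 =
          Function.update (Function.update z.2 pq.1.1 u.2.2) pq.1.2 u.2.1 := by
        funext r
        rcases eq_or_ne r pq.1.2 with h2 | h2
        · subst h2; simp [pq.2]
        · rcases eq_or_ne r pq.1.1 with h1 | h1
          · subst h1; simp [pq.2]
          · simp [Equiv.swap_apply_of_ne_of_ne h1 h2, h1, h2]
      rw [e1] at hx
      push_cast at hx
      simp only [l011, l11, Lens.prod, lI, lF]
      rw [hx]
      ring
    let σ : (Imp Q × (Orb Q × Orb Q)) ≃ (Imp Q × (Orb Q × Orb Q)) :=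
      Equiv.prodCongr (Equiv.refl _) (Equiv.prodComm _ _)
    have h2 := Equiv.sum_comp σ (fun u => vec3 Q L m L u * e j ((l011 Q pq.2).put z u))
    have h3 : ∀ u, (fun u => vec3 Q L m L u * e j ((l011 Q pq.2).put z u)) (σ u) =
        -(vec3 Q L m L u * e j ((l011 Q pq.2).put z u)) := fun u => hanti u
    simp only [h3, Finset.sum_neg_distrib] at h2
    linarith
  rw [hz, zero_dotProduct]

theorem bval_symm (he : InvFamily e) (L m m' : ℕ) : bval e L m m' = bval e L m' m := by
  rw [bval, bval, dotProduct_mulVec, ← mulVec_transpose, (M2_invar he).symm, dotProduct_comm]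

theorem M2_expand (hQ : 4 ≤ Q) (he : InvFamily e) (u u' : Imp Q × (Orb Q × Orb Q))
    (h : 4 * lev3 u ≤ Q) (h' : 4 * lev3 u' ≤ Q) :
    M2 e u u' = if lev3 u = lev3 u' then
      ∑ L ∈ range (lev3 u + 1), ∑ m ∈ (range (L + 1)).filter Odd, ∑ m' ∈ (range (L + 1)).filter Odd,
        vec3 Q L m (lev3 u) u * vec3 Q L m' (lev3 u) u' * bval e L m m' else 0 := by
  split_ifs with hT
  · set U := lev3 u
    set s := (range (U + 1)).sigma (fun L => range (L + 1))
    have hr : ∀ w x, lev3 w = U → ∑ p ∈ s, vec3 Q p.1 p.2 U w * vec3 Q p.1 p.2 U x =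
        if w = x then 1 else 0 := by
      intro w x hw
      have hr := pv_resolve w x (by omega)
      rwa [hw] at hr
    rw [form_expand s s (fun p => vec3 Q p.1 p.2 U) (M2 e) u u' (fun x => hr u x rfl)
      (fun x => hr u' x hT.symm), Finset.sum_sigma]
    refine Finset.sum_congr rfl fun L hL => ?_
    rw [mem_range] at hL
    have hch : ∀ a m, a ≤ U → m ≤ a → Chain (low3M Q) lev3 a ((fun a => 4 * Q - 2 - a) a)
        ((fun a U => lad (4 * Q - 2 - 2 * a) (U - a)) a) (fun U => vec3 Q a m U) :=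
      fun a m ha hm => chain3 (by omega) (by omega) hm (by omega) (by omega)
    rw [← Finset.sum_filter_add_sum_filter_not (range (L + 1)) Odd]
    have hz : ∀ a m a' m', a ≤ U → m ≤ a → a' ≤ U → m' ≤ a' →
        vec3 Q a m U ⬝ᵥ (M2 e *ᵥ vec3 Q a' m' U) = if a = a' then bval e a m m' else 0 := by
      intro a m a' m' ha hm ha' hm'
      have h1 := pair_family (top := fun a => 4 * Q - 2 - a)
        (c := fun a U => lad (4 * Q - 2 - 2 * a) (U - a)) (v := fun a U => vec3 Q a m U)
        (v' := fun a U => vec3 Q a m' U) (hch a m ha hm) (hch a' m' ha' hm') (M2_invar he)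
        (T := U) (T' := U) ha (by omega) ha' (by omega)
      rw [h1]
      simp [bval]
    have hinner : ∀ m ∈ range (L + 1), (∑ q ∈ s, vec3 Q L m U u * vec3 Q q.1 q.2 U u' *
        (vec3 Q L m U ⬝ᵥ (M2 e *ᵥ vec3 Q q.1 q.2 U))) =
        ∑ m' ∈ range (L + 1), vec3 Q L m U u * vec3 Q L m' U u' * bval e L m m' := by
      intro m hm
      rw [mem_range] at hm
      rw [Finset.sum_sigma, Finset.sum_eq_single L]
      · refine Finset.sum_congr rfl fun m' hm' => ?_
        rw [mem_range] at hm'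
        rw [hz L m L m' (by omega) (by omega) (by omega) (by omega), if_pos rfl]
      · intro a' ha' hne
        rw [mem_range] at ha'
        refine Finset.sum_eq_zero fun m' hm' => ?_
        rw [mem_range] at hm'
        rw [hz L m a' m' (by omega) (by omega) (by omega) (by omega), if_neg (Ne.symm hne), mul_zero]
      · intro hn; exact absurd (mem_range.2 hL) hn
    rw [Finset.sum_eq_zero (s := (range (L + 1)).filter (fun m => ¬Odd m)) ?_, add_zero]
    · refine Finset.sum_congr rfl fun m hm => ?_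
      simp only [mem_filter] at hm
      rw [hinner m hm.1]
      refine (Finset.sum_subset (Finset.filter_subset _ _) fun m' hm' hn => ?_).symm
      have : ¬Odd m' := fun h => hn (mem_filter.2 ⟨hm', h⟩)
      rw [bval_symm he, bval_even he this, mul_zero]
    · intro m hm
      simp only [mem_filter] at hm
      rw [hinner m hm.1]
      exact Finset.sum_eq_zero fun m' _ => by rw [bval_even he hm.2, mul_zero]
  · exact (M2_invar he).graded u u' hT

theorem bval_abs_le (hQ : 4 ≤ Q) (he : InvFamily e) {L m m' : ℕ} (hL : 4 * L ≤ Q) (hm : m ≤ L)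
    (hm' : m' ≤ L) : |bval e L m m'| ≤ tval hQ e * ((L : ℝ) + 1) ^ 6 := by
  have hb : ∀ r, r ≤ L → ∑ u, |vec3 Q L r L u| ≤ ((L : ℝ) + 1) ^ 3 := by
    intro r hr
    set s : Finset (Imp Q × (Orb Q × Orb Q)) := univ.filter (fun u => lev3 u = L)
    rw [← Finset.sum_subset (subset_univ s) fun u _ hu => by
      rw [abs_eq_zero]
      by_contra h
      refine hu (mem_filter.2 ⟨mem_univ _, ?_⟩)
      exact (chain3 (Q := Q) (L := L) (m := r) (by omega) (by omega) hr (by omega) (by omega)).grade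
        L le_rfl (by omega) u h]
    refine (Finset.sum_le_card_nsmul s _ 1 fun u _ => vec3_abs_le u).trans ?_
    rw [nsmul_eq_mul, mul_one]
    have : s.card ≤ (range (L + 1) ×ˢ (range (L + 1) ×ˢ range (L + 1))).card := by
      refine Finset.card_le_card_of_injOn (fun u => ((u.1 : ℕ), ((u.2.1 : ℕ), (u.2.2 : ℕ))))
        (fun u hu => ?_) (fun u _ v _ huv => ?_)
      · have hu' : (u.1 : ℕ) + (u.2.1 : ℕ) + (u.2.2 : ℕ) = L :=
          (mem_filter.1 (Finset.mem_coe.1 hu)).2
        simp only [coe_product, Set.mem_prod, coe_range, Set.mem_Iio]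
        omega
      · simp only [Prod.mk.injEq] at huv
        exact Prod.ext (Fin.ext huv.1) (Prod.ext (Fin.ext huv.2.1) (Fin.ext huv.2.2))
    simp only [card_product, card_range] at this
    calc (s.card : ℝ) ≤ (((L + 1) * ((L + 1) * (L + 1)) : ℕ) : ℝ) := by exact_mod_cast this
      _ = ((L : ℝ) + 1) ^ 3 := by push_cast; ring
  refine (form_bound (sform_symm e _ _) (sform_nonneg e _ _) (M2_diag_le hQ he) _ _).trans ?_
  refine mul_le_mul_of_nonneg_left ?_ (tval_nonneg hQ e)
  rw [show ((L : ℝ) + 1) ^ 6 = ((L : ℝ) + 1) ^ 3 * ((L : ℝ) + 1) ^ 3 by ring]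
  exact mul_le_mul (hb m hm) (hb m' hm') (Finset.sum_nonneg fun u _ => abs_nonneg _) (by positivity)

/-- A form below `v 1 ^ 2` pairs below the `(1, 1)` block. -/
theorem bval_form (e : J → Conf Q n → ℝ) (L : ℕ) (s : Finset ℕ) (D : ℕ → ℕ → ℝ)
    (hD : ∀ v : ℕ → ℝ, ∑ m ∈ s, ∑ m' ∈ s, D m m' * v m * v m' ≤ v 1 ^ 2) :
    ∑ m ∈ s, ∑ m' ∈ s, D m m' * bval e L m m' ≤ bval e L 1 1 := by
  rcases isEmpty_or_nonempty (Imp Q × (Orb Q × Orb Q)) with h | h
  · simp [bval, dotProduct]
  set o := Classical.arbitrary (Imp Q × (Orb Q × Orb Q))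
  set F : ℕ → OPair n × J × Conf Q n → ℝ := fun m x =>
    (l011 Q x.1.2).op (vecMulVec (Pi.single o 1) (vec3 Q L m L)) (e x.2.1) x.2.2
  have hB : ∀ m m', bval e L m m' = ∑ x, F m x * F m' x := fun m m' => by
    rw [bval, M2, sform_mulVec, Fintype.sum_prod_type]
    refine Finset.sum_congr rfl fun pq _ => ?_
    rw [mform_gram e _ o, Fintype.sum_prod_type]
    exact Finset.sum_congr rfl fun j _ => rfl
  simp only [hB, Finset.mul_sum]
  refine (le_of_eq ((Finset.sum_congr rfl fun m _ => Finset.sum_comm).trans Finset.sum_comm)).trans ?_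
  refine Finset.sum_le_sum fun x _ => ?_
  have := hD fun m => F m x
  rw [sq] at this
  refine le_trans (le_of_eq ?_) this
  exact Finset.sum_congr rfl fun m _ => Finset.sum_congr rfl fun m' _ => (mul_assoc _ _ _).symm

end Vale.Agent.P359
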